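import Vale.Agent.P287Q.Mf.Defs
import Vale.Agent.P287Q.Int.Defs
import Vale.Agent.P287Q.Lat.Defs
import Vale.Agent.P267.H533.InstWedge
import Vale.Agent.P267.H283.Elk
import Vale.Agent.P267.H857.Lin

/-!
# P287, surfaces: forms representing cohomology classes (definitions and statements)
-/

namespace Vale.Agent.P287Q.Sf

open Set Function Topology Filter P291Z P267.FL P267.BlockC P267.RR
open P267.H533 (AX TI Part WF ψC)
open P287Q.Zc (Lk)
open P287Q.Mf (frm IsHg cch)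
open scoped ContDiff Manifold

section coch

variable {X : Type}

/-- The cochain of degree one given by a function of two points. -/
def c1 (g : X → X → ℂ) : Coch X :=
  ⟨fun l => match l with
    | [x, y] => g x y
    | _ => 0, rfl, 2, fun l hl => by
      match l, hl with
      | _ :: _ :: _ :: _, _ => rfl⟩

/-- The cochain of degree two given by a function of three points. -/
def c2 (g : X → X → X → ℂ) : Coch X :=
  ⟨fun l => match l with
    | [x, y, z] => g x y z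
    | _ => 0, rfl, 3, fun l hl => by
      match l, hl with
      | _ :: _ :: _ :: _ :: _, _ => rfl⟩

@[simp] theorem c1_val (g : X → X → ℂ) (x y : X) : (c1 g).1 [x, y] = g x y := rfl

@[simp] theorem c2_val (g : X → X → X → ℂ) (x y z : X) : (c2 g).1 [x, y, z] = g x y z := rfl

theorem isDeg_c1 (g : X → X → ℂ) : IsDeg 1 (c1 g) := fun l hl => by
  match l, hl with
  | [], _ => rfl
  | [_], _ => rfl
  | [_, _], hl => exact absurd rfl hl
  | _ :: _ :: _ :: _, _ => rfl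

theorem isDeg_c2 (g : X → X → X → ℂ) : IsDeg 2 (c2 g) := fun l hl => by
  match l, hl with
  | [], _ => rfl
  | [_], _ => rfl
  | [_, _], _ => rfl
  | [_, _, _], hl => exact absurd rfl hl
  | _ :: _ :: _ :: _ :: _, _ => rfl

end coch

section forms

variable {X : Type} [TopologicalSpace X] [ChartedSpace C2 X]

/-- Near the diagonal point `x` the cochain `a` is the smooth function `f` of the coordinates. -/
def SmF {k : ℕ} (a : Coch X) (x : X) (f : (Fin (k + 1) → C2) → ℂ) : Prop :=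
  ContDiff ℝ ∞ f ∧
    ∀ᶠ y : Fin (k + 1) → X in 𝓝 fun _ => x, a.1 (List.ofFn y) = f fun i => chartAt C2 x (y i)

/-- The part of degree `k` of `a` is smooth near the diagonal. -/
def Sm (k : ℕ) (a : Coch X) : Prop := ∀ x, ∃ f : (Fin (k + 1) → C2) → ℂ, SmF a x f

/-- The cochain `a` is smooth near the diagonal and `F` is its de Rham form. -/
def SRp (F : TwoF X) (a : Coch X) : Prop :=
  ∀ x, ∃ f : (Fin (2 + 1) → C2) → ℂ, SmF a x f ∧
    ∀ v, frm f (chartAt C2 x x) v = P267.H857.alt2 (F.f20 x) (F.f11 x) (F.f02 x) v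

/-- Forms of type `(2, 0)`. -/
def Ty20 (F : TwoF X) : Prop := F.f11 = 0 ∧ F.f02 = 0

/-- Forms of type `(1, 1)`. -/
def Ty11 (F : TwoF X) : Prop := F.f20 = 0 ∧ F.f02 = 0

/-- Smooth closed forms. -/
def SC (F : TwoF X) : Prop := F.Smooth ∧ F.Closed

/-- Holomorphic two-forms. -/
def Hol2 (F : TwoF X) : Prop := Ty20 F ∧ SC F

/-- The geometric genus is one, with generator `η`. -/
def PG (η : TwoF X) : Prop := Hol2 η ∧ η ≠ 0 ∧ ∀ F, Hol2 F → ∃ t : ℂ, F = t • η

/-- The first Chern form. -/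
noncomputable def ch1 (L : ALB X) : TwoF X := (Complex.I / (2 * Real.pi)) • L.L.curv

variable {ι : Type} [Fintype ι]

/-- The Whitney form of a cochain. -/
noncomputable def WC (P : Part (AX X) ι) (a : Coch X) : TwoF X :=
  WF (ψC P) fun i j k => a.1 [P.v i, P.v j, P.v k]

/-- The smoothing of a cochain of degree two. -/
noncomputable def smo (P : Part (AX X) ι) (a : Coch X) : Coch X :=
  c2 fun x y z => ∑ i, ∑ j, ∑ k, a.1 [P.v i, P.v j, P.v k] * (ψC P i x * ψC P j y * ψC P k z)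

/-- The homotopy between a cocycle and its smoothing. -/
noncomputable def prs (P : Part (AX X) ι) (a : Coch X) : Coch X :=
  c1 fun x y => ∑ i, ψC P i x * a.1 [P.v i, x, y] -
    ∑ i, ∑ j, ψC P i x * ψC P j y * a.1 [P.v i, P.v j, y]

/-- The integral of the Whitney form of a cochain of degree four. -/
noncomputable def lamC [IsManifold 𝓘(ℂ, C2) ω X] [T2Space X] (P : Part (AX X) ι) (a : Coch X) :
    ℂ :=
  ∑ i, ∑ j, ∑ k, ∑ l, ∑ m, a.1 [P.v i, P.v j, P.v k, P.v l, P.v m] *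
    (((TI X).J (P.ψ i) (P.ψ j) (P.ψ k) (P.ψ l) (P.ψ m) : ℝ) : ℂ)

/-- `I` vanishes on a class of degree four only if the class vanishes, and is normalised by the
complex orientation. -/
structure Intg (I : H X →ₗ[ℂ] ℂ) : Prop where
  inj : ∀ c, H.IsDeg 4 c → I c = 0 → c = 0
  pt : ∀ x a, supp (δ a) = ∅ → supp a ⊆ {x} → P269.Orb.LocCo (pull (cch 2 x) a) 1 →
    I (hcls a) = 1

/-- The topological input: integration and the unimodular lattice of integral classes. -/
structure Top (I : H X →ₗ[ℂ] ℂ) (B : LinearMap.BilinForm ℤ (Lk X 2)) : Prop extends Intg I where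
  free : Module.Free ℤ (Lk X 2)
  fin : Module.Finite ℤ (Lk X 2)
  span : ∀ c, H.IsDeg 2 c → c ∈ Submodule.span ℂ (Lk X 2 : Set (H X))
  pair : ∀ x y, (B x y : ℂ) = I (x.1 * y.1)
  uni : Bijective B

end forms

section metric

variable {X : Type} [MetricSpace X] [ChartedSpace C2 X]

/-- `p` holds for all sufficiently fine partitions of unity. -/
def Fn (p : (n : ℕ) → Part (AX X) (Fin n) → Prop) : Prop :=
  ∃ η > 0, ∀ n (P : Part (AX X) (Fin n)), P.Fine η → p n P

theorem Fn.and {p q : (n : ℕ) → Part (AX X) (Fin n) → Prop} (hp : Fn p) (hq : Fn q) :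
    Fn fun n P => p n P ∧ q n P := by
  obtain ⟨η, h0, h⟩ := hp
  obtain ⟨η', h0', h'⟩ := hq
  exact ⟨min η η', lt_min h0 h0', fun n P hP =>
    ⟨h n P fun a x hx => (hP a x hx).trans_le (min_le_left _ _),
      h' n P fun a x hx => (hP a x hx).trans_le (min_le_right _ _)⟩⟩

theorem Fn.mono {p q : (n : ℕ) → Part (AX X) (Fin n) → Prop} (hp : Fn p)
    (h : ∀ n P, p n P → q n P) : Fn q := by
  obtain ⟨η, h0, h1⟩ := hp
  exact ⟨η, h0, fun n P hP => h n P (h1 n P hP)⟩

/-- The closed form `F` represents the class `c` of degree two. -/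
def Rp (F : TwoF X) (c : H X) : Prop :=
  SC F ∧ ∃ a : Zs X, IsDeg 2 a.1 ∧ H.mk a = c ∧ Fn fun _ P => ExactTwo (F - WC P a.1)

variable (X)

/-- Fine partitions exist. -/
def StFine : Prop := ∀ η > 0, ∃ (n : ℕ) (P : Part (AX X) (Fin n)), P.Fine η

theorem Fn.exists {X : Type} [MetricSpace X] [ChartedSpace C2 X] (h : StFine X)
    {p : (n : ℕ) → Part (AX X) (Fin n) → Prop} (hp : Fn p) : ∃ n P, p n P := by
  obtain ⟨η, h0, h1⟩ := hp
  obtain ⟨n, P, hP⟩ := h η h0
  exact ⟨n, P, h1 n P hP⟩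

/-- Whitney forms of a cocycle are closed, and their class does not depend on the partition. -/
def StW0 : Prop := ∀ a : Zs X, ∃ η > 0, ∀ n (P : Part (AX X) (Fin n)), P.Fine η →
  SC (WC P a.1) ∧ ∀ n' (P' : Part (AX X) (Fin n')), P'.Fine η → ExactTwo (WC P a.1 - WC P' a.1)

/-- The class of the Whitney form depends only on the class of the cocycle. -/
def StW1 : Prop := ∀ a a' : Zs X, H.mk a = H.mk a' →
  Fn fun _ P => ExactTwo (WC P a.1 - WC P a'.1)

/-- The basic properties of `Rp`. -/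
structure Api : Prop where
  ex : ∀ c : H X, H.IsDeg 2 c → ∃ F, Rp F c
  real : ∀ c ∈ Lk X 2, ∃ F : TwoF X, F.Real ∧ Rp F c
  add : ∀ (F G : TwoF X) c c', Rp F c → Rp G c' → Rp (F + G) (c + c')
  smul : ∀ (t : ℂ) (F : TwoF X) c, Rp F c → Rp (t • F) (t • c)
  exact : ∀ (F G : TwoF X) c, Rp F c → Rp G c → ExactTwo (F - G)
  of_exact : ∀ (F G : TwoF X) c, Rp F c → ExactTwo (G - F) → Rp G c

/-- Every closed form represents a class. -/
def StCls : Prop := ∀ F : TwoF X, SC F → ∃ c, Rp F c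

/-- Chern forms represent integral classes. -/
def StC1 : Prop := ∀ L : ALB X, ∃ c ∈ Lk X 2, Rp (ch1 L) c

/-- The point class. -/
def StPt [IsManifold 𝓘(ℂ, C2) ω X] : Prop := ∃ (x : X) (ρ : Coch X), supp (δ ρ) = ∅ ∧
  IsDeg 4 ρ ∧ supp ρ ⊆ {x} ∧ P269.Orb.LocCo (pull (cch 2 x) ρ) 1 ∧ Fn fun _ P => lamC P ρ = 1

/-- The cup product pairing is the pairing of forms. -/
def StPair : Prop := ∀ I : H X →ₗ[ℂ] ℂ, Intg I → ∀ (F G : TwoF X) c c', Rp F c → Rp G c' →
  I (c * c') = pair F G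

/-- The basic properties of `SRp`. -/
structure SApi : Prop where
  add : ∀ (F G : TwoF X) a b, SRp F a → SRp G b → SRp (F + G) (a + b)
  congr : ∀ (F : TwoF X) a b, supp (a - b) = ∅ → SRp F a → SRp F b
  ty20 : ∀ (F : TwoF X) a, SRp F a → (Ty20 F ↔ ∀ x, Mf.HgAt 2 0 a (chartAt C2 x) x)
  ty11 : ∀ (F : TwoF X) a, SRp F a → (Ty11 F ↔ ∀ x, Mf.HgAt 1 1 a (chartAt C2 x) x)

/-- Smoothing. -/
def StSmo : Prop := ∀ a : Zs X, IsDeg 2 a.1 → Fn fun _ P =>
  SRp (WC P a.1) (smo P a.1) ∧ supp (a.1 - smo P a.1 - δ (prs P a.1)) = ∅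

/-- The homotopy of a smooth cochain is smooth. -/
def StPrs : Prop := ∀ a : Coch X, Sm 2 a → Fn fun _ P => Sm 1 (prs P a)

/-- The form of the coboundary of a smooth cochain is exact. -/
def StD1 : Prop := ∀ b : Coch X, Sm 1 b → ∃ A : OneF X, A.Smooth ∧ SRp A.d (δ b)

/-- Exact forms are forms of coboundaries. -/
def StD2 : Prop := ∀ A : OneF X, A.Smooth → ∃ b : Coch X, IsDeg 1 b ∧ SRp A.d (δ b)

/-- Hodge types of classes and types of forms. -/
structure HApi : Prop where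
  hg20 : ∀ c : H X, IsHg 2 2 0 c ↔ ∃ F, Ty20 F ∧ Rp F c
  hg11 : ∀ c : H X, IsHg 2 1 1 c ↔ ∃ F, Ty11 F ∧ Rp F c

end metric

section geo

variable (X : Type) [TopologicalSpace X] [ChartedSpace C2 X]

/-- Positivity on forms of type `(2, 0)`. -/
def StPos : Prop := ∀ η : TwoF X, Ty20 η → η.Smooth → η ≠ 0 → 0 < (pair η η.bar).re

/-- `h^{0,2} = 1`. -/
def StPg : Prop := ∀ η : TwoF X, PG η → h2 (OX X) 0 0 = 1 ∧ ∀ F : TwoF X, F.Smooth →
  pair η F = 0 → ∃ w : X → Fin 2 → ℂ, Reg1 ∞ 0 w ∧ dbar1 0 w = F.f02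

/-- The canonical divisor of a holomorphic two-form and its components. -/
def StCan : Prop := ∀ η : TwoF X, Hol2 η → η ≠ 0 →
  ∃ (n : ℕ) (a : Fin n → ℕ) (A : Fin n → ALB X) (K : ALB X), IsCanon K.L ∧
    (∀ L : ALB X, isec K.L L.L = ∑ j, (a j : ℂ) * isec (A j).L L.L) ∧
    (∀ i j, i ≠ j → 0 ≤ (isec (A i).L (A j).L).re) ∧
    (∀ i, -2 ≤ (isec (A i).L (A i).L + isec K.L (A i).L).re) ∧ ∀ i, pair η (A i).L.curv = 0

/-- `h^{1,0} ≤ h^{0,1}`. -/
def StH10 : Prop := h10 X ≤ h1 (OX X) 0 0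

/-- Closed forms that are independent modulo exact forms. -/
def Ind {X : Type} [TopologicalSpace X] [ChartedSpace C2 X] {r : ℕ} (F : Fin r → TwoF X) : Prop :=
  (∀ i, SC (F i)) ∧ ∀ t : Fin r → ℂ, ExactTwo (∑ i, t i • F i) → t = 0

/-- `b₂ ≤ h^{1,1} + 2`. -/
def StFro : Prop := ∀ η : TwoF X, PG η → ∀ (r : ℕ) (F : Fin r → TwoF X), Ind F → r ≤ h11 X + 2

/-- Noether. -/
def StNoe : Prop := ∀ η : TwoF X, PG η → ∀ (r : ℕ) (F : Fin r → TwoF X), Ind F →
  ∀ K : ALB X, IsCanon K.L → r + (isec K.L K.L).re ≤ 22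

/-- The index theorem for real closed forms of type `(1, 1)`. -/
def StHI11 : Prop := ∀ E F : TwoF X, SC E → E.Real → Ty11 E → SC F → F.Real → Ty11 F →
  0 < (pair E E).re → pair E F = 0 → (pair F F).re ≤ 0

/-- The index theorem. -/
def StHI : Prop := ∀ η : TwoF X, PG η → ∀ E F : TwoF X, SC E → E.Real → pair η E = 0 →
  SC F → F.Real → pair η F = 0 → 0 < (pair E E).re → pair E F = 0 → (pair F F).re ≤ 0

/-- **Output.** The transcendental lattice of a surface with `p_g = 1` lies in a unimodular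
sublattice of signature `(3, n)`, `n ≤ 19`. -/
def StMain : Prop := ∀ (I : H X →ₗ[ℂ] ℂ) (B : LinearMap.BilinForm ℤ (Lk X 2)), Top I B →
  ∀ w : H X, w ≠ 0 → IsHg 2 2 0 w → (∀ c, IsHg 2 2 0 c → ∃ t : ℂ, c = t • w) →
  ∀ h : Lk X 2, I (w * h.1) = 0 → 0 < B h h →
  ∃ (M : Submodule ℤ (Lk X 2)) (n : ℕ), n ≤ 19 ∧ Bijective (B.restrict M) ∧
    Lat.Sig (B.restrict M) 3 n ∧
    ∀ x, (∀ y : Lk X 2, I (w * y.1) = 0 → B y x = 0) → x ∈ M

end geo

end Vale.Agent.P287Q.Sf
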