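import Vale.Agent.P287Q.Int.Lat
import Vale.Agent.P287Q.Sf.Defs

/-!
# P287, surfaces: the topological input from the integral orientation
-/

set_option linter.unusedSectionVars false

namespace Vale.Agent.P287Q.Sf

open Set Function Topology Filter P291Z P267.FL P267.BlockC P267.RR
open P287Q.Zc (Lk)
open P287Q.Mf (cch)

variable {X : Type} [TopologicalSpace X] [Nice X] [CompactSpace X] [ConnectedSpace X]

/-- On a connected space a class of degree zero is a multiple of one. -/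
theorem Top_deg_zero {y : H X} (hy : H.IsDeg 0 y) : ∃ t : ℂ, y = t • 1 := by
  obtain ⟨a, ha, h0, rfl⟩ := H.isDeg_iff.1 hy
  rw [h0.eq_fn] at ha
  obtain ⟨t, ht⟩ := (P269.Orb.cocycle_fn.1 ha).exists_eq_const
  exact ⟨t, by rw [h0.eq_fn, ht, ← hcls_one, ← hcls_smul t cocycle_one, ← fn_const]; rfl⟩

/-- A class of top degree with integral zero vanishes. -/
theorem Top_inj {d : ℤ} {β : BM X} (ho : P269.Orb.Ori d β) {c : H X} (hc : H.IsDeg d c)
    (h0 : P269.Loc.intg β c = 0) : c = 0 :=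
  Zc.ZLat.nondeg_deg ho hc fun y hy => by
    rw [sub_self] at hy
    obtain ⟨t, rfl⟩ := Top_deg_zero hy
    rw [smul_mul_assoc, one_mul, map_smul, h0, smul_zero]

variable [ChartedSpace C2 X]

theorem exists_top (hL : Zc.StLat) (β : BM X) (ho : Zc.OriZ 4 β)
    (hf : ∀ x a, supp (δ a) = ∅ → supp a ⊆ {x} → P269.Orb.LocCo (pull (cch 2 x) a) 1 →
      ev β a = 1) : ∃ B, Zc.IsForm β 2 B ∧ Top (P269.Loc.intg β) B := by
  obtain ⟨h1, -, h2⟩ := hL X 4 β ho
  obtain ⟨B, h3, h4, -⟩ := h2 2 rfl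
  exact ⟨B, h3, ⟨fun c hc h0 => Top_inj ho.ori hc h0, fun x a ha hs hl =>
    (P269.Loc.intg_hcls β ha).trans (hf x a ha hs hl)⟩, (h1 2).free, (h1 2).fin,
    fun c hc => (h1 2).span.symm ▸ hc, h3, h4⟩

theorem top_of (hL : Zc.StLat) (β : BM X) (ho : Zc.OriZ 4 β)
    (hf : ∀ x a, supp (δ a) = ∅ → supp a ⊆ {x} → P269.Orb.LocCo (pull (cch 2 x) a) 1 →
      ev β a = 1) (B : LinearMap.BilinForm ℤ (Lk X 2)) (hB : Zc.IsForm β 2 B) :
    Top (P269.Loc.intg β) B := by
  obtain ⟨B', h1, h2⟩ := exists_top hL β ho hf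
  have e : B = B' := LinearMap.ext₂ fun x y =>
    Int.cast_injective (α := ℂ) ((hB x y).trans (h1 x y).symm)
  exact e ▸ h2

end Vale.Agent.P287Q.Sf
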