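import Vale.Agent.P287Q.Sf.Defs
import Vale.Agent.P267.H994.WF
import Vale.Agent.P267.H995.Poin
import Vale.Agent.P267.H283.Canon

/-!
# P287, surfaces: closed forms and Chern forms represent cohomology classes
-/

set_option linter.unusedSectionVars false

namespace Vale.Agent.P287Q.Sf

open Set Function Topology Filter P291Z P267.FL P267.BlockC P267.RR
open P267.H533 (AX TI Part WF ψC)
open P267.H995 (Zig IsCoc GoodFam)
open P287Q.Zc (Lk)
open scoped ContDiff Manifold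

variable {X : Type} [MetricSpace X] [CompactSpace X] [ChartedSpace C2 X]
  [IsManifold 𝓘(ℂ, C2) ω X]

/-- A partition of unity, subordinate to the sets `V`. -/
def Cls_part {κ : Type} [Fintype κ] (Q : Part (AX X) κ) (V : κ → Set X) (hV : ∀ a, IsOpen (V a))
    (h : ∀ a, tsupport (Q.ψ a : X → ℝ) ⊆ V a) : P267.H995.Part X κ where
  U := V
  isOpen := hV
  ρ a := (Q.ψ a : X → ℝ)
  smooth a := P267.H533.AX_reg (Q.ψ a)
  supp := h
  sum x := by
    have h2 := congrArg (fun f : AX X => (f : X → ℝ) x) Q.sum_one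
    have h3 : ((∑ a, Q.ψ a : AX X) : X → ℝ) x = ∑ a, (Q.ψ a : X → ℝ) x := by
      rw [AddSubmonoidClass.coe_finsetSum, Finset.sum_apply]
    simp only [h3] at h2
    exact h2.trans (by simp)

theorem Cls_cocycle {g : X → X → X → ℂ} (h : ∀ p : X, ∃ N ∈ 𝓝 p, ∀ x ∈ N, ∀ y ∈ N, ∀ z ∈ N,
    ∀ w ∈ N, g y z w - g x z w + g x y w - g x y z = 0) : supp (δ (c2 g)) = ∅ :=
  supp_eq_empty.2 fun p => by
    obtain ⟨N, h1, h2⟩ := h p
    refine notMem_supp.2 ⟨N, h1, fun l hl => ?_⟩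
    by_cases h3 : (l.length : ℤ) = 2 + 1 + 1
    · match l, h3 with
      | [x, y, z, w], _ =>
        have := h2 x (hl x (by simp)) y (hl y (by simp)) z (hl z (by simp)) w (hl w (by simp))
        rw [δ_val]
        simp only [cob, List.length_cons, List.length_nil, Finset.sum_range_succ,
          Finset.sum_range_zero, List.eraseIdx_cons_zero, List.eraseIdx_cons_succ, c2_val]
        linear_combination this
      | [], h3 | [_], h3 | [_, _], h3 | [_, _, _], h3 => simp at h3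
      | _ :: _ :: _ :: _ :: _ :: _, h3 => simp only [List.length_cons] at h3; omega
    · exact (isDeg_c2 g).δ l h3

/-- The class of a zigzag. -/
theorem Cls_key {ι : Type} {U : ι → Set X} (hU : ∀ i, IsOpen (U i)) (hc : ∀ x, ∃ i, x ∈ U i)
    {F : TwoF X} (Z : Zig U F) (t : ℂ) : ∃ (c : X → ι) (a : Zs X),
      a.1 = c2 (fun x y z => -(t * Z.r (c x) (c y) (c z))) ∧
      Fn fun _ P => ExactTwo (t • F - WC P a.1) := by
  obtain ⟨ε, h0, h1⟩ := lebesgue_number_lemma_of_metric isCompact_univ hU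
    fun x _ => mem_iUnion.2 (hc x)
  choose c h2 using fun x => h1 x trivial
  refine ⟨c, ⟨_, Cls_cocycle fun p => ⟨_, Metric.ball_mem_nhds p h0, fun x hx y hy z hz w hw => ?_⟩⟩,
    rfl, ε, h0, fun n P hP => ?_⟩
  · have := Z.isCoc _ _ _ _ p (h2 x (Metric.mem_ball_comm.1 hx)) (h2 y (Metric.mem_ball_comm.1 hy))
      (h2 z (Metric.mem_ball_comm.1 hz)) (h2 w (Metric.mem_ball_comm.1 hw))
    linear_combination -t * this
  · let S := Cls_part P (fun a => U (c (P.v a))) (fun a => hU _) fun a x hx => h2 _ (hP a x hx)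
    obtain ⟨A, h3, h4⟩ :=
      ((Z.comp (fun a => c (P.v a)) (V := S.U) fun _ => subset_rfl).exact S).smul t
    refine ⟨A, h3, h4.symm.trans ?_⟩
    rw [smul_add, ← S.W_smul, sub_eq_add_neg, ← neg_neg (S.W _), ← S.W_neg, P267.H994.W_eq_WF]
    rfl

variable (X) in
theorem Cls_good : ∃ (n : ℕ) (U : Fin n → Set X), GoodFam U ∧ ∀ x, ∃ i, x ∈ U i := by
  obtain ⟨G, -⟩ := P267.H368.exists_goodCover_manifold (𝕜 := ℂ) (n := ω) (X := X) (by norm_num)
    (toEuclidean (E := C2)) (fun _ : Unit => univ) (fun _ => isOpen_univ) fun x => ⟨(), trivial⟩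
  exact ⟨_, G.U, P267.H995.goodFam G, G.exists_mem_U⟩

variable (X)

/-- **Every closed form represents a class.** -/
theorem cls : StCls X := fun F hF => by
  obtain ⟨n, U, h1, h2⟩ := Cls_good X
  obtain ⟨Z⟩ := P267.H995.exists_zig_closed h1 hF.1 hF.2
  obtain ⟨c, a, h3, h4⟩ := Cls_key h1.isOpen h2 Z 1
  rw [one_smul] at h4
  exact ⟨_, hF, a, h3 ▸ isDeg_c2 _, rfl, h4⟩

/-- **Chern forms represent integral classes.** -/
theorem c1Int : StC1 X := fun L => by
  have H := formFacts (curvThm X)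
  obtain ⟨n, U, h1, h2⟩ := Cls_good X
  obtain ⟨Z, m, -, h5⟩ := P267.H995.exists_zig L.L h1
  obtain ⟨c, a, h3, h4⟩ := Cls_key h1.isOpen h2 Z (Complex.I / (2 * Real.pi))
  have h6 : IsDeg 2 a.1 := h3 ▸ isDeg_c2 _
  refine ⟨_, Zc.mem_Lk.2 ⟨⟨a.1, fun l => ?_, a.2, hcls_val a⟩, a, h6, rfl⟩,
    ⟨H.smooth_smul _ _ (H.curv_smooth L), H.closed_smul _ _ (H.curv_smooth L) (H.curv_closed L)⟩,
    a, h6, rfl, h4⟩
  by_cases h7 : (l.length : ℤ) = 2 + 1
  · match l, h7 with
    | [x, y, z], _ =>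
      have hp : (Real.pi : ℂ) ≠ 0 := by exact_mod_cast Real.pi_ne_zero
      refine Zc.mem_ZZ.2 ⟨m (c x) (c y) (c z), ?_⟩
      rw [h3, c2_val, h5]
      field_simp
      rw [Complex.I_sq]
      ring
    | [], h7 | [_], h7 | [_, _], h7 => simp at h7
    | _ :: _ :: _ :: _ :: _, h7 => simp only [List.length_cons] at h7; omega
  · rw [h6 l h7]
    exact Zc.ZZ.zero_mem

end Vale.Agent.P287Q.Sf
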