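import Vale.Agent.P287Q.Sf.Defs
import Vale.Agent.P267.H509.CWCurv
import Vale.Agent.P267.H857.Ext

/-!
# P287, surfaces: the form of the coboundary of a smooth cochain is exact
-/

namespace Vale.Agent.P287Q.Sf

open Set Function Topology Filter P291Z P267.FL P267.BlockC P267.RR
open P287Q.Mf (frm)
open P267.H857 (alt1 alt2 alt1_apply extDeriv_alt1 fderiv_eq)
open scoped ContDiff Manifold

section calc1

/-- Two of three points. -/
noncomputable def d1L (i j : Fin 3) : (Fin 3 → C2) →L[ℝ] (Fin 2 → C2) :=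
  ContinuousLinearMap.pi fun k =>
    ContinuousLinearMap.proj (R := ℝ) (φ := fun _ : Fin 3 => C2) (![i, j] k)

theorem d1L_apply (i j : Fin 3) (y : Fin 3 → C2) : d1L i j y = ![y i, y j] := by
  funext k
  fin_cases k <;> rfl

/-- The coboundary of a function of two points. -/
noncomputable def d1F (g : (Fin 2 → C2) → ℂ) : (Fin 3 → C2) → ℂ :=
  g ∘ d1L 1 2 - g ∘ d1L 0 2 + g ∘ d1L 0 1

theorem d1_le : ((2 : ℕ) : WithTop ℕ∞) ≤ ∞ := WithTop.coe_le_coe.2 (le_top (a := (2 : ℕ∞)))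

variable {g : (Fin 2 → C2) → ℂ}

theorem d1F_smooth (hg : ContDiff ℝ ∞ g) : ContDiff ℝ ∞ (d1F g) :=
  ((hg.comp (d1L 1 2).contDiff).sub (hg.comp (d1L 0 2).contDiff)).add (hg.comp (d1L 0 1).contDiff)

theorem d1_two (hg : ContDiff ℝ ∞ g) (i j : Fin 3) (z : C2) (m : Fin 2 → Fin 3 → C2) :
    iteratedFDeriv ℝ 2 (g ∘ d1L i j) (fun _ => z) m =
      fderiv ℝ (fderiv ℝ g) (fun _ => z) ![m 0 i, m 0 j] ![m 1 i, m 1 j] := by
  rw [(d1L i j).iteratedFDeriv_comp_right hg _ d1_le,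
    ContinuousMultilinearMap.compContinuousLinearMap_apply, iteratedFDeriv_two_apply,
    ← d1L_apply, ← d1L_apply]
  rfl

theorem d1F_two (hg : ContDiff ℝ ∞ g) (z a b : C2) (m : Fin 2 → Fin 3 → C2)
    (h0 : m 0 = Pi.single 1 a) (h1 : m 1 = Pi.single 2 b) :
    iteratedFDeriv ℝ 2 (d1F g) (fun _ => z) m =
      fderiv ℝ (fderiv ℝ g) (fun _ => z) ![a, 0] ![0, b] := by
  have h2 : ∀ i j, ContDiffAt ℝ ((2 : ℕ) : WithTop ℕ∞) (g ∘ d1L i j) fun _ => z := fun i j =>
    ((hg.comp (d1L i j).contDiff).of_le d1_le).contDiffAt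
  have hz : (![0, 0] : Fin 2 → C2) = 0 := by
    funext k
    fin_cases k <;> rfl
  rw [d1F, iteratedFDeriv_add_apply (f := g ∘ d1L 1 2 - g ∘ d1L 0 2) ((h2 1 2).sub (h2 0 2))
    (h2 0 1), iteratedFDeriv_sub_apply (h2 1 2) (h2 0 2), add_apply,
    sub_apply, d1_two hg, d1_two hg, d1_two hg, h0, h1]
  simp [hz]

theorem d1F_frm (hg : ContDiff ℝ ∞ g) (z : C2) (v : Fin 2 → C2) :
    frm (k := 2) (d1F g) z v = fderiv ℝ (fderiv ℝ g) (fun _ => z) ![v 0, 0] ![0, v 1] -
      fderiv ℝ (fderiv ℝ g) (fun _ => z) ![v 1, 0] ![0, v 0] := by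
  have hu : (Finset.univ : Finset (Equiv.Perm (Fin 2))) = {1, Equiv.swap 0 1} := by decide
  have hn : (1 : Equiv.Perm (Fin 2)) ≠ Equiv.swap 0 1 := by decide
  have e1 := d1F_two hg z (v 0) (v 1)
    (fun i => Pi.single i.succ (v ((1 : Equiv.Perm (Fin 2)) i))) rfl rfl
  have e2 := d1F_two hg z (v 1) (v 0)
    (fun i => Pi.single i.succ (v (Equiv.swap (0 : Fin 2) 1 i))) rfl rfl
  rw [frm, hu, Finset.sum_pair hn, ← e1, ← e2]
  simp [sub_eq_add_neg]

/-- The derivative in the second point. -/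
theorem d1_snd (hg : ContDiff ℝ ∞ g) (z w : C2) :
    HasFDerivAt (fun t => g ![z, t])
      ((fderiv ℝ g ![z, w]).comp (ContinuousLinearMap.single ℝ (fun _ : Fin 2 => C2) 1)) w := by
  have h1 : HasFDerivAt (fun t : C2 => (![z, t] : Fin 2 → C2))
      (ContinuousLinearMap.single ℝ (fun _ : Fin 2 => C2) 1) w := by
    have h2 := ((ContinuousLinearMap.single ℝ (fun _ : Fin 2 => C2) 1).hasFDerivAt
      (x := w)).const_add ![z, 0]
    refine h2.congr_of_eventuallyEq (Eventually.of_forall fun t => ?_)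
    funext k
    fin_cases k <;> simp
  exact ((hg.differentiable (by simp)) _).hasFDerivAt.comp w h1

theorem d1_snd_val (hg : ContDiff ℝ ∞ g) (z u : C2) :
    fderiv ℝ (fun t => g ![z, t]) z u = fderiv ℝ g (fun _ => z) ![0, u] := by
  have h1 : (![z, z] : Fin 2 → C2) = fun _ => z := by
    funext k
    fin_cases k <;> rfl
  have h2 : (Pi.single 1 u : Fin 2 → C2) = ![0, u] := by
    funext k
    fin_cases k <;> simp
  rw [(d1_snd hg z z).fderiv, ContinuousLinearMap.comp_apply, h1, ← h2]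
  rfl

theorem d1_diag (hg : ContDiff ℝ ∞ g) (m : Fin 2 → C2) :
    ContDiff ℝ ∞ fun z : C2 => fderiv ℝ g (fun _ => z) m :=
  ((hg.fderiv_right (m := ∞) le_rfl).comp (contDiff_pi.2 fun _ => contDiff_id)).clm_apply
    contDiff_const

theorem d1_diag_fderiv (hg : ContDiff ℝ ∞ g) (m : Fin 2 → C2) (z u : C2) :
    fderiv ℝ (fun t : C2 => fderiv ℝ g (fun _ => t) m) z u =
      fderiv ℝ (fderiv ℝ g) (fun _ => z) ![u, 0] m +
        fderiv ℝ (fderiv ℝ g) (fun _ => z) ![0, u] m := by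
  have h1 : HasFDerivAt (fun t : C2 => (fun _ => t : Fin 2 → C2))
      (ContinuousLinearMap.pi fun _ => ContinuousLinearMap.id ℝ C2) z :=
    (ContinuousLinearMap.pi fun _ : Fin 2 => ContinuousLinearMap.id ℝ C2).hasFDerivAt
  have h2 := (((hg.fderiv_right (m := ∞) le_rfl).differentiable (by simp)) fun _ => z).hasFDerivAt
  have h3 := (ContinuousLinearMap.apply ℝ ℂ m).hasFDerivAt.comp z (h2.comp z h1)
  have h4 : (fun _ => u : Fin 2 → C2) = ![u, 0] + ![0, u] := by
    funext k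
    fin_cases k <;> simp
  rw [← add_apply, ← map_add, ← h4]
  exact congrArg (fun L : C2 →L[ℝ] ℂ => L u) h3.fderiv

theorem d1_dz (hg : ContDiff ℝ ∞ g) (i : Fin 2) :
    ContDiff ℝ ∞ fun z : C2 => dz i (fun t => g ![z, t]) z := by
  simp only [dz, d1_snd_val hg, smul_eq_mul]
  exact contDiff_const.mul ((d1_diag hg _).sub (contDiff_const.mul (d1_diag hg _)))

theorem d1_dzb (hg : ContDiff ℝ ∞ g) (i : Fin 2) :
    ContDiff ℝ ∞ fun z : C2 => dzb i (fun t => g ![z, t]) z := by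
  simp only [dzb, d1_snd_val hg, smul_eq_mul]
  exact contDiff_const.mul ((d1_diag hg _).add (contDiff_const.mul (d1_diag hg _)))

theorem d1_calc (hg : ContDiff ℝ ∞ g) {c a : C2 → Fin 2 → ℂ} {x : C2}
    (hc : ∀ i, (fun z => c z i) =ᶠ[𝓝 x] fun z => dz i (fun t => g ![z, t]) z)
    (ha : ∀ i, (fun z => a z i) =ᶠ[𝓝 x] fun z => dzb i (fun t => g ![z, t]) z) (v : Fin 2 → C2) :
    frm (k := 2) (d1F g) x v = alt2 (dz 0 (fun z => c z 1) x - dz 1 (fun z => c z 0) x)
      (Matrix.of fun i j => dz i (fun z => a z j) x - dzb j (fun z => c z i) x)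
      (dzb 0 (fun z => a z 1) x - dzb 1 (fun z => a z 0) x) v := by
  have hc' : ∀ i, ContDiffAt ℝ ∞ (fun z => c z i) x := fun i =>
    (d1_dz hg i).contDiffAt.congr_of_eventuallyEq (hc i)
  have ha' : ∀ i, ContDiffAt ℝ ∞ (fun z => a z i) x := fun i =>
    (d1_dzb hg i).contDiffAt.congr_of_eventuallyEq (ha i)
  have key : ∀ (w : Fin 1 → C2) (u : C2), fderiv ℝ (fun z => alt1 (c z) (a z) w) x u =
      fderiv ℝ (fderiv ℝ g) (fun _ => x) ![u, 0] ![0, w 0] +
        fderiv ℝ (fderiv ℝ g) (fun _ => x) ![0, u] ![0, w 0] := by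
    intro w u
    have h1 : (fun z => alt1 (c z) (a z) w) =ᶠ[𝓝 x] fun z => fderiv ℝ g (fun _ => z) ![0, w 0] := by
      filter_upwards [hc 0, hc 1, ha 0, ha 1] with z h0 h1 h2 h3
      rw [alt1_apply, h0, h1, h2, h3, ← d1_snd_val hg, fderiv_eq]
    rw [h1.fderiv_eq, d1_diag_fderiv hg]
  have hs := (hg.contDiffAt (x := fun _ => x)).isSymmSndFDerivAt
    (by simpa using d1_le) ![0, v 0] ![0, v 1]
  rw [← extDeriv_alt1 (fun i => (hc' i).differentiableAt (by simp))
    (fun i => (ha' i).differentiableAt (by simp)),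
    extDeriv_apply ((P267.H857.contDiffAt_alt1 hc' ha').differentiableAt (by simp)),
    Fin.sum_univ_two, key, key, d1F_frm hg]
  have r0 : (Fin.removeNth (0 : Fin 2) v) 0 = v 1 := rfl
  have r1 : (Fin.removeNth (1 : Fin 2) v) 0 = v 0 := rfl
  rw [r0, r1, hs]
  simp only [Fin.val_zero, pow_zero, one_smul, Fin.val_one, pow_one, neg_smul]
  ring

end calc1

variable {X : Type} [MetricSpace X] [ChartedSpace C2 X] [IsManifold 𝓘(ℂ, C2) ω X]

/-- The one-form of a cochain of degree one. -/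
noncomputable def d1A (b : Coch X) : OneF X :=
  ⟨fun x => del0 (fun y => b.1 [x, y]) x, fun x => dbar0 0 (fun y => b.1 [x, y]) x⟩

omit [IsManifold 𝓘(ℂ, C2) ω X] in
theorem d1_near {b : Coch X} {x : X} {g : (Fin 2 → C2) → ℂ} (h : SmF (k := 1) b x g) :
    ∀ᶠ z in 𝓝 (chartAt C2 x x), z ∈ (chartAt C2 x).target ∧
      (fun t => b.1 [(chartAt C2 x).symm z, (chartAt C2 x).symm t]) =ᶠ[𝓝 z] fun t => g ![z, t] := by
  set e := chartAt C2 x with he
  have hx : x ∈ e.source := mem_chart_source C2 x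
  have ht : ∀ᶠ z in 𝓝 (e x), z ∈ e.target := e.open_target.mem_nhds (e.map_source hx)
  have hs : Tendsto e.symm (𝓝 (e x)) (𝓝 x) := by
    have := e.continuousAt_symm (e.map_source hx)
    rwa [ContinuousAt, e.left_inv hx] at this
  have h1 : Tendsto (fun p : C2 × C2 => (![e.symm p.1, e.symm p.2] : Fin 2 → X))
      (𝓝 (e x) ×ˢ 𝓝 (e x)) (𝓝 fun _ => x) := by
    refine tendsto_pi_nhds.2 fun k => ?_
    fin_cases k
    · exact hs.comp tendsto_fst
    · exact hs.comp tendsto_snd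
  have h2 : ∀ᶠ p : C2 × C2 in 𝓝 (e x) ×ˢ 𝓝 (e x),
      b.1 [e.symm p.1, e.symm p.2] = g ![p.1, p.2] := by
    filter_upwards [h1.eventually h.2, ht.prod_mk ht] with p hp hq
    refine hp.trans (congrArg g ?_)
    funext k
    fin_cases k
    · exact e.right_inv hq.1
    · exact e.right_inv hq.2
  obtain ⟨U, hU, V, hV, hUV⟩ := eventually_prod_iff.1 h2
  filter_upwards [ht, hU, hV.eventually_nhds] with z hz h3 h4
  exact ⟨hz, h4.mono fun t h5 => hUV h3 h5⟩

theorem d1_loc {b : Coch X} {x : X} {g : (Fin 2 → C2) → ℂ} (h : SmF (k := 1) b x g) (i : Fin 2) :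
    ((fun z => loc10 (chartAt C2 x) (d1A b).f10 z i) =ᶠ[𝓝 (chartAt C2 x x)]
      fun z => dz i (fun t => g ![z, t]) z) ∧
    (fun z => loc1 0 (chartAt C2 x) (d1A b).f01 z i) =ᶠ[𝓝 (chartAt C2 x x)]
      fun z => dzb i (fun t => g ![z, t]) z := by
  constructor
  · filter_upwards [d1_near h] with z hz
    rw [← dz_congr hz.2]
    exact P267.H509.loc10_del0 (f := fun y => b.1 [(chartAt C2 x).symm z, y])
      (chart_mem_atlas C2 x) hz.1
      ((d1_snd h.1 z z).differentiableAt.congr_of_eventuallyEq hz.2) i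
  · filter_upwards [d1_near h] with z hz
    have h1 := loc1_dbar0 (κ := 0) (s := fun y => b.1 [(chartAt C2 x).symm z, y])
      (chart_mem_atlas C2 x) hz.1 (by
        rw [LB.loc0_zero]
        exact (d1_snd h.1 z z).differentiableAt.congr_of_eventuallyEq hz.2) i
    rw [LB.loc0_zero] at h1
    rw [← dzb_congr hz.2]
    exact h1

/-- **The form of the coboundary of a smooth cochain is exact.** -/
theorem d1 : StD1 X := by
  intro b hb
  refine ⟨d1A b, ⟨P267.H509.reg10_iff.2 fun x => ?_, reg1_iff.2 fun x => ?_⟩, fun x => ?_⟩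
  · obtain ⟨g, hg⟩ := hb x
    exact contDiffAt_pi.2 fun i =>
      (d1_dz hg.1 i).contDiffAt.congr_of_eventuallyEq (d1_loc hg i).1
  · obtain ⟨g, hg⟩ := hb x
    exact contDiffAt_pi.2 fun i =>
      (d1_dzb hg.1 i).contDiffAt.congr_of_eventuallyEq (d1_loc hg i).2
  · obtain ⟨g, hg⟩ := hb x
    refine ⟨d1F g, ⟨d1F_smooth hg.1, ?_⟩, fun v => ?_⟩
    · have h1 : ∀ i j : Fin 3, ∀ᶠ y : Fin 3 → X in 𝓝 fun _ => x,
          b.1 [y i, y j] = g (d1L i j fun k => chartAt C2 x (y k)) := by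
        intro i j
        have h2 : Tendsto (fun y : Fin 3 → X => (![y i, y j] : Fin 2 → X)) (𝓝 fun _ => x)
            (𝓝 fun _ => x) := by
          refine tendsto_pi_nhds.2 fun k => ?_
          fin_cases k
          · exact (continuous_apply i).tendsto _
          · exact (continuous_apply j).tendsto _
        filter_upwards [h2.eventually hg.2] with y hy
        refine hy.trans (congrArg g ?_)
        funext k
        fin_cases k <;> rfl
      filter_upwards [h1 1 2, h1 0 2, h1 0 1] with y h2 h3 h4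
      change (δ b).1 [y 0, y 1, y 2] = _
      rw [δ_val, cob_cons, cob_cons, cob_cons, cob_nil, h2, h3, h4]
      simp only [d1F, Pi.add_apply, Pi.sub_apply, comp_apply]
      ring
    · rw [d1_calc hg.1 (c := loc10 (chartAt C2 x) (d1A b).f10)
        (a := loc1 0 (chartAt C2 x) (d1A b).f01) (fun i => (d1_loc hg i).1)
        (fun i => (d1_loc hg i).2)]
      rfl

end Vale.Agent.P287Q.Sf
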