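import Vale.Agent.P287Q.Sf.Defs
import Vale.Agent.P267.H995.Form
import Vale.Agent.P267.H533.Bump

/-!
# P287, surfaces: exact forms are the forms of coboundaries
-/

set_option linter.unusedSectionVars false

namespace Vale.Agent.P287Q.Sf

open Set Function Topology Filter P291Z P267.FL P267.BlockC P267.RR
open P267.H533 (RSm)
open P267.H995
open P287Q.Mf (frm)
open scoped ContDiff Manifold ComplexConjugate

namespace D2

/-- the coordinate functions and their conjugates -/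
def cq : Qi → C2 → ℂ
  | Sum.inl p, z => z p
  | Sum.inr p, z => conj (z p)

theorem cq_smooth (q : Qi) : ContDiff ℝ ∞ (cq q) := by
  rcases q with p | p
  · exact (P267.H857.zc p).contDiff
  · exact (P267.H857.zcb p).contDiff

theorem fderiv_cq (g : C2 → ℂ) (z v : C2) : fderiv ℝ g z v = ∑ q, Dq q g z * cq q v := by
  rw [P267.H857.fderiv_eq, Fintype.sum_sum_type, Fin.sum_univ_two, Fin.sum_univ_two]
  rfl

theorem alt2_pr {X : Type} (F : TwoF X) (x : X) (v : Fin 2 → C2) :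
    P267.H857.alt2 (F.f20 x) (F.f11 x) (F.f02 x) v =
      ∑ q, ∑ q', pr F x q q' * (cq q (v 0) * cq q' (v 1)) := by
  rw [P267.H857.alt2_apply]
  simp only [Fintype.sum_sum_type, Fin.sum_univ_two, pr, cq, sg_self, sg01, sg10]
  ring

theorem fd {F : C2 → ℂ} (hF : ContDiff ℝ ∞ F) (i : Fin 3) (y : Fin 3 → C2) :
    HasFDerivAt (fun z : Fin 3 → C2 => F (z i))
      ((fderiv ℝ F (y i)).comp (ContinuousLinearMap.proj (R := ℝ) (φ := fun _ : Fin 3 => C2) i))
      y :=
  (hF.differentiable (by simp) (y i)).hasFDerivAt.comp y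
    (ContinuousLinearMap.proj (R := ℝ) (φ := fun _ : Fin 3 => C2) i).hasFDerivAt

theorem sm {F : C2 → ℂ} (hF : ContDiff ℝ ∞ F) (i : Fin 3) :
    ContDiff ℝ ∞ fun z : Fin 3 → C2 => F (z i) :=
  hF.comp (ContinuousLinearMap.proj (R := ℝ) (φ := fun _ : Fin 3 => C2) i).contDiff

variable {κ : Type} [Fintype κ]

/-- the coboundary of `∑ F ⊗ G` -/
noncomputable def cb (F G : κ → C2 → ℂ) (z : Fin 3 → C2) : ℂ :=
  ∑ k, (F k (z 1) * G k (z 2) - F k (z 0) * G k (z 2) + F k (z 0) * G k (z 1))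

variable {F G : κ → C2 → ℂ}

theorem cb_smooth (hF : ∀ k, ContDiff ℝ ∞ (F k)) (hG : ∀ k, ContDiff ℝ ∞ (G k)) :
    ContDiff ℝ ∞ (cb F G) :=
  ContDiff.sum fun k _ => (((sm (hF k) 1).mul (sm (hG k) 2)).sub
    ((sm (hF k) 0).mul (sm (hG k) 2))).add ((sm (hF k) 0).mul (sm (hG k) 1))

theorem cb_one (hF : ∀ k, ContDiff ℝ ∞ (F k)) (hG : ∀ k, ContDiff ℝ ∞ (G k)) (y : Fin 3 → C2)
    (w : C2) : fderiv ℝ (cb F G) y (Pi.single 2 w) =
      ∑ k, (F k (y 1) - F k (y 0)) * fderiv ℝ (G k) (y 2) w := by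
  have h := HasFDerivAt.fun_sum (u := Finset.univ) fun k _ =>
    (((fd (hF k) 1 y).fun_mul (fd (hG k) 2 y)).fun_sub
      ((fd (hF k) 0 y).fun_mul (fd (hG k) 2 y))).fun_add ((fd (hF k) 0 y).fun_mul (fd (hG k) 1 y))
  have e : fderiv ℝ (cb F G) y = _ := h.fderiv
  rw [e, _root_.sum_apply]
  refine Finset.sum_congr rfl fun k _ => ?_
  simp
  ring

theorem cb_two (hF : ∀ k, ContDiff ℝ ∞ (F k)) (hG : ∀ k, ContDiff ℝ ∞ (G k)) (p u w : C2) :
    fderiv ℝ (fderiv ℝ (cb F G)) (fun _ => p) (Pi.single 1 u) (Pi.single 2 w) =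
      ∑ k, fderiv ℝ (F k) p u * fderiv ℝ (G k) p w := by
  have h0 : Differentiable ℝ (fderiv ℝ (cb F G)) :=
    ((cb_smooth hF hG).fderiv_right (m := ∞) (by simp)).differentiable (by simp)
  have h1 : fderiv ℝ (fun y => fderiv ℝ (cb F G) y (Pi.single 2 w)) (fun _ => p) (Pi.single 1 u) =
      fderiv ℝ (fderiv ℝ (cb F G)) (fun _ => p) (Pi.single 1 u) (Pi.single 2 w) := by
    rw [fderiv_clm_apply (h0 _) (differentiableAt_const _)]
    simp
  have hG' : ∀ k, ContDiff ℝ ∞ fun z => fderiv ℝ (G k) z w := fun k =>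
    ((hG k).fderiv_right (m := ∞) (by simp)).clm_apply contDiff_const
  have h := HasFDerivAt.fun_sum (u := Finset.univ) fun k _ =>
    ((fd (hF k) 1 fun _ => p).fun_sub (fd (hF k) 0 fun _ => p)).fun_mul (fd (hG' k) 2 fun _ => p)
  have e : (fun y => fderiv ℝ (cb F G) y (Pi.single 2 w)) =
      fun y : Fin 3 → C2 => ∑ k, (F k (y 1) - F k (y 0)) * fderiv ℝ (G k) (y 2) w :=
    funext fun y => cb_one hF hG y w
  rw [← h1, e, h.fderiv, _root_.sum_apply]
  refine Finset.sum_congr rfl fun k _ => ?_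
  simp
  ring

theorem frm_cb (hF : ∀ k, ContDiff ℝ ∞ (F k)) (hG : ∀ k, ContDiff ℝ ∞ (G k)) (p : C2)
    (v : Fin 2 → C2) : frm (k := 2) (cb F G) p v =
      ∑ k, (fderiv ℝ (F k) p (v 0) * fderiv ℝ (G k) p (v 1) -
        fderiv ℝ (F k) p (v 1) * fderiv ℝ (G k) p (v 0)) := by
  have hu : (Finset.univ : Finset (Equiv.Perm (Fin 2))) = {1, Equiv.swap 0 1} := by decide
  have hne : (1 : Equiv.Perm (Fin 2)) ≠ Equiv.swap 0 1 := by decide
  have h1 := cb_two hF hG p (v 0) (v 1)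
  have h2 := cb_two hF hG p (v 1) (v 0)
  rw [frm, hu, Finset.sum_pair hne, iteratedFDeriv_two_apply, iteratedFDeriv_two_apply,
    Finset.sum_sub_distrib, ← h1, ← h2, Equiv.Perm.sign_one,
    Equiv.Perm.sign_swap (by decide : (0 : Fin 2) ≠ 1)]
  simp only [Equiv.Perm.coe_one, id, Equiv.swap_apply_left, Equiv.swap_apply_right]
  push_cast
  rw [one_mul, neg_one_mul, sub_eq_add_neg]

variable {X : Type} [TopologicalSpace X] [ChartedSpace C2 X]

theorem glob {f : X → ℂ} (hf : Reg0 ∞ 0 f) (x : X) : ∃ F : C2 → ℂ, ContDiff ℝ ∞ F ∧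
    F =ᶠ[𝓝 (chartAt C2 x x)] fun z => f ((chartAt C2 x).symm z) := by
  have h := hf (chartAt C2 x) (chart_mem_atlas C2 x)
  rw [LB.loc0_zero] at h
  obtain ⟨r, hr, hball⟩ := Metric.nhds_basis_closedBall.mem_iff.1
    ((chartAt C2 x).open_target.mem_nhds (mem_chart_target C2 x))
  let b : ContDiffBump (chartAt C2 x x) := ⟨r / 2, r, by positivity, by linarith⟩
  have hts : tsupport (b : C2 → ℝ) ⊆ (chartAt C2 x).target := by
    rw [b.tsupport_eq]
    exact hball
  refine ⟨fun z => (b z : ℂ) * f ((chartAt C2 x).symm z), contDiff_iff_contDiffAt.2 fun z => ?_, ?_⟩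
  · by_cases hz : z ∈ (chartAt C2 x).target
    · exact (Complex.ofRealCLM.contDiff.comp b.contDiff).contDiffAt.mul
        (h.contDiffAt ((chartAt C2 x).open_target.mem_nhds hz))
    · have h2 : (b : C2 → ℝ) =ᶠ[𝓝 z] 0 := notMem_tsupport_iff_eventuallyEq.1 fun h' => hz (hts h')
      refine (contDiffAt_const (c := (0 : ℂ))).congr_of_eventuallyEq ?_
      filter_upwards [h2] with y hy
      rw [hy, Pi.zero_apply, Complex.ofReal_zero, zero_mul]
  · filter_upwards [b.eventuallyEq_one] with z hz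
    rw [hz, Pi.one_apply, Complex.ofReal_one, one_mul]

/-- the components of a one-form in the chart `e` -/
noncomputable def cmp (A : OneF X) (e : Ch X) : Qi → C2 → ℂ
  | Sum.inl p, z => loc10 e A.f10 z p
  | Sum.inr p, z => loc1 0 e A.f01 z p

theorem cmp_smooth {A : OneF X} (hA : A.Smooth) {e : Ch X} (he : e ∈ atlas C2 X) (q : Qi) :
    ContDiffOn ℝ ∞ (cmp A e q) e.target := by
  rcases q with p | p
  · exact contDiffOn_pi.1 (hA.s10 e he) p
  · exact contDiffOn_pi.1 (hA.s01 e he) p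

variable [IsManifold 𝓘(ℂ, C2) ω X]

theorem cut {ρ : X → ℝ} (hρ : RSm ρ) {e : Ch X} (he : e ∈ atlas C2 X)
    (hs : tsupport ρ ⊆ e.source) {u : C2 → ℂ} (hu : ContDiffOn ℝ ∞ u e.target) :
    Reg0 ∞ 0 fun x => (ρ x : ℂ) * u (e x) := by
  rw [reg0_iff]
  intro x
  by_cases hx : x ∈ e.source
  · refine loc0_contDiffAt_change (chart_mem_atlas C2 x) he (mem_chart_source C2 x) hx ?_
    rw [LB.loc0_zero]
    have h1 := (Complex.ofRealCLM.contDiff.contDiffAt.comp (e x)
      (hρ.contDiffAt he (e.map_source hx))).mul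
      (hu.contDiffAt (e.open_target.mem_nhds (e.map_source hx)))
    refine h1.congr_of_eventuallyEq ?_
    filter_upwards [e.open_target.mem_nhds (e.map_source hx)] with z hz
    show (ρ (e.symm z) : ℂ) * u (e (e.symm z)) = (ρ (e.symm z) : ℂ) * u z
    rw [e.right_inv hz]
  · rw [LB.loc0_zero]
    have h2 : ρ =ᶠ[𝓝 x] 0 := notMem_tsupport_iff_eventuallyEq.1 fun h' => hx (hs h')
    refine SmAt.congr (SmAt.const 0 x) (g := fun x => (ρ x : ℂ) * u (e x)) ?_
    filter_upwards [h2] with y hy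
    rw [hy, Pi.zero_apply, Complex.ofReal_zero, zero_mul]

theorem frame (A : OneF X) {e : Ch X} (he : e ∈ atlas C2 X) {x : X} (hx : x ∈ e.source)
    (q' : Qi) : ∑ q, cmp A e q (e x) * DT (tq q') x (fun y => cq q (e y)) = vv A x q' := by
  have hc := chart_mem_atlas C2 x
  have hx' := mem_chart_source C2 x
  have hd : ∀ p, DifferentiableAt ℂ (fun z => e ((chartAt C2 x).symm z) p) (chartAt C2 x x) :=
    fun p => (comp_analyticAt (trans_analyticAt hc he hx' hx) p).differentiableAt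
  have hM := jacM_mul_inv hc he hx' hx
  have hJ : ∀ r j, jac e x r 0 * jacM (chartAt C2 x) e x 0 j +
      jac e x r 1 * jacM (chartAt C2 x) e x 1 j = (1 : Matrix (Fin 2) (Fin 2) ℂ) r j := by
    intro r j
    rw [← hM, Matrix.mul_apply, Fin.sum_univ_two]
    rfl
  have a1 : ∀ p j, DT (tq (Sum.inl j)) x (fun y => cq (Sum.inl p) (e y)) =
      jacM (chartAt C2 x) e x p j := fun p j => rfl
  have a2 : ∀ p j, DT (tq (Sum.inr j)) x (fun y => cq (Sum.inl p) (e y)) = 0 := fun p j =>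
    dzb_of_hol (hd p) j
  have a3 : ∀ p j, DT (tq (Sum.inl j)) x (fun y => cq (Sum.inr p) (e y)) = 0 := fun p j =>
    (dz_conj ((hd p).restrictScalars ℝ) j).trans (by rw [dzb_of_hol (hd p) j, map_zero])
  have a4 : ∀ p j, DT (tq (Sum.inr j)) x (fun y => cq (Sum.inr p) (e y)) =
      conj (jacM (chartAt C2 x) e x p j) := fun p j => dzb_conj ((hd p).restrictScalars ℝ) j
  have b1 : ∀ p, cmp A e (Sum.inl p) (e x) =
      jac e x 0 p * A.f10 x 0 + jac e x 1 p * A.f10 x 1 := by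
    intro p
    show ∑ r, jac e (e.symm (e x)) r p • A.f10 (e.symm (e x)) r = _
    rw [e.left_inv hx, Fin.sum_univ_two]
    rfl
  have b2 : ∀ p, cmp A e (Sum.inr p) (e x) =
      conj (jac e x 0 p) * A.f01 x 0 + conj (jac e x 1 p) * A.f01 x 1 := by
    intro p
    show loc1 0 e A.f01 (e x) p = _
    rw [loc1_source hx, zpow_zero, one_smul, Fin.sum_univ_two]
    rfl
  rw [Fintype.sum_sum_type, Fin.sum_univ_two, Fin.sum_univ_two, b1, b1, b2, b2]
  have hone : ∀ (c : Fin 2 → ℂ) j, c 0 * (1 : Matrix (Fin 2) (Fin 2) ℂ) 0 j +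
      c 1 * (1 : Matrix (Fin 2) (Fin 2) ℂ) 1 j = c j := by
    intro c j
    fin_cases j <;> simp [Matrix.one_apply]
  have hcj : ∀ r j, conj ((1 : Matrix (Fin 2) (Fin 2) ℂ) r j) =
      (1 : Matrix (Fin 2) (Fin 2) ℂ) r j := by
    intro r j
    rw [Matrix.one_apply]
    split_ifs
    · exact map_one _
    · exact map_zero _
  rcases q' with j | j
  · rw [a1, a1, a3, a3]
    show _ = A.f10 x j
    linear_combination A.f10 x 0 * hJ 0 j + A.f10 x 1 * hJ 1 j + hone (A.f10 x) j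
  · rw [a2, a2, a4, a4]
    have h0 := congrArg conj (hJ 0 j)
    have h1 := congrArg conj (hJ 1 j)
    rw [map_add, map_mul, map_mul, hcj] at h0 h1
    show _ = A.f01 x j
    linear_combination A.f01 x 0 * h0 + A.f01 x 1 * h1 + hone (A.f01 x) j

/-- a smooth one-form on a compact surface is a finite sum of forms `f dg` -/
theorem decomp [T2Space X] [CompactSpace X] {A : OneF X} (hA : A.Smooth) :
    ∃ (N : ℕ) (f g : Fin N × Qi → X → ℂ), (∀ k, Reg0 ∞ 0 (f k)) ∧ (∀ k, Reg0 ∞ 0 (g k)) ∧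
      A = ∑ k, fmul (f k) (dF0 (g k)) := by
  obtain ⟨N, e, ρ, he, hρ, hc, hs, -, -, h1⟩ :=
    P267.H533.exists_smooth_family (X := X) isCompact_univ isOpen_univ (subset_univ _)
  have hs' : ∀ i, tsupport (ρ i) ⊆ (e i).source := fun i => (hs i).trans inter_subset_left
  choose χ hχ _ hχs _ hχ1 using fun i =>
    P267.H533.exists_cutoff (X := X) (hc i) (e i).open_source (hs' i)
  refine ⟨N, fun k x => (ρ k.1 x : ℂ) * cmp A (e k.1) k.2 (e k.1 x),
    fun k x => (χ k.1 x : ℂ) * cq k.2 (e k.1 x),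
    fun k => cut (hρ k.1) (he k.1) (hs' k.1) (cmp_smooth hA (he k.1) k.2),
    fun k => cut (hχ k.1) (he k.1) (hχs k.1) (cq_smooth k.2).contDiffOn,
    oneF_ext fun x q' => ?_⟩
  have hsum : ∑ i, (ρ i x : ℂ) = 1 := by
    have := Eventually.self_of_nhdsSet h1 x (mem_univ x)
    exact_mod_cast this
  rw [vv_sum, Fintype.sum_prod_type, ← one_mul (vv A x q'), ← hsum, Finset.sum_mul]
  refine Finset.sum_congr rfl fun i _ => ?_
  by_cases h0 : ρ i x = 0
  · simp only [vv_fmul, h0, Complex.ofReal_zero, zero_mul, Finset.sum_const_zero]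
  · have hx : x ∈ tsupport (ρ i) := subset_tsupport _ h0
    have hev : ∀ᶠ y in 𝓝 x, χ i y = 1 := (hχ1 i).filter_mono (nhds_le_nhdsSet hx)
    rw [← frame A (he i) (hs' i hx) q', Finset.mul_sum]
    refine Finset.sum_congr rfl fun q _ => ?_
    rw [vv_fmul, vv_dF0, mul_assoc]
    refine congrArg _ (congrArg _ (DT_congr _ ?_))
    filter_upwards [hev] with y hy
    rw [hy, Complex.ofReal_one, one_mul]

end D2

variable {X : Type} [MetricSpace X] [CompactSpace X] [ChartedSpace C2 X]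
  [IsManifold 𝓘(ℂ, C2) ω X]

/-- Exact forms are forms of coboundaries. -/
theorem d2 : StD2 X := by
  intro A hA
  obtain ⟨N, f, g, hf, hg, hAe⟩ := D2.decomp hA
  refine ⟨c1 fun x y => ∑ k, f k x * g k y, isDeg_c1 _, fun x => ?_⟩
  choose F hF hFe using fun k => D2.glob (hf k) x
  choose G hG hGe using fun k => D2.glob (hg k) x
  have hx := mem_chart_source C2 x
  have key : ∀ {u : X → ℂ} {U : C2 → ℂ},
      (U =ᶠ[𝓝 (chartAt C2 x x)] fun z => u ((chartAt C2 x).symm z)) →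
      ∀ᶠ y : Fin 3 → X in 𝓝 fun _ => x, ∀ i, U (chartAt C2 x (y i)) = u (y i) := by
    intro u U h
    have h1 : ∀ᶠ y in 𝓝 x, U (chartAt C2 x y) = u y := by
      filter_upwards [((chartAt C2 x).continuousAt hx).eventually h,
        (chartAt C2 x).open_source.mem_nhds hx] with y hy hy'
      rw [hy, (chartAt C2 x).left_inv hy']
    refine eventually_all.2 fun i => ?_
    have h2 : Tendsto (fun y : Fin 3 → X => y i) (𝓝 fun _ => x) (𝓝 x) :=
      (continuous_apply i).tendsto _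
    exact h2.eventually h1
  refine ⟨D2.cb F G, ⟨D2.cb_smooth hF hG, ?_⟩, fun v => ?_⟩
  · filter_upwards [eventually_all.2 fun k => key (hFe k), eventually_all.2 fun k => key (hGe k)]
      with y h1 h2
    have e : List.ofFn y = [y 0, y 1, y 2] := by simp [List.ofFn_succ]
    rw [e, δ_val, cob_cons, cob_cons, cob_cons, cob_nil]
    simp only [D2.cb, h1, h2, Finset.sum_add_distrib, Finset.sum_sub_distrib, c1_val]
    ring
  · have hpr : ∀ q q', pr A.d x q q' = ∑ k, (Dq q (F k) (chartAt C2 x x) *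
        Dq q' (G k) (chartAt C2 x x) - Dq q' (F k) (chartAt C2 x x) *
        Dq q (G k) (chartAt C2 x x)) := by
      intro q q'
      rw [hAe, pr_d_sum fun k _ => OAt.fmul (SmAt.of_reg (hf k) x) (OAt_dF0 (SmAt.of_reg (hg k) x))]
      refine Finset.sum_congr rfl fun k _ => ?_
      rw [pr_d_fds (SmAt.of_reg (hf k) x) (SmAt.of_reg (hg k) x), Dq_congr (hFe k),
        Dq_congr (hFe k), Dq_congr (hGe k), Dq_congr (hGe k)]
      rfl
    rw [D2.frm_cb hF hG, D2.alt2_pr]
    simp only [hpr, Finset.sum_mul, D2.fderiv_cq]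
    rw [Finset.sum_congr rfl fun q _ => Finset.sum_comm, Finset.sum_comm]
    refine Finset.sum_congr rfl fun k _ => ?_
    simp only [Fintype.sum_sum_type, Fin.sum_univ_two]
    ring

end Vale.Agent.P287Q.Sf
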