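import Vale.Agent.P287Q.Sf.Defs

/-!
# P287, surfaces: Hodge types of classes and types of forms
-/

namespace Vale.Agent.P287Q.Sf

open Set Function Topology Filter P291Z P267.FL P267.BlockC P267.RR
open P287Q.Mf (IsHg)
open scoped ContDiff Manifold

variable {X : Type} [MetricSpace X] [ChartedSpace C2 X] (h0 : StFine X) (h1 : StW0 X) (A : Api X)
  (h3 : SApi X) (h4 : StSmo X) (h5 : StPrs X) (h6 : StD1 X) (h7 : StD2 X)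

include h0 h1 A h3 h4 h5 h6 in
theorem Hg_of_sm (a : Zs X) (ha : IsDeg 2 a.1) (hs : Sm 2 a.1) :
    ∃ F, SRp F a.1 ∧ Rp F (H.mk a) := by
  obtain ⟨η, hη, h⟩ := h1 a
  obtain ⟨n, P, ⟨⟨e1, e2⟩, e3⟩, e4⟩ := (((h4 a ha).and (h5 a.1 hs)).and ⟨η, hη, h⟩).exists h0
  obtain ⟨B, b1, b2⟩ := h6 _ e3
  refine ⟨_, h3.congr _ _ _ ?_ (h3.add _ _ _ _ e1 b2),
    A.of_exact (WC P a.1) _ _ ⟨e4.1, a, ha, rfl, η, hη, e4.2⟩ ⟨B, b1, (add_sub_cancel_left _ _).symm⟩⟩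
  rw [← supp_neg, neg_sub, ← sub_sub, e2]

include h0 h3 h4 h7 in
theorem Hg_to_sm {F : TwoF X} {c : H X} (h : Rp F c) :
    ∃ a : Zs X, IsDeg 2 a.1 ∧ H.mk a = c ∧ SRp F a.1 := by
  obtain ⟨-, a, ha, rfl, h⟩ := h
  obtain ⟨n, P, ⟨e1, e2⟩, B, b1, b2⟩ := ((h4 a ha).and h).exists h0
  obtain ⟨b, c1, c2⟩ := h7 B b1
  have e : smo P a.1 + δ b = a.1 + δ (b - prs P a.1) + -(a.1 - smo P a.1 - δ (prs P a.1)) := by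
    rw [map_sub]; abel
  have k : supp (-(a.1 - smo P a.1 - δ (prs P a.1))) = ∅ := (supp_neg _).trans e2
  refine ⟨⟨smo P a.1 + δ b, ?_⟩, (isDeg_c2 _).add c1.δ, H.mk_eq_iff.2 ⟨b - prs P a.1, ?_⟩, ?_⟩
  · change supp (δ _) = ∅
    rw [e, map_add, map_add, δ_δ, add_zero]
    exact supp_add_eq_empty a.2 (subset_empty_iff.1 (k ▸ supp_δ _))
  · change supp (smo P a.1 + δ b - _ - _) = ∅
    rwa [e, sub_sub, add_sub_cancel_left]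
  · have := h3.add _ _ _ _ e1 c2
    rwa [b2, add_sub_cancel] at this

include h0 h1 A h3 h4 h5 h6 h7 in
theorem Hg_api : HApi X := by
  refine ⟨fun c => ⟨?_, ?_⟩, fun c => ⟨?_, ?_⟩⟩
  · rintro ⟨a, ha, rfl, h⟩
    obtain ⟨F, f1, f2⟩ := Hg_of_sm h0 h1 A h3 h4 h5 h6 a ha fun x =>
      (h x).imp fun _ k => ⟨k.1, k.2.1⟩
    exact ⟨F, (h3.ty20 F _ f1).2 h, f2⟩
  · rintro ⟨F, f1, f2⟩
    obtain ⟨a, ha, e, h⟩ := Hg_to_sm h0 h3 h4 h7 f2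
    exact ⟨a, ha, e, (h3.ty20 F _ h).1 f1⟩
  · rintro ⟨a, ha, rfl, h⟩
    obtain ⟨F, f1, f2⟩ := Hg_of_sm h0 h1 A h3 h4 h5 h6 a ha fun x =>
      (h x).imp fun _ k => ⟨k.1, k.2.1⟩
    exact ⟨F, (h3.ty11 F _ f1).2 h, f2⟩
  · rintro ⟨F, f1, f2⟩
    obtain ⟨a, ha, e, h⟩ := Hg_to_sm h0 h3 h4 h7 f2
    exact ⟨a, ha, e, (h3.ty11 F _ h).1 f1⟩

end Vale.Agent.P287Q.Sf
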