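import Vale.Agent.P287Q.Sf.Defs

/-!
# P287, surfaces: the homotopy of a smooth cochain is smooth
-/

set_option linter.unusedSectionVars false

namespace Vale.Agent.P287Q.Sf

open Set Function Topology Filter P291Z P267.FL P267.BlockC P267.RR
open P267.H533 (AX TI Part WF ψC)
open scoped ContDiff Manifold

theorem prs_glob {E V : Type} [NormedAddCommGroup E] [NormedSpace ℝ E] [FiniteDimensional ℝ E]
    [NormedAddCommGroup V] [NormedSpace ℝ V] {g : E → V} {z : E}
    (h : ∀ᶠ w in 𝓝 z, ContDiffAt ℝ ∞ g w) : ∃ f : E → V, ContDiff ℝ ∞ f ∧ f =ᶠ[𝓝 z] g := by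
  obtain ⟨ε, hε, hb⟩ := Metric.eventually_nhds_iff.1 h
  let φ : ContDiffBump z := ⟨ε / 4, ε / 2, by positivity, by linarith⟩
  refine ⟨fun w => φ w • g w, ?_, ?_⟩
  · rw [contDiff_iff_contDiffAt]
    intro w
    by_cases hw : w ∈ tsupport φ
    · rw [φ.tsupport_eq] at hw
      have h1 : dist w z < ε := lt_of_le_of_lt hw (by change ε / 2 < ε; linarith)
      exact φ.contDiff.contDiffAt.smul (hb h1)
    · have h1 : (fun w => φ w • g w) =ᶠ[𝓝 w] fun _ => 0 := by
        filter_upwards [notMem_tsupport_iff_eventuallyEq.1 hw] with u hu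
        simp [hu]
      exact contDiffAt_const.congr_of_eventuallyEq h1
  · filter_upwards [φ.eventuallyEq_one] with w hw
    simp [hw]

section ls

variable {X : Type} [TopologicalSpace X] [ChartedSpace C2 X] {k : ℕ}
  {V : Type} [NormedAddCommGroup V] [NormedSpace ℝ V]

/-- Smoothness near the diagonal point `x`. -/
def PrsLs (g : (Fin k → X) → V) (x : X) : Prop :=
  ∀ᶠ z in 𝓝 (fun _ => chartAt C2 x x : Fin k → C2),
    ContDiffAt ℝ ∞ (fun z : Fin k → C2 => g fun i => (chartAt C2 x).symm (z i)) z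

theorem prs_tendsto_symm (x : X) :
    Tendsto (fun (z : Fin k → C2) i => (chartAt C2 x).symm (z i))
      (𝓝 fun _ => chartAt C2 x x) (𝓝 fun _ => x) := by
  refine tendsto_pi_nhds.2 fun i => ?_
  have h1 := (chartAt C2 x).tendsto_symm (mem_chart_source C2 x)
  exact h1.comp (continuous_apply i).continuousAt

theorem prs_tendsto (x : X) :
    Tendsto (fun (y : Fin k → X) i => chartAt C2 x (y i))
      (𝓝 fun _ => x) (𝓝 fun _ => chartAt C2 x x) := by
  refine tendsto_pi_nhds.2 fun i => ?_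
  have h1 := (chartAt C2 x).continuousAt (mem_chart_source C2 x)
  exact Tendsto.comp h1 (continuous_apply i).continuousAt

theorem prs_ev {x : X} {U : Set X} (hU : U ∈ 𝓝 x) (i : Fin k) :
    ∀ᶠ y : Fin k → X in 𝓝 fun _ => x, y i ∈ U :=
  (continuous_apply i).continuousAt.eventually_mem hU

theorem PrsLs.congr {g g' : (Fin k → X) → V} {x : X} (h : PrsLs g x)
    (he : g' =ᶠ[𝓝 fun _ => x] g) : PrsLs g' x := by
  have h1 := ((prs_tendsto_symm (k := k) x).eventually he).eventually_nhds
  filter_upwards [h, h1] with z hz hz'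
  exact hz.congr_of_eventuallyEq hz'

theorem PrsLs.const (c : V) (x : X) : PrsLs (fun _ : Fin k → X => c) x :=
  Eventually.of_forall fun _ => contDiffAt_const

theorem PrsLs.sub {g g' : (Fin k → X) → V} {x : X} (h : PrsLs g x) (h' : PrsLs g' x) :
    PrsLs (fun y => g y - g' y) x := by
  filter_upwards [h, h'] with z hz hz'
  exact hz.sub hz'

theorem PrsLs.mul {g g' : (Fin k → X) → ℂ} {x : X} (h : PrsLs g x) (h' : PrsLs g' x) :
    PrsLs (fun y => g y * g' y) x := by
  filter_upwards [h, h'] with z hz hz'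
  exact hz.mul hz'

theorem PrsLs.sum {ι : Type} [Fintype ι] {g : ι → (Fin k → X) → V} {x : X}
    (h : ∀ i, PrsLs (g i) x) : PrsLs (fun y => ∑ i, g i y) x := by
  filter_upwards [eventually_all.2 h] with z hz
  exact ContDiffAt.sum fun i _ => hz i

theorem PrsLs.comp {W : Type} [NormedAddCommGroup W] [NormedSpace ℝ W] {n : ℕ}
    {f : (Fin n → V) → W} (hf : ContDiff ℝ ∞ f) {g : Fin n → (Fin k → X) → V} {x : X}
    (h : ∀ i, PrsLs (g i) x) : PrsLs (fun y => f fun i => g i y) x := by
  filter_upwards [eventually_all.2 h] with z hz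
  exact hf.contDiffAt.comp z (contDiffAt_pi.2 hz)

theorem PrsLs.psi {ι : Type} [Fintype ι] (P : Part (AX X) ι) (i : ι) (j : Fin k) (x : X) :
    PrsLs (fun y : Fin k → X => ψC P i (y j)) x := by
  have h1 : ∀ᶠ z in 𝓝 (fun _ => chartAt C2 x x : Fin k → C2), z j ∈ (chartAt C2 x).target :=
    (continuous_apply j).continuousAt.eventually_mem (chart_target_mem_nhds C2 x)
  filter_upwards [h1] with z hz
  have h2 := (P.ψ i).2.1.contDiffAt (chart_mem_atlas C2 x) hz
  have h3 := h2.comp z (contDiffAt_apply ℝ C2 j z)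
  exact Complex.ofRealCLM.contDiff.contDiffAt.comp z h3

theorem PrsLs.chart [IsManifold 𝓘(ℂ, C2) ω X] {p x : X} (hx : x ∈ (chartAt C2 p).source)
    (j : Fin k) : PrsLs (fun y : Fin k → X => chartAt C2 p (y j)) x := by
  have h1 : ∀ᶠ z in 𝓝 (fun _ => chartAt C2 x x : Fin k → C2), z j ∈ (chartAt C2 x).target :=
    (continuous_apply j).continuousAt.eventually_mem (chart_target_mem_nhds C2 x)
  have h2 := (prs_tendsto_symm (k := k) x).eventually
    (prs_ev ((chartAt C2 p).open_source.mem_nhds hx) j)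
  filter_upwards [h1, h2] with z hz hz'
  have h3 := trans_analyticAt' (chart_mem_atlas C2 x) (chart_mem_atlas C2 p) hz hz'
  have h4 : ContDiffAt ℝ ∞ (fun z => chartAt C2 p ((chartAt C2 x).symm z)) (z j) :=
    (h3.contDiffAt (n := ∞)).restrict_scalars ℝ
  have h5 := h4.comp z (contDiffAt_apply ℝ C2 j z)
  exact h5

theorem prs_sm {b : Coch X} (h : ∀ x, PrsLs (fun y : Fin (k + 1) → X => b.1 (List.ofFn y)) x) :
    Sm k b := by
  intro x
  obtain ⟨f, hf, he⟩ := prs_glob (h x)
  refine ⟨f, hf, ?_⟩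
  have h1 := (prs_tendsto (k := k + 1) x).eventually he
  have h2 := eventually_all.2 fun i : Fin (k + 1) => prs_ev (chart_source_mem_nhds C2 x) i
  filter_upwards [h1, h2] with y hy hy'
  rw [hy]
  have h3 : (fun i => (chartAt C2 x).symm (chartAt C2 x (y i))) = y :=
    funext fun i => (chartAt C2 x).left_inv (hy' i)
  rw [h3]

end ls

variable {X : Type} [MetricSpace X] [CompactSpace X] [ChartedSpace C2 X]

theorem prs_leb {k : ℕ} {a : Coch X} (ha : Sm k a) : ∃ η > 0, ∀ x : X, ∃ (p : X)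
    (f : (Fin (k + 1) → C2) → ℂ), ContDiff ℝ ∞ f ∧ Metric.ball x η ⊆ (chartAt C2 p).source ∧
    ∀ y : Fin (k + 1) → X, (∀ i, y i ∈ Metric.ball x η) →
      a.1 (List.ofFn y) = f fun i => chartAt C2 p (y i) := by
  choose f hf using ha
  have h1 : ∀ p : X, ∃ ε > 0, ∀ y : Fin (k + 1) → X, (∀ i, y i ∈ Metric.ball p ε) →
      a.1 (List.ofFn y) = f p fun i => chartAt C2 p (y i) := by
    intro p
    obtain ⟨ε, hε, hb⟩ := Metric.eventually_nhds_iff.1 (hf p).2
    exact ⟨ε, hε, fun y hy => hb ((dist_pi_lt_iff hε).2 hy)⟩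
  choose ε hε hb using h1
  obtain ⟨η, hη, hl⟩ := lebesgue_number_lemma_of_metric (s := (univ : Set X)) isCompact_univ
    (c := fun p => Metric.ball p (ε p) ∩ (chartAt C2 p).source)
    (fun p => Metric.isOpen_ball.inter (chartAt C2 p).open_source)
    (fun p _ => mem_iUnion.2 ⟨p, Metric.mem_ball_self (hε p), mem_chart_source C2 p⟩)
  refine ⟨η, hη, fun x => ?_⟩
  obtain ⟨p, hp⟩ := hl x trivial
  exact ⟨p, f p, (hf p).1, fun u hu => (hp hu).2, fun y hy => hb p y fun i => (hp (hy i)).1⟩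

theorem prs_zero {ι : Type} [Fintype ι] {P : Part (AX X) ι} {i : ι} {x : X} {k : ℕ}
    (hx : x ∉ tsupport (P.ψ i : X → ℝ)) (j : Fin k) :
    ∀ᶠ y : Fin k → X in 𝓝 fun _ => x, ψC P i (y j) = 0 := by
  filter_upwards [prs_ev (notMem_tsupport_iff_eventuallyEq.1 hx) j] with y hy
  have h1 : (P.ψ i : X → ℝ) (y j) = 0 := hy
  simp [ψC, h1]

theorem prs_st [IsManifold 𝓘(ℂ, C2) ω X] : StPrs X := by
  intro a ha
  obtain ⟨η, hη, hl⟩ := prs_leb ha
  refine ⟨η, hη, fun n P hP => prs_sm fun x => ?_⟩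
  obtain ⟨p, f, hf, hs, hv⟩ := hl x
  have hx : x ∈ (chartAt C2 p).source := hs (Metric.mem_ball_self hη)
  have hB : ∀ j : Fin (1 + 1), ∀ᶠ y : Fin (1 + 1) → X in 𝓝 fun _ => x, y j ∈ Metric.ball x η :=
    fun j => prs_ev (Metric.ball_mem_nhds x hη) j
  have hV : ∀ i, x ∈ tsupport (P.ψ i : X → ℝ) → P.v i ∈ Metric.ball x η := fun i hi =>
    Metric.mem_ball'.2 (hP i x hi)
  have e0 : (fun y : Fin (1 + 1) → X => (prs P a).1 (List.ofFn y)) = fun y =>
      ∑ i, ψC P i (y 0) * a.1 [P.v i, y 0, y 1] -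
        ∑ i, ∑ j, ψC P i (y 0) * ψC P j (y 1) * a.1 [P.v i, P.v j, y 1] := by
    funext y
    have h1 : List.ofFn y = [y 0, y 1] := by simp [List.ofFn_succ]
    rw [h1]
    rfl
  rw [e0]
  refine (PrsLs.sum fun i => ?_).sub (PrsLs.sum fun i => PrsLs.sum fun j => ?_)
  · by_cases hi : x ∈ tsupport (P.ψ i : X → ℝ)
    · refine (PrsLs.psi P i 0 x).mul ?_
      have h1 := PrsLs.comp hf (x := x) (k := 1 + 1)
        (g := fun l y => chartAt C2 p (![P.v i, y 0, y 1] l)) fun l => by
          fin_cases l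
          · exact PrsLs.const (chartAt C2 p (P.v i)) x
          · exact PrsLs.chart hx 0
          · exact PrsLs.chart hx 1
      refine h1.congr ?_
      filter_upwards [hB 0, hB 1] with y h0 h1
      have h2 := hv ![P.v i, y 0, y 1] fun l => by
        fin_cases l
        · exact hV i hi
        · exact h0
        · exact h1
      rw [← h2]
      simp [List.ofFn_succ]
    · refine (PrsLs.const 0 x).congr ?_
      filter_upwards [prs_zero hi (0 : Fin (1 + 1))] with y hy
      rw [hy, zero_mul]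
  · by_cases hi : x ∈ tsupport (P.ψ i : X → ℝ)
    · by_cases hj : x ∈ tsupport (P.ψ j : X → ℝ)
      · refine ((PrsLs.psi P i 0 x).mul (PrsLs.psi P j 1 x)).mul ?_
        have h1 := PrsLs.comp hf (x := x) (k := 1 + 1)
          (g := fun l y => chartAt C2 p (![P.v i, P.v j, y 1] l)) fun l => by
            fin_cases l
            · exact PrsLs.const (chartAt C2 p (P.v i)) x
            · exact PrsLs.const (chartAt C2 p (P.v j)) x
            · exact PrsLs.chart hx 1
        refine h1.congr ?_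
        filter_upwards [hB 1] with y h1
        have h2 := hv ![P.v i, P.v j, y 1] fun l => by
          fin_cases l
          · exact hV i hi
          · exact hV j hj
          · exact h1
        rw [← h2]
        simp [List.ofFn_succ]
      · refine (PrsLs.const 0 x).congr ?_
        filter_upwards [prs_zero hj (1 : Fin (1 + 1))] with y hy
        rw [hy, mul_zero, zero_mul]
    · refine (PrsLs.const 0 x).congr ?_
      filter_upwards [prs_zero hi (0 : Fin (1 + 1))] with y hy
      rw [hy, zero_mul, zero_mul]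

end Vale.Agent.P287Q.Sf
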