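import Vale.Agent.P287Q.Sf.Defs
import Vale.Agent.P287Q.Mf.Slot

/-!
# P287, surfaces: forms of cochains that are smooth near the diagonal
-/

set_option linter.unusedSectionVars false

namespace Vale.Agent.P287Q.Sf

open Set Function Topology Filter P291Z P267.FL P267.BlockC P267.RR
open P267.H857 (alt2 alt2_apply cf20 cf11 cf02 cf20_alt2 cf11_alt2 cf02_alt2)
open P287Q.Mf (frm)
open scoped ContDiff Manifold ComplexConjugate

theorem exists_contDiff_ext {Y : Type} [NormedAddCommGroup Y] [NormedSpace ℝ Y]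
    [FiniteDimensional ℝ Y] {g : Y → ℂ} {U : Set Y} {z : Y} (hU : IsOpen U) (hz : z ∈ U)
    (hg : ContDiffOn ℝ ∞ g U) : ∃ f : Y → ℂ, ContDiff ℝ ∞ f ∧ f =ᶠ[𝓝 z] g :=
  Mf.exists_contDiff (Filter.Eventually.mono (hU.mem_nhds hz) fun _ h =>
    hg.contDiffAt (hU.mem_nhds h))

theorem frm_add {k : ℕ} {f g : (Fin (k + 1) → C2) → ℂ} (hf : ContDiff ℝ ∞ f) (hg : ContDiff ℝ ∞ g)
    (x : C2) (v : Fin k → C2) : frm (f + g) x v = frm f x v + frm g x v := by
  have hk : ((k : ℕ) : WithTop ℕ∞) ≤ ∞ := by exact_mod_cast le_top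
  simp only [frm, iteratedFDeriv_add_apply (hf.of_le hk).contDiffAt (hg.of_le hk).contDiffAt,
    _root_.add_apply, mul_add, Finset.sum_add_distrib]

theorem alt2_smul (a : ℂ) (b : Matrix (Fin 2) (Fin 2) ℂ) (c t : ℂ) (v : Fin 2 → C2) :
    alt2 a b c (t • v) = t ^ 2 * alt2 a 0 0 v + t * conj t * alt2 0 b 0 v +
      conj t ^ 2 * alt2 0 0 c v := by
  simp only [alt2_apply, Pi.smul_apply, smul_eq_mul, map_mul, Matrix.zero_apply]
  ring

theorem alt2_split (a : ℂ) (b : Matrix (Fin 2) (Fin 2) ℂ) (c : ℂ) (v : Fin 2 → C2) :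
    alt2 a b c v = alt2 a 0 0 v + alt2 0 b 0 v + alt2 0 0 c v := by
  simpa using alt2_smul a b c 1 v

theorem alt2_zero (v : Fin 2 → C2) : alt2 0 0 0 v = 0 := by simp [alt2_apply]

theorem eq_of_alt2 {a a' c c' : ℂ} {b b' : Matrix (Fin 2) (Fin 2) ℂ}
    (h : ∀ v, alt2 a b c v = alt2 a' b' c' v) : a = a' ∧ b = b' ∧ c = c' := by
  have e : alt2 a b c = alt2 a' b' c' := ContinuousAlternatingMap.ext h
  exact ⟨by simpa only [cf20_alt2] using congrArg cf20 e,
    by simpa only [cf11_alt2] using congrArg cf11 e,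
    by simpa only [cf02_alt2] using congrArg cf02 e⟩

theorem alt2_ty20 {a c : ℂ} {b : Matrix (Fin 2) (Fin 2) ℂ} : b = 0 ∧ c = 0 ↔
    ∀ (t : ℂ) v, alt2 a b c (t • v) = t ^ 2 * conj t ^ 0 * alt2 a b c v := by
  refine ⟨?_, fun h => ?_⟩
  · rintro ⟨rfl, rfl⟩ t v
    rw [alt2_smul, alt2_zero]
    ring
  · refine (eq_of_alt2 (a := a) (a' := a) fun v => ?_).2
    have h1 := h Complex.I v
    have h2 := h (1 + Complex.I) v
    rw [alt2_smul, alt2_split a b c] at h1 h2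
    rw [alt2_split a b c]
    simp only [map_add, map_one, Complex.conj_I] at h1 h2
    have i := Complex.I_mul_I
    have z : alt2 0 b 0 v = 0 := by
      linear_combination h1 / 2 + (alt2 0 b 0 v) * i
    rw [z] at h2 ⊢
    have z' : Complex.I * alt2 0 0 c v = 0 := by linear_combination -h2 / 4
    rw [(mul_eq_zero.1 z').resolve_left Complex.I_ne_zero]
    ring

theorem alt2_ty11 {a c : ℂ} {b : Matrix (Fin 2) (Fin 2) ℂ} : a = 0 ∧ c = 0 ↔
    ∀ (t : ℂ) v, alt2 a b c (t • v) = t ^ 1 * conj t ^ 1 * alt2 a b c v := by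
  refine ⟨?_, fun h => ?_⟩
  · rintro ⟨rfl, rfl⟩ t v
    rw [alt2_smul, alt2_zero]
    ring
  · refine And.imp_right And.right (eq_of_alt2 (b := b) (b' := b) fun v => ?_)
    have h1 := h Complex.I v
    rw [alt2_smul, alt2_split a b c] at h1
    rw [alt2_split a b c]
    simp only [Complex.conj_I] at h1
    have i := Complex.I_mul_I
    linear_combination -h1 / 2 + (alt2 a 0 0 v + alt2 0 0 c v) * i

variable {X : Type} [TopologicalSpace X] [ChartedSpace C2 X] {k : ℕ} {a b : Coch X} {x : X}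
  {f g : (Fin (k + 1) → C2) → ℂ}

theorem SmF.ev_eq (hf : SmF a x f) (hg : SmF a x g) : f =ᶠ[𝓝 fun _ => chartAt C2 x x] g := by
  have t : Tendsto (fun (z : Fin (k + 1) → C2) i => (chartAt C2 x).symm (z i))
      (𝓝 fun _ => chartAt C2 x x) (𝓝 fun _ => x) := tendsto_pi_nhds.2 fun i =>
    ((chartAt C2 x).tendsto_symm (mem_chart_source _ x)).comp (continuous_apply i).continuousAt
  filter_upwards [t.eventually hf.2, t.eventually hg.2, eventually_all.2 fun i =>
    (continuous_apply i).continuousAt.eventually (chart_target_mem_nhds C2 x)] with z h1 h2 h3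
  simp only [fun i => (chartAt C2 x).right_inv (h3 i)] at h1 h2
  exact h1.symm.trans h2

theorem SmF.frm_eq (hf : SmF a x f) (hg : SmF a x g) :
    frm f (chartAt C2 x x) = frm g (chartAt C2 x x) := Mf.frm_congr (hf.ev_eq hg)

theorem SmF.add (hf : SmF a x f) (hg : SmF b x g) : SmF (a + b) x (f + g) :=
  ⟨hf.1.add hg.1, (hf.2.and hg.2).mono fun _ h => congrArg₂ (· + ·) h.1 h.2⟩

theorem SmF.congr (h : x ∉ supp (a - b)) (hf : SmF a x f) : SmF b x f := by
  obtain ⟨U, h1, h2⟩ := notMem_supp.1 h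
  refine ⟨hf.1, ?_⟩
  filter_upwards [hf.2, eventually_all.2 fun i =>
    (continuous_apply i).continuousAt.eventually h1] with z h3 h4
  exact (sub_eq_zero.1 (h2 _ (List.forall_mem_ofFn_iff.2 h4))).symm.trans h3

theorem SRp.hgAt {F : TwoF X} (h : SRp F a) {c : ℂ → ℂ} : (∃ f : (Fin (2 + 1) → C2) → ℂ,
    ContDiff ℝ ∞ f ∧ (∀ᶠ y : Fin (2 + 1) → X in 𝓝 fun _ => x,
      a.1 (List.ofFn y) = f fun i => chartAt C2 x (y i)) ∧
    ∀ (t : ℂ) v, frm f (chartAt C2 x x) (t • v) = c t * frm f (chartAt C2 x x) v) ↔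
    ∀ (t : ℂ) v, alt2 (F.f20 x) (F.f11 x) (F.f02 x) (t • v) =
      c t * alt2 (F.f20 x) (F.f11 x) (F.f02 x) v := by
  obtain ⟨f, h1, h2⟩ := h x
  refine ⟨fun ⟨g, h3, h4, h5⟩ t v => ?_, fun h3 => ⟨f, h1.1, h1.2, fun t v => ?_⟩⟩
  · rw [← h2, ← h2, h1.frm_eq ⟨h3, h4⟩, h5]
  · rw [h2, h2, h3]

theorem sapi {X : Type} [MetricSpace X] [ChartedSpace C2 X] : SApi X where
  add F G a b h h' x := by
    obtain ⟨f, h1, h2⟩ := h x
    obtain ⟨g, h3, h4⟩ := h' x
    refine ⟨f + g, h1.add h3, fun v => ?_⟩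
    rw [frm_add h1.1 h3.1, h2, h4]
    change _ = alt2 (F.f20 x + G.f20 x) (F.f11 x + G.f11 x) (F.f02 x + G.f02 x) v
    simp only [alt2_apply, Matrix.add_apply]
    ring
  congr F a b e h x := (h x).imp fun _ k => ⟨k.1.congr (e ▸ notMem_empty x), k.2⟩
  ty20 F a h := ((and_congr funext_iff funext_iff).trans forall_and.symm).trans
    (forall_congr' fun _ => alt2_ty20.trans h.hgAt.symm)
  ty11 F a h := ((and_congr funext_iff funext_iff).trans forall_and.symm).trans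
    (forall_congr' fun _ => alt2_ty11.trans h.hgAt.symm)

end Vale.Agent.P287Q.Sf
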