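import Vale.Agent.P287Q.Sf.Defs
import Vale.Agent.P291Z.T1

/-!
# P287, surfaces: smoothing of cocycles
-/

set_option linter.unusedSectionVars false

namespace Vale.Agent.P287Q.Sf

open Set Function Topology Filter P291Z P267.FL P267.BlockC P267.RR
open P267.H533 (AX TI Part WF ψC)
open P287Q.Zc (Lk)
open P287Q.Mf (frm IsHg cch)
open scoped ContDiff Manifold

section calcu

variable {E : Type} [NormedAddCommGroup E] [NormedSpace ℂ E]

theorem smo_fderiv {g0 g1 g2 : E → ℂ} (h0 : Differentiable ℝ g0) (h1 : Differentiable ℝ g1)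
    (h2 : Differentiable ℝ g2) (z w : Fin (2 + 1) → E) :
    fderiv ℝ (fun z : Fin (2 + 1) → E => g0 (z 0) * g1 (z 1) * g2 (z 2)) z w =
      fderiv ℝ g0 (z 0) (w 0) * g1 (z 1) * g2 (z 2) + g0 (z 0) * fderiv ℝ g1 (z 1) (w 1) * g2 (z 2) +
        g0 (z 0) * g1 (z 1) * fderiv ℝ g2 (z 2) (w 2) := by
  have k : ∀ (g : E → ℂ) (_ : Differentiable ℝ g) (s : Fin (2 + 1)),
      HasFDerivAt (fun z : Fin (2 + 1) → E => g (z s))
        ((fderiv ℝ g (z s)).comp (ContinuousLinearMap.proj s)) z := fun g hg s =>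
    (hg (z s)).hasFDerivAt.comp z (hasFDerivAt_apply s z)
  have h := (((k g0 h0 0).fun_mul (k g1 h1 1)).fun_mul (k g2 h2 2)).fderiv
  rw [h]
  simp only [add_apply, smul_apply,
    ContinuousLinearMap.comp_apply, ContinuousLinearMap.proj_apply, smul_eq_mul]
  ring

theorem smo_ten {g0 g1 g2 : E → ℂ} (h0 : ContDiff ℝ ∞ g0) (h1 : ContDiff ℝ ∞ g1)
    (h2 : ContDiff ℝ ∞ g2) :
    ContDiff ℝ ∞ fun z : Fin (2 + 1) → E => g0 (z 0) * g1 (z 1) * g2 (z 2) :=
  ((h0.comp (contDiff_apply ℝ E 0)).mul (h1.comp (contDiff_apply ℝ E 1))).mul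
    (h2.comp (contDiff_apply ℝ E 2))

theorem smo_second {g0 g1 g2 : E → ℂ} (h0 : ContDiff ℝ ∞ g0) (h1 : ContDiff ℝ ∞ g1)
    (h2 : ContDiff ℝ ∞ g2) (p u w : E) :
    fderiv ℝ (fderiv ℝ fun z : Fin (2 + 1) → E => g0 (z 0) * g1 (z 1) * g2 (z 2)) (fun _ => p)
      (Pi.single 1 u) (Pi.single 2 w) = g0 p * (fderiv ℝ g1 p u * fderiv ℝ g2 p w) := by
  have d0 := h0.differentiable (by simp)
  have d1 := h1.differentiable (by simp)
  have d2 := h2.differentiable (by simp)
  have d3 : Differentiable ℝ fun y => fderiv ℝ g2 y w :=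
    ((h2.fderiv_right (m := ∞) (by simp)).differentiable (by simp)).clm_apply
      (differentiable_const _)
  have d4 : Differentiable ℝ
      (fderiv ℝ fun z : Fin (2 + 1) → E => g0 (z 0) * g1 (z 1) * g2 (z 2)) :=
    ((smo_ten h0 h1 h2).fderiv_right (m := ∞) (by simp)).differentiable (by simp)
  have e1 : (fun z : Fin (2 + 1) → E => fderiv ℝ
      (fun z : Fin (2 + 1) → E => g0 (z 0) * g1 (z 1) * g2 (z 2)) z (Pi.single 2 w)) =
      fun z => g0 (z 0) * g1 (z 1) * fderiv ℝ g2 (z 2) w := by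
    funext z
    rw [smo_fderiv d0 d1 d2]
    simp
  have e2 := fderiv_clm_apply (x := fun _ : Fin (2 + 1) => p) (d4 _)
    (differentiableAt_const (𝕜 := ℝ) (Pi.single 2 w : Fin (2 + 1) → E))
  have e3 := congrArg (fun L => L (Pi.single 1 u : Fin (2 + 1) → E)) e2
  rw [e1, smo_fderiv d0 d1 d3] at e3
  simp only [fderiv_fun_const, Pi.zero_apply, ContinuousLinearMap.comp_zero, zero_add,
    ContinuousLinearMap.flip_apply] at e3
  rw [← e3]
  simp
  ring

/-- The form of a tensor product of three functions. -/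
theorem frm_ten3 {g0 g1 g2 : E → ℂ} (h0 : ContDiff ℝ ∞ g0) (h1 : ContDiff ℝ ∞ g1)
    (h2 : ContDiff ℝ ∞ g2) (p : E) (v : Fin 2 → E) :
    frm (fun z : Fin (2 + 1) → E => g0 (z 0) * g1 (z 1) * g2 (z 2)) p v =
      g0 p * (fderiv ℝ g1 p (v 0) * fderiv ℝ g2 p (v 1) -
        fderiv ℝ g1 p (v 1) * fderiv ℝ g2 p (v 0)) := by
  have hu : (Finset.univ : Finset (Equiv.Perm (Fin 2))) = {1, Equiv.swap 0 1} := by decide
  have hne : (1 : Equiv.Perm (Fin 2)) ≠ Equiv.swap 0 1 := by decide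
  have s0 : (0 : Fin 2).succ = 1 := rfl
  have s1 : (1 : Fin 2).succ = 2 := rfl
  rw [frm, hu, Finset.sum_pair hne]
  simp only [iteratedFDeriv_two_apply, s0, s1, smo_second h0 h1 h2]
  simp
  ring

theorem smo_frm_sum {k : ℕ} {ι : Type} (s : Finset ι) {f : ι → (Fin (k + 1) → E) → ℂ}
    (hf : ∀ i ∈ s, ContDiff ℝ ∞ (f i)) (p : E) (v : Fin k → E) :
    frm (fun z => ∑ i ∈ s, f i z) p v = ∑ i ∈ s, frm (f i) p v := by
  simp only [frm]
  rw [Finset.sum_comm]
  refine Finset.sum_congr rfl fun σ _ => ?_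
  rw [iteratedFDeriv_fun_sum_apply fun i hi => ((hf i hi).of_le (by exact_mod_cast le_top)).contDiffAt,
    sum_apply, Finset.mul_sum]

end calcu

/-- A function that is smooth on an open set has a globally smooth germ at each point. -/
theorem smo_ext {h : C2 → ℂ} {U : Set C2} (hU : IsOpen U) (hh : ContDiffOn ℝ ∞ h U) {p : C2}
    (hp : p ∈ U) : ∃ g : C2 → ℂ, ContDiff ℝ ∞ g ∧ g =ᶠ[𝓝 p] h := by
  obtain ⟨r, hr, hrU⟩ := Metric.nhds_basis_closedBall.mem_iff.1 (hU.mem_nhds hp)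
  let b : ContDiffBump p := ⟨r / 2, r, by positivity, by linarith⟩
  refine ⟨fun z => b z • h z, contDiff_iff_contDiffAt.2 fun z => ?_, ?_⟩
  · by_cases hz : z ∈ U
    · exact b.contDiffAt.smul (hh.contDiffAt (hU.mem_nhds hz))
    · have h1 : z ∉ tsupport b := fun h1 => hz (hrU (b.tsupport_eq ▸ h1))
      refine (contDiffAt_const (c := (0 : ℂ))).congr_of_eventuallyEq ?_
      filter_upwards [notMem_tsupport_iff_eventuallyEq.1 h1] with y hy
      rw [hy, Pi.zero_apply, zero_smul]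
  · filter_upwards [b.eventuallyEq_one] with y hy
    rw [hy, Pi.one_apply, one_smul]

section avg

variable {ι : Type} [Fintype ι] {α β γ : ι → ℂ}

theorem smo_two (hβ : ∑ j, β j = 1) (f : ι → ℂ) : ∑ i, ∑ j, α i * β j * f i = ∑ i, α i * f i := by
  refine Finset.sum_congr rfl fun i _ => ?_
  rw [← Finset.sum_mul, ← Finset.mul_sum, hβ, mul_one]

theorem smo_t1 (hα : ∑ i, α i = 1) (f : ι → ι → ℂ) :
    ∑ i, ∑ j, ∑ k, α i * β j * γ k * f j k = ∑ j, ∑ k, β j * γ k * f j k := by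
  simp only [mul_assoc, ← Finset.mul_sum]
  rw [← Finset.sum_mul, hα, one_mul]

theorem smo_t3 (hγ : ∑ i, γ i = 1) (f : ι → ι → ℂ) :
    ∑ i, ∑ j, ∑ k, α i * β j * γ k * f i j = ∑ i, ∑ j, α i * β j * f i j := by
  refine Finset.sum_congr rfl fun i _ => Finset.sum_congr rfl fun j _ => ?_
  rw [← Finset.sum_mul, ← Finset.mul_sum, hγ, mul_one]

theorem smo_t2 (hβ : ∑ i, β i = 1) (f : ι → ι → ℂ) :
    ∑ i, ∑ j, ∑ k, α i * β j * γ k * f i k = ∑ i, ∑ k, α i * γ k * f i k := by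
  refine Finset.sum_congr rfl fun i _ => ?_
  rw [Finset.sum_comm]
  refine Finset.sum_congr rfl fun k _ => ?_
  rw [← Finset.sum_mul, ← Finset.sum_mul, ← Finset.mul_sum, hβ, mul_one]

theorem smo_avg (hα : ∑ i, α i = 1) (hβ : ∑ i, β i = 1) (hγ : ∑ i, γ i = 1) (A : ℂ)
    (S : ι → ι → ι → ℂ) (p q r : ι → ℂ) (p' q' r' : ι → ι → ℂ)
    (h : ∀ i j k, α i ≠ 0 → β j ≠ 0 → γ k ≠ 0 →
      A - S i j k - (p j - p' j k) + (q i - q' i k) - (r i - r' i j) = 0) :
    A - ∑ i, ∑ j, ∑ k, S i j k * (α i * β j * γ k) -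
      ((∑ j, β j * p j - ∑ j, ∑ k, β j * γ k * p' j k) -
        (∑ i, α i * q i - ∑ i, ∑ k, α i * γ k * q' i k) +
        (∑ i, α i * r i - ∑ i, ∑ j, α i * β j * r' i j)) = 0 := by
  have h0 : ∑ i, ∑ j, ∑ k, α i * β j * γ k *
      (A - S i j k - (p j - p' j k) + (q i - q' i k) - (r i - r' i j)) = 0 := by
    refine Finset.sum_eq_zero fun i _ => Finset.sum_eq_zero fun j _ =>
      Finset.sum_eq_zero fun k _ => ?_
    by_cases hi : α i = 0
    · simp [hi]
    by_cases hj : β j = 0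
    · simp [hj]
    by_cases hk : γ k = 0
    · simp [hk]
    rw [h i j k hi hj hk, mul_zero]
  simp only [mul_sub, mul_add, Finset.sum_add_distrib, Finset.sum_sub_distrib] at h0
  rw [smo_t3 hγ fun _ _ => A, smo_two hβ fun _ => A, ← Finset.sum_mul, hα, one_mul,
    smo_t1 hα fun j _ => p j, smo_two hγ p, smo_t1 hα p', smo_t3 hγ fun i _ => q i, smo_two hβ q,
    smo_t2 hβ q', smo_t3 hγ fun i _ => r i, smo_two hβ r, smo_t3 hγ r'] at h0
  simp only [mul_comm (S _ _ _)]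
  linear_combination h0

end avg

/-- A locally vanishing cochain vanishes on all lists in small balls. -/
theorem smo_leb {X : Type} [MetricSpace X] [CompactSpace X] {b : Coch X} (hb : supp b = ∅) :
    ∃ ε > 0, ∀ (c : X) (l : List X), (∀ y ∈ l, dist y c < ε) → b.1 l = 0 := by
  have h : ∀ x, x ∉ supp b := fun x => hb ▸ notMem_empty x
  choose U hU hU' using fun x => notMem_supp.1 (h x)
  obtain ⟨ε, hε, h1⟩ := lebesgue_number_lemma_of_metric (c := fun x => interior (U x))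
    isCompact_univ (fun _ => isOpen_interior)
    fun x _ => mem_iUnion.2 ⟨x, mem_interior_iff_mem_nhds.2 (hU x)⟩
  refine ⟨ε, hε, fun c l hl => ?_⟩
  obtain ⟨x, hx⟩ := h1 c (mem_univ c)
  exact hU' x l fun y hy => interior_subset (hx (hl y hy))

theorem smo_δ3 {X : Type} (a : Coch X) (x y z : X) :
    (δ a).1 [x, y, z] = a.1 [y, z] - a.1 [x, z] + a.1 [x, y] := by
  simp [δ_val, cob, Finset.sum_range_succ]
  ring

theorem smo_δ4 {X : Type} (a : Coch X) (w x y z : X) :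
    (δ a).1 [w, x, y, z] = a.1 [x, y, z] - a.1 [w, y, z] + a.1 [w, x, z] - a.1 [w, x, y] := by
  simp [δ_val, cob, Finset.sum_range_succ]
  ring

section mfd

variable {X : Type} [TopologicalSpace X] [ChartedSpace C2 X]

theorem smo_wd (u w : X → ℂ) (x : X) (v : Fin 2 → C2) {g h : C2 → ℂ}
    (hg : g =ᶠ[𝓝 (chartAt C2 x x)] fun z => u ((chartAt C2 x).symm z))
    (hh : h =ᶠ[𝓝 (chartAt C2 x x)] fun z => w ((chartAt C2 x).symm z)) :
    P267.H857.alt2 ((P267.H533.wdF u w).f20 x) ((P267.H533.wdF u w).f11 x)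
      ((P267.H533.wdF u w).f02 x) v =
      fderiv ℝ g (chartAt C2 x x) (v 0) * fderiv ℝ h (chartAt C2 x x) (v 1) -
        fderiv ℝ g (chartAt C2 x x) (v 1) * fderiv ℝ h (chartAt C2 x x) (v 0) := by
  rw [hg.fderiv_eq, hh.fderiv_eq, P267.H857.alt2_apply]
  simp only [P267.H857.fderiv_eq, P267.H533.wdF, Matrix.of_apply, del0, dbar0,
    P267.FL.LB.loc0_zero, Function.comp_def]
  ring

theorem smo_WF {ι : Type} [Fintype ι] (ψ : ι → X → ℂ) (r : ι → ι → ι → ℂ) (x : X)
    (v : Fin 2 → C2) :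
    P267.H857.alt2 ((WF ψ r).f20 x) ((WF ψ r).f11 x) ((WF ψ r).f02 x) v =
      ∑ i, ∑ j, ∑ k, r i j k * ψ i x * P267.H857.alt2 ((P267.H533.wdF (ψ j) (ψ k)).f20 x)
        ((P267.H533.wdF (ψ j) (ψ k)).f11 x) ((P267.H533.wdF (ψ j) (ψ k)).f02 x) v := by
  simp only [P267.H857.alt2_apply, WF, Matrix.of_apply, Finset.sum_mul, ← Finset.sum_add_distrib]
  refine Finset.sum_congr rfl fun i _ => Finset.sum_congr rfl fun j _ =>
    Finset.sum_congr rfl fun k _ => ?_
  ring

variable {ι : Type} [Fintype ι]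

theorem smo_sum_one (P : Part (AX X) ι) (y : X) : ∑ i, ψC P i y = 1 := by
  have h1 : ((∑ a, P.ψ a : AX X) : X → ℝ) y = ((1 : AX X) : X → ℝ) y := by rw [P.sum_one]
  rw [AddSubmonoidClass.coe_finsetSum, Finset.sum_apply] at h1
  simp only [ψC, ← Complex.ofReal_sum, h1]
  rfl

/-- Global smooth functions with the germs of the members of a partition in a chart. -/
theorem smo_germs (P : Part (AX X) ι) (x : X) : ∃ g : ι → C2 → ℂ, (∀ i, ContDiff ℝ ∞ (g i)) ∧
    (∀ i, g i =ᶠ[𝓝 (chartAt C2 x x)] fun z => ψC P i ((chartAt C2 x).symm z)) ∧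
    ∀ᶠ y in 𝓝 x, ∀ i, ψC P i y = g i (chartAt C2 x y) := by
  have h : ∀ i, ContDiffOn ℝ ∞ (fun z => ψC P i ((chartAt C2 x).symm z)) (chartAt C2 x).target :=
    fun i => Complex.ofRealCLM.contDiff.comp_contDiffOn ((P.ψ i).2.1 _ (chart_mem_atlas C2 x))
  choose g hg hg' using fun i => smo_ext (chartAt C2 x).open_target (h i) (mem_chart_target C2 x)
  refine ⟨g, hg, hg', eventually_all.2 fun i => ?_⟩
  filter_upwards [((chartAt C2 x).continuousAt (mem_chart_source C2 x)).eventually (hg' i),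
    (chartAt C2 x).open_source.mem_nhds (mem_chart_source C2 x)] with y hy hy'
  rw [hy, (chartAt C2 x).left_inv hy']

/-- The Whitney form is the form of the smoothing. -/
theorem smo_srp (P : Part (AX X) ι) (a : Coch X) : SRp (WC P a) (smo P a) := by
  intro x
  obtain ⟨g, hg, hg1, hg2⟩ := smo_germs P x
  have hc : ∀ i j k, ContDiff ℝ ∞ fun y => a.1 [P.v i, P.v j, P.v k] * g i y := fun i j k =>
    contDiff_const.mul (hg i)
  have ht := fun i j k => smo_ten (hc i j k) (hg j) (hg k)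
  refine ⟨fun z => ∑ i, ∑ j, ∑ k, a.1 [P.v i, P.v j, P.v k] * g i (z 0) * g j (z 1) * g k (z 2),
    ⟨ContDiff.sum fun i _ => ContDiff.sum fun j _ => ContDiff.sum fun k _ => ht i j k, ?_⟩,
    fun v => ?_⟩
  · have k := fun s : Fin (2 + 1) =>
      ((continuous_apply s).tendsto fun _ : Fin (2 + 1) => x).eventually hg2
    filter_upwards [k 0, k 1, k 2] with y h0 h1 h2
    have e : List.ofFn y = [y 0, y 1, y 2] := rfl
    rw [e, smo, c2_val]
    simp only [h0, h1, h2, mul_assoc]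
  · rw [WC, smo_WF, smo_frm_sum _ fun i _ =>
      ContDiff.sum fun j _ => ContDiff.sum fun k _ => ht i j k]
    refine Finset.sum_congr rfl fun i _ => ?_
    rw [smo_frm_sum _ fun j _ => ContDiff.sum fun k _ => ht i j k]
    refine Finset.sum_congr rfl fun j _ => ?_
    rw [smo_frm_sum _ fun k _ => ht i j k]
    refine Finset.sum_congr rfl fun k _ => ?_
    rw [frm_ten3 (hc i j k) (hg j) (hg k), smo_wd _ _ x v (hg1 j) (hg1 k), hg2.self_of_nhds i]

end mfd

variable {X : Type} [MetricSpace X] [CompactSpace X] [ChartedSpace C2 X]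

/-- **Smoothing.** -/
theorem smo_st : StSmo X := by
  intro a ha
  obtain ⟨ε, hε, hδ⟩ := smo_leb (b := δ a.1) a.2
  refine ⟨ε / 2, half_pos hε, fun n P hP => ⟨smo_srp P a.1, ?_⟩⟩
  refine eq_empty_of_forall_notMem fun c => notMem_supp.2
    ⟨Metric.ball c (ε / 2), Metric.ball_mem_nhds c (half_pos hε), fun l hl => ?_⟩
  by_cases h3 : l.length = 3
  · obtain ⟨x, y, z, rfl⟩ := List.length_eq_three.1 h3
    have hv : ∀ i t, t ∈ [x, y, z] → ψC P i t ≠ 0 → dist (P.v i) c < ε := by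
      intro i t ht h
      have h1 := hP i t (subset_tsupport _ fun h2 => h (by rw [ψC, h2, Complex.ofReal_zero]))
      have h2 : dist t c < ε / 2 := hl t ht
      have h4 := dist_triangle_left (P.v i) c t
      linarith
    have hb : ∀ t ∈ [x, y, z], dist t c < ε := fun t ht =>
      (hl t ht).trans (half_lt_self hε)
    have hx := hb x (by simp)
    have hy := hb y (by simp)
    have hz := hb z (by simp)
    rw [Coch.sub_val, Coch.sub_val, Pi.sub_apply, Pi.sub_apply, smo_δ3, smo, prs, c2_val, c1_val,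
      c1_val, c1_val]
    refine smo_avg (smo_sum_one P x) (smo_sum_one P y) (smo_sum_one P z) _ _ _ _ _ _ _ _
      fun i j k hi hj hk => ?_
    have hu := hv i x (by simp) hi
    have hv' := hv j y (by simp) hj
    have hw := hv k z (by simp) hk
    have e1 := hδ c [P.v i, x, y, z] (by simp [hu, hx, hy, hz])
    have e2 := hδ c [P.v i, P.v j, y, z] (by simp [hu, hv', hy, hz])
    have e3 := hδ c [P.v i, P.v j, P.v k, z] (by simp [hu, hv', hw, hz])
    rw [smo_δ4] at e1 e2 e3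
    linear_combination e1 - e2 + e3
  · have hd : IsDeg 2 (a.1 - smo P a.1 - δ (prs P a.1)) :=
      (ha.sub (isDeg_c2 _)).sub (isDeg_c1 _).δ
    exact hd l (by omega)

end Vale.Agent.P287Q.Sf
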