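import Vale.Agent.P287Q.Sf.Defs
import Vale.Agent.P267.H994.WF

/-!
# P287, surfaces: Whitney forms of Alexander-Spanier cocycles
-/

set_option linter.unusedSectionVars false

namespace Vale.Agent.P287Q.Sf

open Set Function Topology Filter P291Z P267.FL P267.BlockC P267.RR
open P267.H533 (AX TI Part WF ψC RSm)
open P267.H995 (Exact2 IsCoc)
open scoped ContDiff Manifold

namespace Wh

theorem δ3 {X : Type} (a : Coch X) (x y z : X) :
    (δ a).1 [x, y, z] = a.1 [y, z] - a.1 [x, z] + a.1 [x, y] := by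
  rw [δ_val, cob_cons, cob_cons, cob_cons, cob_nil]
  ring

theorem δ4 {X : Type} (a : Coch X) (x y z w : X) :
    (δ a).1 [x, y, z, w] =
      a.1 [y, z, w] - a.1 [x, z, w] + a.1 [x, y, w] - a.1 [x, y, z] := by
  rw [δ_val, cob_cons, cob_cons, cob_cons, cob_cons, cob_nil]
  ring

theorem exact_iff {X : Type} [TopologicalSpace X] [ChartedSpace C2 X] {F : TwoF X} :
    ExactTwo F ↔ Exact2 F :=
  ⟨fun ⟨A, h, e⟩ => ⟨A, h, e.symm⟩, fun ⟨A, h, e⟩ => ⟨A, h, e.symm⟩⟩

end Wh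

variable {X : Type} [MetricSpace X]

/-- A locally vanishing cochain vanishes on all lists of small diameter. -/
theorem small [CompactSpace X] {a : Coch X} (h : supp a = ∅) :
    ∃ ε > 0, ∀ l : List X, (∀ x ∈ l, ∀ y ∈ l, dist x y < ε) → a.1 l = 0 := by
  have h1 : ∀ x : X, ∃ U ∈ 𝓝 x, ∀ l : List X, (∀ y ∈ l, y ∈ U) → a.1 l = 0 := fun x =>
    notMem_supp.1 (by rw [h]; exact notMem_empty x)
  choose U hU hv using h1
  obtain ⟨ε, h0, hε⟩ := lebesgue_number_lemma_of_metric (c := fun x => interior (U x))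
    isCompact_univ (fun _ => isOpen_interior) fun x _ =>
      mem_iUnion.2 ⟨x, mem_interior_iff_mem_nhds.2 (hU x)⟩
  refine ⟨ε, h0, fun l hl => ?_⟩
  cases l with
  | nil => exact a.2.1
  | cons x l =>
    obtain ⟨z, hz⟩ := hε x (mem_univ x)
    exact hv z _ fun y hy => interior_subset (hz (hl y hy x (by simp)))

namespace Wh

/-- A locally vanishing cochain vanishes on all lists in a small ball. -/
theorem ball [CompactSpace X] {a : Coch X} (h : supp a = ∅) :
    ∃ η > 0, ∀ (x : X) (l : List X), (∀ y ∈ l, dist x y < η) → a.1 l = 0 := by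
  obtain ⟨ε, h0, hε⟩ := small h
  refine ⟨ε / 2, half_pos h0, fun x l hl => hε l fun y hy z hz => ?_⟩
  have h1 := hl y hy
  have h2 := hl z hz
  have h3 := dist_triangle_left y z x
  linarith

variable [ChartedSpace C2 X] {ι : Type} [Fintype ι]

/-- A fine partition, subordinate to the balls around its vertices. -/
def toP (P : Part (AX X) ι) {η : ℝ} (h : P.Fine η) : P267.H995.Part X ι where
  U i := Metric.ball (P.v i) η
  isOpen _ := Metric.isOpen_ball
  ρ i := (P.ψ i : X → ℝ)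
  smooth i := P267.H533.AX_reg (P.ψ i)
  supp i x hx := h i x hx
  sum x := by
    have h2 := congrArg (fun f : AX X => (f : X → ℝ) x) P.sum_one
    have h3 : ((∑ a, P.ψ a : AX X) : X → ℝ) x = ∑ a, (P.ψ a : X → ℝ) x := by
      rw [AddSubmonoidClass.coe_finsetSum, Finset.sum_apply]
    simp only [h3] at h2
    exact h2.trans (by simp)

theorem toP_W (P : Part (AX X) ι) {η : ℝ} (h : P.Fine η) (r : ι → ι → ι → ℂ) :
    (toP P h).W r = WF (ψC P) r := P267.H994.W_eq_WF _ r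

theorem WC_eq (P : Part (AX X) ι) {η : ℝ} (h : P.Fine η) (a : Coch X) :
    WC P a = (toP P h).W fun i j k => a.1 [P.v i, P.v j, P.v k] := (toP_W P h _).symm

omit [ChartedSpace C2 X] [Fintype ι] in
theorem isCoc {a : Coch X} {η : ℝ}
    (h : ∀ (x : X) (l : List X), (∀ y ∈ l, dist x y < η) → (δ a).1 l = 0) (v : ι → X) :
    IsCoc (fun i => Metric.ball (v i) η) fun i j k => a.1 [v i, v j, v k] := by
  intro i j k l x hi hj hk hl
  rw [← δ4]
  refine h x _ fun y hy => ?_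
  simp only [List.mem_cons, List.not_mem_nil, or_false] at hy
  rcases hy with rfl | rfl | rfl | rfl
  exacts [hi, hj, hk, hl]

end Wh

variable [CompactSpace X] [ChartedSpace C2 X] [IsManifold 𝓘(ℂ, C2) ω X]

theorem fine : StFine X := by
  classical
  intro η hη
  have hb : ∀ x : X, ∃ χ : X → ℝ, RSm χ ∧ HasCompactSupport χ ∧
      tsupport χ ⊆ (chartAt C2 x).source ∩ Metric.ball x η ∧
      (∀ y, 0 ≤ χ y ∧ χ y ≤ 1) ∧ ∀ᶠ y in 𝓝 x, χ y = 1 := fun x =>
    P267.H533.exists_bump_at Metric.isOpen_ball (Metric.mem_ball_self hη)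
  choose χ h1 h2 h3 h4 h5 using hb
  obtain ⟨t, -, ht⟩ := isCompact_univ.elim_nhds_subcover (fun x : X => {y | χ x y = 1})
    (fun x _ => h5 x)
  let v : Fin t.card → X := fun i => (t.equivFin.symm i : t)
  have hcov : ∀ x, ∃ a, χ (v a) x = 1 := by
    intro x
    obtain ⟨y, hy, hxy⟩ := mem_iUnion₂.1 (ht (mem_univ x))
    exact ⟨t.equivFin ⟨y, hy⟩, by simpa [v] using hxy⟩
  have hqs : RSm fun x => ∑ a, χ (v a) x := RSm.sum _ fun a _ => h1 (v a)
  have hq : ∀ x, 0 < ∑ a, χ (v a) x := by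
    intro x
    obtain ⟨a, ha⟩ := hcov x
    refine lt_of_lt_of_le one_pos ?_
    rw [← ha]
    exact Finset.single_le_sum (f := fun a => χ (v a) x) (fun b _ => (h4 (v b) x).1)
      (Finset.mem_univ a)
  have hw : RSm fun x => (∑ a, χ (v a) x)⁻¹ := fun e he =>
    (hqs e he).inv fun z _ => (hq (e.symm z)).ne'
  refine ⟨t.card, ⟨fun a => ⟨fun x => χ (v a) x * (∑ a, χ (v a) x)⁻¹,
    P267.H533.mem_AX_of_compact ((h1 (v a)).mul hw)⟩, v, ?_⟩, fun a x hx => ?_⟩
  · apply Subtype.ext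
    funext x
    rw [AddSubmonoidClass.coe_finsetSum, Finset.sum_apply]
    change ∑ a, χ (v a) x * (∑ a, χ (v a) x)⁻¹ = 1
    rw [← Finset.sum_mul, mul_inv_cancel₀ (hq x).ne']
  · exact (h3 (v a) (tsupport_mul_subset_left hx)).2

theorem w0 : StW0 X := by
  classical
  intro a
  obtain ⟨η, h0, hη⟩ := Wh.ball (a := δ a.1) a.2
  refine ⟨η, h0, fun n P hP => ⟨?_, fun n' P' hP' => ?_⟩⟩
  · rw [Wh.WC_eq P hP]
    exact ⟨(Wh.toP P hP).smooth_W (Wh.isCoc hη P.v), (Wh.toP P hP).closed_W (Wh.isCoc hη P.v)⟩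
  · let v : Fin n ⊕ Fin n' → X := Sum.elim P.v P'.v
    have hU : ∀ i, IsOpen (Metric.ball (v i) η) := fun _ => Metric.isOpen_ball
    have hs : ∀ j, (Wh.toP P' hP').U j ⊆ Metric.ball (v (Sum.inr j)) η := fun _ => subset_rfl
    have h1 := (Wh.toP P hP).exact_sub ((Wh.toP P' hP').push Sum.inr
      (fun i => Metric.ball (v i) η) hU hs) Sum.inl (fun _ => subset_rfl) (Wh.isCoc hη v)
    rw [(Wh.toP P' hP').W_push Sum.inr (fun i => Metric.ball (v i) η) hU hs] at h1
    rw [Wh.WC_eq P hP, Wh.WC_eq P' hP', Wh.exact_iff]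
    exact h1

theorem w1 : StW1 X := by
  intro a a' h
  obtain ⟨c, hc⟩ := H.mk_eq_iff.1 h
  obtain ⟨η, h0, hη⟩ := Wh.ball hc
  refine ⟨η, h0, fun n P hP => ?_⟩
  change ExactTwo (WC P a.1 - WC P a'.1)
  rw [Wh.WC_eq P hP a.1, Wh.WC_eq P hP a'.1, Wh.exact_iff, ← P267.H995.Part.W_sub]
  have h1 := (Wh.toP P hP).exact_W_coboundary fun i j => c.1 [P.v i, P.v j]
  rw [(Wh.toP P hP).W_congr (s := fun i j k =>
    c.1 [P.v j, P.v k] - c.1 [P.v i, P.v k] + c.1 [P.v i, P.v j])]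
  · exact h1
  · intro i j k x hi hj hk
    have h2 := hη x [P.v i, P.v j, P.v k] fun y hy => by
      simp only [List.mem_cons, List.not_mem_nil, or_false] at hy
      rcases hy with rfl | rfl | rfl
      exacts [hi, hj, hk]
    rw [Coch.sub_val, Coch.sub_val, Pi.sub_apply, Pi.sub_apply, Wh.δ3] at h2
    linear_combination h2

end Vale.Agent.P287Q.Sf
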