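import Mathlib.LinearAlgebra.BilinearForm.Properties
import Mathlib.LinearAlgebra.Dimension.Constructions
import Mathlib.LinearAlgebra.FreeModule.PID
import Mathlib.LinearAlgebra.Dimension.RankNullity
import Mathlib.LinearAlgebra.Dimension.Localization
import Mathlib.Tactic

/-!
# P287: numerical contraction of the exceptional curves of a canonical divisor
-/

namespace Vale.Agent.P287Q.Sf

open Finset

variable {L : Type*} [AddCommGroup L]

/-- `e` is an orthonormal family of vectors of square `-1`. -/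
def NegFrame (B : LinearMap.BilinForm ℤ L) {m : ℕ} (e : Fin m → L) : Prop :=
  ∀ i j, B (e i) (e j) = if i = j then -1 else 0

theorem contract_aux {ι : Type*} [DecidableEq ι] (B : LinearMap.BilinForm ℤ L)
    (hB : ∀ x y, B x y = B y x) (a : ι → ℕ) (n : ℕ) :
    ∀ (s : Finset ι) (C : ι → L), s.card = n →
      (∀ i ∈ s, ∀ j ∈ s, i ≠ j → 0 ≤ B (C i) (C j)) →
      (∀ i ∈ s, -2 ≤ B (C i) (C i) + B (∑ j ∈ s, (a j : ℤ) • C j) (C i)) →
      ∃ (m : ℕ) (e : Fin m → L), NegFrame B e ∧
        0 ≤ B (∑ j ∈ s, (a j : ℤ) • C j) (∑ j ∈ s, (a j : ℤ) • C j) + m ∧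
        ∀ k, e k ∈ Submodule.span ℤ (C '' (s : Set ι)) := by
  induction n with
  | zero =>
    intro s C hs _ _
    obtain rfl := Finset.card_eq_zero.1 hs
    exact ⟨0, Fin.elim0, fun i => i.elim0, by simp, fun i => i.elim0⟩
  | succ n ih =>
    intro s C hs h1 h2
    set K := ∑ j ∈ s, (a j : ℤ) • C j with hK
    by_cases h0 : 0 ≤ B K K
    · exact ⟨0, Fin.elim0, fun i => i.elim0, by simpa using h0, fun i => i.elim0⟩
    obtain ⟨i, hi, hneg⟩ : ∃ i ∈ s, B K (C i) < 0 := by
      by_contra hc
      push Not at hc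
      refine h0 ?_
      have : B K K = ∑ j ∈ s, (a j : ℤ) * B K (C j) := by
        conv_lhs => rw [show B K K = B K (∑ j ∈ s, (a j : ℤ) • C j) from rfl]
        rw [map_sum]
        simp only [map_smul, smul_eq_mul]
      rw [this]
      exact Finset.sum_nonneg fun j hj => mul_nonneg (Nat.cast_nonneg _) (hc j hj)
    have hsp : K = (a i : ℤ) • C i + ∑ j ∈ s.erase i, (a j : ℤ) • C j :=
      (Finset.add_sum_erase s (fun j => (a j : ℤ) • C j) hi).symm
    have hr : 0 ≤ B (∑ j ∈ s.erase i, (a j : ℤ) • C j) (C i) := by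
      rw [map_sum, LinearMap.sum_apply]
      refine Finset.sum_nonneg fun j hj => ?_
      rw [map_smul, LinearMap.smul_apply, smul_eq_mul]
      exact mul_nonneg (Nat.cast_nonneg _)
        (h1 j (Finset.mem_of_mem_erase hj) i hi (Finset.ne_of_mem_erase hj))
    have hKE : B K (C i) = a i * B (C i) (C i) + B (∑ j ∈ s.erase i, (a j : ℤ) • C j) (C i) := by
      conv_lhs => rw [hsp]
      rw [map_add, LinearMap.add_apply, map_smul, LinearMap.smul_apply, smul_eq_mul]
    have hEE : B (C i) (C i) < 0 := by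
      by_contra hc
      have := mul_nonneg (Nat.cast_nonneg (a i) : (0 : ℤ) ≤ a i) (not_lt.1 hc)
      omega
    have h3 := h2 i hi
    have e1 : B (C i) (C i) = -1 := by omega
    have e2 : B K (C i) = -1 := by omega
    set E := C i with hE
    let C' : ι → L := fun j => C j + B (C j) E • E
    have o1 : ∀ j, B (C' j) E = 0 := fun j => by
      simp only [C', map_add, LinearMap.add_apply, map_smul, LinearMap.smul_apply, smul_eq_mul, e1]
      ring
    have p1 : ∀ j k, B (C' j) (C' k) = B (C j) (C k) + B (C j) E * B (C k) E := fun j k => by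
      simp only [C', map_add, LinearMap.add_apply, map_smul, LinearMap.smul_apply, smul_eq_mul, e1,
        hB E (C j), hB E (C k)]
      ring
    have hK' : ∑ j ∈ s.erase i, (a j : ℤ) • C' j = K - E := by
      have q : ∑ j ∈ s.erase i, (a j : ℤ) • C' j =
          ∑ j ∈ s.erase i, (a j : ℤ) • C j + B (∑ j ∈ s.erase i, (a j : ℤ) • C j) E • E := by
        rw [map_sum, LinearMap.sum_apply, Finset.sum_smul, ← Finset.sum_add_distrib]
        refine Finset.sum_congr rfl fun j _ => ?_
        simp only [C', smul_add, map_smul, LinearMap.smul_apply, smul_eq_mul, mul_smul]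
      have q2 : B (∑ j ∈ s.erase i, (a j : ℤ) • C j) E = a i - 1 := by
        rw [e1, e2] at hKE
        omega
      rw [q, q2]
      conv_rhs => rw [hsp]
      module
    obtain ⟨m, e, f1, f2, f3⟩ := ih (s.erase i) C' (by rw [Finset.card_erase_of_mem hi, hs]; rfl)
      (fun j hj k hk hjk => by
        have hj' := Finset.mem_of_mem_erase hj
        have hk' := Finset.mem_of_mem_erase hk
        rw [p1]
        exact add_nonneg (h1 j hj' k hk' hjk)
          (mul_nonneg (h1 j hj' i hi (Finset.ne_of_mem_erase hj))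
            (h1 k hk' i hi (Finset.ne_of_mem_erase hk))))
      (fun j hj => by
        have hj' := Finset.mem_of_mem_erase hj
        have t1 := h2 j hj'
        have t2 : B (K - E) (C' j) = B K (C j) - B (C j) E := by
          simp only [C', map_add, map_sub, LinearMap.sub_apply, map_smul, smul_eq_mul, e1, e2,
            hB E (C j)]
          ring
        rw [hK', p1, t2]
        nlinarith [mul_self_nonneg (2 * B (C j) E - 1)])
    have hsub : Submodule.span ℤ (C' '' ((s.erase i : Finset ι) : Set ι)) ≤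
        Submodule.span ℤ (C '' (s : Set ι)) ⊓ LinearMap.ker (B E) := by
      rw [Submodule.span_le]
      rintro _ ⟨j, hj, rfl⟩
      refine ⟨add_mem (Submodule.subset_span ⟨j, Finset.mem_of_mem_erase hj, rfl⟩)
        (Submodule.smul_mem _ _ (Submodule.subset_span ⟨i, hi, rfl⟩)), ?_⟩
      exact (hB _ _).trans (o1 j)
    have o2 : ∀ k, B E (e k) = 0 := fun k => (hsub (f3 k)).2
    refine ⟨m + 1, Fin.cons E e, fun k l => ?_, ?_, fun k => ?_⟩
    · refine Fin.cases ?_ (fun k => ?_) k <;> refine Fin.cases ?_ (fun l => ?_) l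
      · simpa using e1
      · simpa [(Fin.succ_ne_zero l).symm] using o2 l
      · simpa [hB (e k) E] using o2 k
      · simpa using f1 k l
    · rw [hK'] at f2
      have : B (K - E) (K - E) = B K K + 1 := by
        simp only [map_sub, LinearMap.sub_apply, e1, e2, hB E K]
        ring
      push_cast
      omega
    · refine Fin.cases ?_ (fun k => ?_) k
      · exact Submodule.subset_span ⟨i, hi, rfl⟩
      · exact (hsub (f3 k)).1

/-- **Numerical contraction.** -/
theorem contract {ι : Type*} [Fintype ι] (B : LinearMap.BilinForm ℤ L)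
    (hB : ∀ x y, B x y = B y x) (a : ι → ℕ) (C : ι → L) (K : L) (hK : K = ∑ j, (a j : ℤ) • C j)
    (h1 : ∀ i j, i ≠ j → 0 ≤ B (C i) (C j)) (h2 : ∀ i, -2 ≤ B (C i) (C i) + B K (C i)) :
    ∃ (m : ℕ) (e : Fin m → L), NegFrame B e ∧ 0 ≤ B K K + m ∧
      ∀ k, e k ∈ Submodule.span ℤ (Set.range C) := by
  classical
  subst hK
  simpa using contract_aux B hB a _ Finset.univ C rfl (fun i _ j _ => h1 i j) fun i _ => h2 i

/-- The vectors orthogonal to all members of the family `e`. -/
def perp (B : LinearMap.BilinForm ℤ L) {κ : Type*} (e : κ → L) : Submodule ℤ L :=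
  ⨅ k, LinearMap.ker (B (e k))

theorem mem_perp {B : LinearMap.BilinForm ℤ L} {κ : Type*} {e : κ → L} {x : L} :
    x ∈ perp B e ↔ ∀ k, B (e k) x = 0 := by
  simp [perp]

/-- The orthogonal projection along a negative frame. -/
def prj (B : LinearMap.BilinForm ℤ L) {m : ℕ} (e : Fin m → L) : L →ₗ[ℤ] L :=
  LinearMap.id + ∑ k, (B (e k)).smulRight (e k)

theorem prj_apply (B : LinearMap.BilinForm ℤ L) {m : ℕ} (e : Fin m → L) (x : L) :
    prj B e x = x + ∑ k, B (e k) x • e k := by
  simp [prj, LinearMap.sum_apply]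

variable {B : LinearMap.BilinForm ℤ L} {m : ℕ} {e : Fin m → L}

theorem NegFrame.sum (h : NegFrame B e) (c : Fin m → ℤ) (l : Fin m) :
    B (e l) (∑ k, c k • e k) = -c l := by
  rw [map_sum, Finset.sum_eq_single l]
  · simp [h l l]
  · intro k _ hk
    simp [h l k, hk.symm]
  · simp

theorem NegFrame.prj_mem (h : NegFrame B e) (x : L) : prj B e x ∈ perp B e :=
  mem_perp.2 fun l => by rw [prj_apply, map_add, h.sum]; ring

theorem prj_of_mem {x : L} (hx : x ∈ perp B e) : prj B e x = x := by
  simp [prj_apply, mem_perp.1 hx]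

theorem prj_pair (hB : ∀ x y, B x y = B y x) (x : L) {y : L} (hy : y ∈ perp B e) :
    B (prj B e x) y = B x y := by
  rw [prj_apply, map_add, LinearMap.add_apply, map_sum, LinearMap.sum_apply]
  simp [mem_perp.1 hy]

/-- The projection does not decrease squares. -/
theorem NegFrame.prj_pair (h : NegFrame B e) (hB : ∀ x y, B x y = B y x) (x y : L) :
    B (prj B e x) (prj B e y) = B x y + ∑ k, B (e k) x * B (e k) y := by
  rw [Sf.prj_pair hB x (h.prj_mem y), prj_apply, map_add, map_sum]
  simp only [map_smul, smul_eq_mul, hB x (e _), mul_comm]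

/-- The form `B` is unimodular on the submodule `M`. -/
def UniOn (B : LinearMap.BilinForm ℤ L) (M : Submodule ℤ L) : Prop :=
  Function.Bijective (B.restrict M)

theorem NegFrame.uniOn (h : NegFrame B e) (hB : ∀ x y, B x y = B y x)
    (hu : Function.Bijective B) : UniOn B (perp B e) := by
  refine ⟨(injective_iff_map_eq_zero _).2 fun x hx => Subtype.ext (hu.1 ?_), fun f => ?_⟩
  · ext y
    have := LinearMap.congr_fun hx ⟨_, h.prj_mem y⟩
    simp only [LinearMap.BilinForm.restrict_apply, LinearMap.domRestrict_apply,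
      LinearMap.zero_apply] at this
    rw [hB, Sf.prj_pair hB y x.2, hB] at this
    simpa using this
  · obtain ⟨x, hx⟩ := hu.2 (f ∘ₗ (prj B e).codRestrict _ h.prj_mem)
    refine ⟨⟨_, h.prj_mem x⟩, LinearMap.ext fun y => ?_⟩
    simp only [LinearMap.BilinForm.restrict_apply, LinearMap.domRestrict_apply]
    rw [Sf.prj_pair hB x y.2, hx]
    exact congrArg f (Subtype.ext (prj_of_mem y.2))

theorem NegFrame.finrank_perp [Module.Finite ℤ L] (h : NegFrame B e) :
    Module.finrank ℤ (perp B e) + m = Module.finrank ℤ L := by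
  let φ : L →ₗ[ℤ] Fin m → ℤ := LinearMap.pi fun k => B (e k)
  have h1 : LinearMap.ker φ = perp B e := by
    ext x
    simp [φ, mem_perp, funext_iff]
  have h2 : LinearMap.range φ = ⊤ := LinearMap.range_eq_top.2 fun c =>
    ⟨∑ k, (-c k) • e k, funext fun l => by
      simp only [φ, LinearMap.pi_apply]
      rw [h.sum, neg_neg]⟩
  have h3 := (LinearMap.ker φ).finrank_quotient_add_finrank
  rw [φ.quotKerEquivRange.finrank_eq, h2, finrank_top, Module.finrank_fin_fun, h1] at h3
  omega

/-- **The unimodular lattice of the minimal model.** -/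
theorem exists_min [Module.Finite ℤ L] {ι : Type*} [Fintype ι] (B : LinearMap.BilinForm ℤ L)
    (hB : ∀ x y, B x y = B y x) (hu : Function.Bijective B) (a : ι → ℕ) (C : ι → L) (K : L)
    (hK : K = ∑ j, (a j : ℤ) • C j) (h1 : ∀ i j, i ≠ j → 0 ≤ B (C i) (C j))
    (h2 : ∀ i, -2 ≤ B (C i) (C i) + B K (C i)) :
    ∃ (m : ℕ) (e : Fin m → L), NegFrame B e ∧ UniOn B (perp B e) ∧ perp B C ≤ perp B e ∧
      Module.finrank ℤ (perp B e) + m = Module.finrank ℤ L ∧
      (Module.finrank ℤ (perp B e) : ℤ) ≤ Module.finrank ℤ L + B K K := by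
  obtain ⟨m, e, f1, f2, f3⟩ := contract B hB a C K hK h1 h2
  have f4 := f1.finrank_perp
  refine ⟨m, e, f1, f1.uniOn hB hu, fun x hx => mem_perp.2 fun k => ?_, f4, by omega⟩
  have : Submodule.span ℤ (Set.range C) ≤ LinearMap.ker (B x) := by
    rw [Submodule.span_le]
    rintro _ ⟨i, rfl⟩
    exact (hB _ _).trans (mem_perp.1 hx i)
  exact (hB _ _).trans (this (f3 k))

end Vale.Agent.P287Q.Sf
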