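import Vale.Agent.P287Q.Lat.Sgn
import Mathlib.LinearAlgebra.Complex.FiniteDimensional

/-! # P287, surfaces: the signature of the intersection form is `(3, q)` -/

namespace Vale.Agent.P287Q.Sf

open Module

theorem sig_val {W κ : Type*} [AddCommGroup W] [Module ℂ W] [Fintype κ]
    (β : LinearMap.BilinForm ℂ W) (u : κ → W) (hu : ∀ i j, i ≠ j → β (u i) (u j) = 0)
    (c d : κ → ℂ) :
    β (∑ i, c i • u i) (∑ i, d i • u i) = ∑ i, c i * d i * β (u i) (u i) := by
  simp only [map_sum, map_smul, LinearMap.sum_apply, LinearMap.smul_apply, smul_eq_mul]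
  refine Finset.sum_congr rfl fun i _ => ?_
  rw [Finset.sum_eq_single i]
  · ring
  · intro j _ hj
    rw [hu j i hj, mul_zero]
  · intro h
    exact absurd (Finset.mem_univ i) h

theorem sig_ne {L : Type*} [AddCommGroup L] (B : LinearMap.BilinForm ℤ L)
    (hu : Function.Injective B) {n : ℕ} {v : Fin n → L} (h1 : ∀ i j, i ≠ j → B (v i) (v j) = 0)
    (h2 : LinearIndependent ℤ v)
    (h3 : ∀ x : L, ∃ k : ℤ, k ≠ 0 ∧ k • x ∈ Submodule.span ℤ (Set.range v)) (i : Fin n) :
    B (v i) (v i) ≠ 0 := by
  intro h0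
  refine h2.ne_zero i (hu ?_)
  rw [map_zero]
  refine LinearMap.ext fun x => ?_
  obtain ⟨k, hk, hx⟩ := h3 x
  obtain ⟨c, hc⟩ := (Submodule.mem_span_range_iff_exists_fun ℤ).1 hx
  have h4 : B (v i) (k • x) = 0 := by
    rw [← hc, map_sum]
    refine Finset.sum_eq_zero fun j _ => ?_
    rw [map_smul]
    by_cases hij : i = j
    · rw [← hij, h0, smul_zero]
    · rw [h1 i j hij, smul_zero]
  rw [map_smul, smul_eq_mul] at h4
  exact (mul_eq_zero.1 h4).resolve_left hk

theorem sig3 {L W : Type*} [AddCommGroup L] [Module.Free ℤ L] [Module.Finite ℤ L]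
    [AddCommGroup W] [Module ℂ W] (B : LinearMap.BilinForm ℤ L) (hB : ∀ x y, B x y = B y x)
    (hu : Function.Injective B) (beta : LinearMap.BilinForm ℂ W) (sig : W →+ W)
    (hs : ∀ (c : ℂ) x, sig (c • x) = (starRingEnd ℂ) c • sig x) (io : L →+ W)
    (hi : ∀ x y, beta (io x) (io y) = (B x y : ℂ)) (hsi : ∀ x, sig (io x) = io x) (w : W)
    (hw : w ∈ Submodule.span ℂ (Set.range io)) (h : L) (hh : 0 < B h h)
    (hwh : beta w (io h) = 0) (hww : beta w w = 0) (hp : 0 < (beta w (sig w)).re)
    (hn : ∀ x ∈ Submodule.span ℂ (Set.range io), sig x = x → beta w x = 0 →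
      beta (io h) x = 0 → (beta x x).re ≤ 0) : ∃ q, Lat.Sig B 3 q := by
  classical
  obtain ⟨v, hv1, hv2, hv3⟩ := Lat.Sgn_diag _ L B hB rfl
  have hne := sig_ne B hu hv1 hv2 hv3
  have hu' : ∀ i j, i ≠ j → beta (io (v i)) (io (v j)) = 0 := fun i j hij => by
    rw [hi, hv1 i j hij, Int.cast_zero]
  have hco : ∀ x ∈ Submodule.span ℂ (Set.range io), ∃ c : Fin (finrank ℤ L) → ℂ,
      ∑ i, c i • io (v i) = x := fun x hx =>
    (Submodule.mem_span_range_iff_exists_fun ℂ).1 (Lat.Sgn_span io v hv3 hx)
  have hsc : ∀ c : Fin (finrank ℤ L) → ℂ, sig (∑ i, c i • io (v i)) =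
      ∑ i, (starRingEnd ℂ) (c i) • io (v i) := fun c => by
    simp only [map_sum, hs, hsi]
  have hval : ∀ c d : Fin (finrank ℤ L) → ℂ, beta (∑ i, c i • io (v i)) (∑ i, d i • io (v i)) =
      ∑ i, c i * d i * (B (v i) (v i) : ℂ) := fun c d => by
    rw [sig_val beta _ hu']
    simp only [hi]
  set s := Finset.univ.filter fun i => 0 < B (v i) (v i) with hsdef
  set t := Finset.univ.filter fun i => B (v i) (v i) < 0 with htdef
  have hst : finrank ℤ L ≤ s.card + t.card := by
    refine le_trans ?_ (Finset.card_union_le s t)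
    refine (Fintype.card_fin _).ge.trans (Finset.card_le_card fun i _ => ?_)
    rw [Finset.mem_union, hsdef, htdef, Finset.mem_filter, Finset.mem_filter]
    rcases lt_or_gt_of_ne (hne i) with h1 | h1
    · exact Or.inr ⟨Finset.mem_univ i, h1⟩
    · exact Or.inl ⟨Finset.mem_univ i, h1⟩
  have hle : s.card ≤ 3 := by
    by_contra hlt
    have hdep : ¬ LinearIndependent ℝ fun i : s =>
        ((beta w (io (v i)), (B h (v i) : ℝ)) : ℂ × ℝ) := by
      intro hli
      have h1 := hli.fintype_card_le_finrank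
      rw [Fintype.card_coe, finrank_prod, Complex.finrank_real_complex, finrank_self] at h1
      exact hlt h1
    obtain ⟨g, hg, i0, hi0⟩ := Fintype.not_linearIndependent_iff.1 hdep
    have g1 : ∑ i : s, (g i : ℂ) * beta w (io (v i)) = 0 := by
      have h1 := congrArg Prod.fst hg
      simpa only [Prod.fst_sum, Prod.smul_fst, Complex.real_smul, Prod.fst_zero] using h1
    have g2 : ∑ i : s, g i * (B h (v i) : ℝ) = 0 := by
      have h1 := congrArg Prod.snd hg
      simpa only [Prod.snd_sum, Prod.smul_snd, smul_eq_mul, Prod.snd_zero] using h1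
    have h1 := hn (∑ i : s, (g i : ℂ) • io (v i))
      (Submodule.sum_mem _ fun i _ => Submodule.smul_mem _ _ (Submodule.subset_span ⟨_, rfl⟩))
      (by simp only [map_sum, hs, hsi, Complex.conj_ofReal])
      (by simpa only [map_sum, map_smul, smul_eq_mul] using g1)
      (by
        simp only [map_sum, map_smul, smul_eq_mul, hi]
        exact_mod_cast g2)
    rw [sig_val beta _ fun i j hij => hu' _ _ fun e => hij (Subtype.ext e)] at h1
    have h2 : ∀ i : s, ((g i : ℂ) * g i * beta (io (v i)) (io (v i))).re =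
        g i * g i * (B (v i) (v i) : ℝ) := fun i => by
      rw [hi, ← Complex.ofReal_intCast, ← Complex.ofReal_mul, ← Complex.ofReal_mul,
        Complex.ofReal_re]
    have h3 : ∀ i : s, (0 : ℝ) < (B (v i) (v i) : ℝ) := fun i => by
      exact_mod_cast (Finset.mem_filter.1 i.2).2
    rw [Complex.re_sum, Finset.sum_congr rfl fun i _ => h2 i] at h1
    exact absurd h1 (not_le.2 (Finset.sum_pos'
      (fun i _ => mul_nonneg (mul_self_nonneg _) (h3 i).le)
      ⟨i0, Finset.mem_univ _, mul_pos (mul_self_pos.2 hi0) (h3 i0)⟩))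
  have hge : 3 ≤ s.card := by
    by_contra hlt
    obtain ⟨a, ha⟩ := hco w hw
    obtain ⟨c, hc⟩ := hco (io h) (Submodule.subset_span ⟨h, rfl⟩)
    have ha' : ∑ i, (starRingEnd ℂ) (a i) • io (v i) = sig w := by rw [← hsc, ha]
    have hc' : ∑ i, (starRingEnd ℂ) (c i) • io (v i) = io h := by rw [← hsc, hc, hsi]
    have hss : sig (sig w) = w := by
      rw [← ha', hsc]
      simpa only [Complex.conj_conj] using ha
    have hsym : ∀ c d : Fin (finrank ℤ L) → ℂ, beta (∑ i, c i • io (v i)) (∑ i, d i • io (v i)) =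
        beta (∑ i, d i • io (v i)) (∑ i, c i • io (v i)) := fun c d => by
      rw [hval, hval]
      exact Finset.sum_congr rfl fun i _ => by rw [mul_comm (c i)]
    have hcj : ∀ c d : Fin (finrank ℤ L) → ℂ,
        beta (sig (∑ i, c i • io (v i))) (sig (∑ i, d i • io (v i))) =
          (starRingEnd ℂ) (beta (∑ i, c i • io (v i)) (∑ i, d i • io (v i))) := fun c d => by
      rw [hsc, hsc, hval, hval]
      simp only [map_sum, map_mul, map_intCast]
    have e1 : beta (sig w) (sig w) = 0 := by
      have h1 := hcj a a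
      rwa [ha, hww, map_zero] at h1
    have e2 : beta (sig w) (io h) = 0 := by
      have h1 := hcj a c
      rwa [ha, hc, hwh, map_zero, hsi] at h1
    have e3 : beta (io h) w = 0 := by
      have h1 := hsym c a
      rwa [ha, hc, hwh] at h1
    have e4 : beta (io h) (sig w) = 0 := by
      have h1 := hsym c fun i => (starRingEnd ℂ) (a i)
      rwa [ha', hc, e2] at h1
    have e5 : beta (sig w) w = beta w (sig w) := by
      have h1 := hsym (fun i => (starRingEnd ℂ) (a i)) a
      rwa [ha', ha] at h1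
    have hdep : ¬ LinearIndependent ℂ (![fun i => a i, fun i => (starRingEnd ℂ) (a i),
        fun i => c i] : Fin 3 → s → ℂ) := by
      intro hli
      have h1 := hli.fintype_card_le_finrank
      rw [Fintype.card_fin, finrank_fintype_fun_eq_card, Fintype.card_coe] at h1
      exact hlt h1
    obtain ⟨g, hg, i0, hi0⟩ := Fintype.not_linearIndependent_iff.1 hdep
    have g1 : ∀ i ∈ s, g 0 * a i + g 1 * (starRingEnd ℂ) (a i) + g 2 * c i = 0 := fun i hi' => by
      have h1 := congrFun hg ⟨i, hi'⟩
      simpa [Fin.sum_univ_three] using h1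
    have hx : ∑ i, (g 0 * a i + g 1 * (starRingEnd ℂ) (a i) + g 2 * c i) • io (v i) =
        g 0 • w + g 1 • sig w + g 2 • io h := by
      rw [← ha', ← hc]
      conv_rhs => rw [← ha]
      simp only [add_smul, mul_smul, Finset.sum_add_distrib, Finset.smul_sum]
    have h1 : (beta (g 0 • w + g 1 • sig w + g 2 • io h)
        (sig (g 0 • w + g 1 • sig w + g 2 • io h))).re ≤ 0 := by
      rw [← hx, hsc, hval, Complex.re_sum]
      refine Finset.sum_nonpos fun i _ => ?_
      by_cases hi' : i ∈ s
      · rw [g1 i hi', zero_mul, zero_mul, Complex.zero_re]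
      · rw [Complex.mul_conj, ← Complex.ofReal_intCast, ← Complex.ofReal_mul, Complex.ofReal_re]
        refine mul_nonpos_of_nonneg_of_nonpos (Complex.normSq_nonneg _) ?_
        have h2 : B (v i) (v i) ≤ 0 :=
          not_lt.1 fun h3 => hi' (Finset.mem_filter.2 ⟨Finset.mem_univ i, h3⟩)
        exact_mod_cast h2
    have h2 : beta (g 0 • w + g 1 • sig w + g 2 • io h)
        (sig (g 0 • w + g 1 • sig w + g 2 • io h)) =
        ((Complex.normSq (g 0) + Complex.normSq (g 1) : ℝ) : ℂ) * beta w (sig w) +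
          ((Complex.normSq (g 2) * (B h h : ℝ) : ℝ) : ℂ) := by
      simp only [map_add, hs, hss, hsi, map_smul, LinearMap.add_apply, LinearMap.smul_apply,
        smul_eq_mul, e1, e2, e3, e4, e5, hww, hwh, hi, Complex.ofReal_add, Complex.ofReal_mul,
        Complex.ofReal_intCast, ← Complex.mul_conj]
      ring
    rw [h2, Complex.add_re, Complex.re_ofReal_mul, Complex.ofReal_re] at h1
    have hh' : (0 : ℝ) < (B h h : ℝ) := by exact_mod_cast hh
    have n0 := Complex.normSq_nonneg (g 0)
    have n1 := Complex.normSq_nonneg (g 1)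
    have n2 := Complex.normSq_nonneg (g 2)
    have m1 := mul_nonneg (add_nonneg n0 n1) hp.le
    have m2 := mul_nonneg n2 hh'.le
    have z1 : Complex.normSq (g 0) + Complex.normSq (g 1) = 0 :=
      (mul_eq_zero.1 (le_antisymm (by linarith) m1)).resolve_right hp.ne'
    have z2 : Complex.normSq (g 2) = 0 :=
      (mul_eq_zero.1 (le_antisymm (by linarith) m2)).resolve_right hh'.ne'
    have z3 : ∀ i, Complex.normSq (g i) = 0 := fun i => by
      fin_cases i
      · exact le_antisymm (by change Complex.normSq (g 0) ≤ 0; linarith) n0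
      · exact le_antisymm (by change Complex.normSq (g 1) ≤ 0; linarith) n1
      · exact z2
    exact hi0 (Complex.normSq_eq_zero.1 (z3 i0))
  exact ⟨t.card, Lat.Sgn_of_le B rfl v hv1 hv2 hge le_rfl (by omega)⟩

end Vale.Agent.P287Q.Sf
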