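import Vale.Agent.P287Q.Sf.Defs
import Vale.Agent.P287Q.Sf.Num
import Vale.Agent.P287Q.Sf.Sig
import Vale.Agent.P267.H469.Del2

/-!
# P287, surfaces: the unimodular lattice of signature `(3, n)` (assembly)
-/

set_option linter.unusedSectionVars false

namespace Vale.Agent.P287Q.Sf

open Set hiding pair_comm
open Function Topology Filter P291Z P267.FL P267.BlockC P267.RR Module
open P287Q.Zc (Lk)
open P287Q.Mf (IsHg)
open scoped ContDiff Manifold ComplexConjugate

section bar

variable {X : Type} [TopologicalSpace X] [ChartedSpace C2 X]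

theorem bar_add (F G : TwoF X) : (F + G).bar = F.bar + G.bar := by
  refine TwoF.ext ?_ ?_ ?_ <;> funext x
  · simp [TwoF.bar]
  · ext i j; simp [TwoF.bar, add_comm]
  · simp [TwoF.bar]

theorem bar_smul (t : ℂ) (F : TwoF X) : (t • F).bar = conj t • F.bar := by
  refine TwoF.ext ?_ ?_ ?_ <;> funext x
  · simp [TwoF.bar]
  · ext i j; simp [TwoF.bar]
  · simp [TwoF.bar]

theorem bar_sub (F G : TwoF X) : (F - G).bar = F.bar - G.bar := by
  rw [sub_eq_add_neg, ← neg_one_smul ℂ G, bar_add, bar_smul]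
  simp [sub_eq_add_neg]

theorem bar_sum {ι : Type*} (s : Finset ι) (F : ι → TwoF X) :
    (∑ i ∈ s, F i).bar = ∑ i ∈ s, (F i).bar := by
  classical
  induction s using Finset.induction_on with
  | empty => simpa using bar_smul 0 (0 : TwoF X)
  | insert a s ha ih => rw [Finset.sum_insert ha, Finset.sum_insert ha, bar_add, ih]

theorem exact_bar [IsManifold 𝓘(ℂ, C2) ω X] {F : TwoF X} (h : ExactTwo F) : ExactTwo F.bar := by
  obtain ⟨A, hA, rfl⟩ := h
  refine ⟨A.bar, ⟨P267.H469.r1cj hA.s01, P267.H469.r10cj hA.s10⟩,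
    TwoF.ext (P267.H469.del10_cj _) ?_ (P267.H469.dbar1_cj _)⟩
  change del1 (P267.H469.cj1 A.f10) + dbar10 (P267.H469.cj1 A.f01) = _
  rw [P267.H469.del1_cj, P267.H469.dbar10_cj]
  funext x
  ext i j
  simp [P267.H469.cj11, TwoF.bar, OneF.d]

theorem pair_zero_left (G : TwoF X) [IsManifold 𝓘(ℂ, C2) ω X] [T2Space X] : pair 0 G = 0 := by
  have : (0 : TwoF X).wedge G = fun _ => 0 := by
    funext x
    simp [TwoF.wedge]
  rw [pair, this, P267.H533.intX_zero]

theorem Ty20.pair {F G : TwoF X} [IsManifold 𝓘(ℂ, C2) ω X] [T2Space X] (hF : Ty20 F)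
    (hG : Ty20 G) : pair F G = 0 := by
  have : F.wedge G = fun _ => 0 := by
    funext x
    simp [TwoF.wedge, hF.1, hF.2, hG.1, hG.2]
  rw [P267.BlockC.pair, this, P267.H533.intX_zero]

theorem pair_ch1 (H : FormFacts X) (L L' : ALB X) : pair (ch1 L) (ch1 L') = isec L.L L'.L := by
  rw [ch1, ch1, H.pair_smul _ _ _ (H.curv_smooth L) (H.smooth_smul _ _ (H.curv_smooth L')), pair_comm,
    H.pair_smul _ _ _ (H.curv_smooth L') (H.curv_smooth L), pair_comm, isec_eq, ← mul_assoc]
  congr 1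
  have : (Real.pi : ℂ) ≠ 0 := by exact_mod_cast Real.pi_ne_zero
  field_simp
  rw [Complex.I_sq]
  norm_num

end bar

section frame

variable {L : Type*} [AddCommGroup L] {B : LinearMap.BilinForm ℤ L} {m : ℕ} {e : Fin m → L}

theorem NegFrame.indep (h : NegFrame B e) : LinearIndependent ℤ e :=
  Fintype.linearIndependent_iff.2 fun c hc l => by
    have := h.sum c l
    rw [hc, map_zero] at this
    omega

theorem NegFrame.sig [Module.Free ℤ L] [Module.Finite ℤ L] (h : NegFrame B e)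
    (hB : ∀ x y, B x y = B y x) {p q : ℕ} (hs : Lat.Sig B p q) :
    ∃ n, Lat.Sig (B.restrict (perp B e)) p n := by
  refine ⟨_, (hs.restrict B hB (perp B e) (Submodule.span ℤ (range e)) ?_ ?_ ?_).2⟩
  · intro x hx y hy
    have : Submodule.span ℤ (range e) ≤ LinearMap.ker (B x) := by
      rw [Submodule.span_le]
      rintro _ ⟨i, rfl⟩
      exact (hB _ _).trans (mem_perp.1 hx i)
    exact this hy
  · intro x hx h0
    have := Lat.Sgn_neg B e (fun i j hij => by rw [h i j, if_neg hij]) Finset.univ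
      (fun i _ => by rw [h i i, if_pos rfl]; omega) x (by simpa using hx) h0
    exact this
  · rw [finrank_span_eq_card h.indep, Fintype.card_fin]
    exact h.finrank_perp

end frame

variable {X : Type} [MetricSpace X] [CompactSpace X] [ChartedSpace C2 X]
  [IsManifold 𝓘(ℂ, C2) ω X]

theorem Api.zero (A : Api X) : Rp (0 : TwoF X) 0 := by
  obtain ⟨F, hF⟩ := A.ex 0 ⟨0, fun _ _ => rfl, map_zero _⟩
  simpa using A.smul 0 F 0 hF

theorem Api.sum (A : Api X) {ι : Type*} (s : Finset ι) (t : ι → ℂ) {F : ι → TwoF X} {c : ι → H X}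
    (h : ∀ i, Rp (F i) (c i)) : Rp (∑ i ∈ s, t i • F i) (∑ i ∈ s, t i • c i) := by
  classical
  induction s using Finset.induction_on with
  | empty => simpa using A.zero
  | insert a s ha ih =>
    rw [Finset.sum_insert ha, Finset.sum_insert ha]
    exact A.add _ _ _ _ (A.smul _ _ _ (h a)) ih

theorem Api.sc (A : Api X) {F : TwoF X} (h : ExactTwo F) : SC F :=
  (A.of_exact 0 F 0 A.zero (by rwa [sub_zero])).1

theorem Rp.isDeg {F : TwoF X} {c : H X} (h : Rp F c) : H.IsDeg 2 c := by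
  obtain ⟨-, a, h1, h2, -⟩ := h
  exact ⟨a, h1, h2⟩

/-- An exact form of type `(2, 0)` vanishes. -/
theorem eq_zero_of_exact (H : FormFacts X) (A : Api X) (hP : StPos X) {F : TwoF X} (h : Ty20 F)
    (hF : ExactTwo F) : F = 0 := by
  by_contra h0
  have h1 := hP F h (A.sc hF).1 h0
  have h2 := A.sc (exact_bar hF)
  rw [H.pair_of_exact hF h2.1 h2.2] at h1
  exact lt_irrefl _ h1

theorem main_of (H : FormFacts X) (A : Api X) (hCls : StCls X) (hC1 : StC1 X) (hPair : StPair X)
    (hH : HApi X) (hPos : StPos X) (hCan : StCan X) (hNoe : StNoe X) (hHI : StHI X) :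
    StMain X := by
  intro I B T w hw0 hw hw1 h hwh hh
  have := T.free
  have := T.fin
  have hI := hPair I T.toIntg
  let b := Module.finBasis ℤ (Lk X 2)
  set r := finrank ℤ (Lk X 2) with hr
  choose F hFr hF using fun i : Fin r => A.real (b i).1 (b i).2
  let cl : (Fin r → ℂ) →ₗ[ℂ] P291Z.H X := Fintype.linearCombination ℂ fun i => (b i).1
  have hcl : ∀ t, Rp (∑ i, t i • F i) (cl t) := fun t => A.sum _ t hF
  let β : LinearMap.BilinForm ℂ (Fin r → ℂ) :=
    ((LinearMap.mul ℂ (P291Z.H X)).compl₁₂ cl cl).compr₂ I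
  have hβ : ∀ s t, β s t = I (cl s * cl t) := fun _ _ => rfl
  let io : Lk X 2 →+ Fin r → ℂ :=
    { toFun := fun x i => (b.repr x i : ℂ)
      map_zero' := by funext i; simp
      map_add' := fun x y => by funext i; simp }
  have hio : ∀ x, cl (io x) = x.1 := fun x => by
    conv_rhs => rw [← b.sum_repr x, Submodule.coe_sum]
    rw [Fintype.linearCombination_apply]
    exact Finset.sum_congr rfl fun i _ => Int.cast_smul_eq_zsmul ℂ (b.repr x i) (b i).1
  have hβio : ∀ x y, β (io x) (io y) = (B x y : ℂ) := fun x y => by rw [hβ, hio, hio, T.pair]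
  have hβs : ∀ s t, β s t = β t s := fun s t => by
    rw [hβ, hβ, hI _ _ _ _ (hcl s) (hcl t), hI _ _ _ _ (hcl t) (hcl s), pair_comm]
  have hB : ∀ x y, B x y = B y x := fun x y => by
    have := hβs (io x) (io y)
    rw [hβio, hβio] at this
    exact_mod_cast this
  have hiob : ∀ i, io (b i) = Pi.single i 1 := fun i => by
    funext j
    simp [io, Pi.single_apply, Finsupp.single_apply, eq_comm]
  have hsp : ∀ t, t ∈ Submodule.span ℂ (range io) := fun t => by
    rw [← Finset.univ_sum_single t]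
    refine Submodule.sum_mem _ fun i _ => ?_
    rw [← mul_one (t i), ← smul_eq_mul, Pi.single_smul', ← hiob]
    exact Submodule.smul_mem _ _ (Submodule.subset_span ⟨_, rfl⟩)
  have hnd : ∀ t, (∀ s, β t s = 0) → t = 0 := fun t ht => by
    funext i
    obtain ⟨x, hx⟩ := T.uni.2 (b.coord i)
    have h1 := ht (io x)
    have h2 : ∀ j, β (Pi.single j 1) (io x) = if j = i then 1 else 0 := fun j => by
      rw [← hiob, hβio, hB, hx]
      simp [Finsupp.single_apply]
    rw [← Finset.univ_sum_single t, map_sum, LinearMap.sum_apply] at h1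
    have h3 : ∀ j, β (Pi.single j (t j)) (io x) = if j = i then t j else 0 := fun j => by
      rw [← mul_one (t j), ← smul_eq_mul, Pi.single_smul', map_smul, LinearMap.smul_apply, h2]
      simp
    simpa [h3] using h1
  obtain ⟨η, hη, hηw⟩ := (hH.hg20 w).1 hw
  obtain ⟨t₀, rfl⟩ : w ∈ LinearMap.range cl := by
    refine (Submodule.span_le.2 fun x hx => ?_ : _ ≤ LinearMap.range cl) (T.span w hηw.isDeg)
    exact ⟨_, hio ⟨x, hx⟩⟩
  have hη0 : η ≠ 0 := fun h0 => hw0 (by
    rw [hnd t₀ fun s => by rw [hβ, hI _ _ _ _ hηw (hcl s), h0, pair_zero_left], map_zero])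
  have hpg : PG η := ⟨⟨hη, hηw.1⟩, hη0, fun G hG => by
    obtain ⟨c, hc⟩ := hCls G hG.2
    obtain ⟨t, rfl⟩ := hw1 c ((hH.hg20 c).2 ⟨G, hG.1, hc⟩)
    refine ⟨t, sub_eq_zero.1 (eq_zero_of_exact H A hPos ⟨?_, ?_⟩
      (A.exact _ _ _ hc (A.smul t _ _ hηw)))⟩
    · simp [hη.1, hG.1.1]
    · simp [hη.2, hG.1.2]⟩
  have hbar : ∀ t : Fin r → ℂ, (∑ i, t i • F i).bar = ∑ i, star t i • F i := fun t => by
    rw [bar_sum]
    exact Finset.sum_congr rfl fun i _ => by
      rw [bar_smul, (TwoF.real_iff_bar _).1 (hFr i)]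
      rfl
  have hreal : ∀ t : Fin r → ℂ, star t = t → (∑ i, t i • F i).Real := fun t ht => by
    rw [TwoF.real_iff_bar, hbar, ht]
  have hsio : ∀ x, star (io x) = io x := fun x => by
    funext i
    simp [io]
  obtain ⟨q, hq⟩ := sig3 B hB T.uni.1 β (starAddEquiv (R := Fin r → ℂ)).toAddMonoidHom
    (fun c x => by funext i; simp) io hβio hsio t₀ (hsp _) h hh (by rw [hβ, hio, hwh])
    (by rw [hβ, hI _ _ _ _ hηw hηw, hη.pair hη])
    (by
      have h1 : Rp η.bar (cl (star t₀)) := A.of_exact _ _ _ (hcl _) (by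
        rw [← hbar, ← bar_sub]
        exact exact_bar (A.exact _ _ _ hηw (hcl t₀)))
      change 0 < (β t₀ (star t₀)).re
      rw [hβ, hI _ _ _ _ hηw h1]
      exact hPos η hη hηw.1.1 hη0)
    (fun x _ hx h1 h2 => by
      rw [hβ, hI _ _ _ _ hηw (hcl x)] at h1
      rw [hβ, hI _ _ _ _ (hcl _) (hcl x)] at h2
      rw [hβ, hI _ _ _ _ (hcl x) (hcl x)]
      refine hHI η hpg _ _ (hcl (io h)).1 (hreal _ (hsio h)) ?_ (hcl x).1 (hreal x hx) h1 ?_ h2
      · rw [← hI _ _ _ _ hηw (hcl _), hio, hwh]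
      · rw [← hI _ _ _ _ (hcl _) (hcl _), ← hβ, hβio]
        exact_mod_cast hh)
  obtain ⟨n, a, D, K, hK, k1, k2, k3, k4⟩ := hCan η hpg.1 hη0
  choose c hc hcR using fun j => hC1 (D j)
  let C : Fin n → Lk X 2 := fun j => ⟨c j, hc j⟩
  have hC : ∀ i j, (B (C i) (C j) : ℂ) = isec (D i).L (D j).L := fun i j => by
    rw [T.pair, hI _ _ _ _ (hcR i) (hcR j), pair_ch1 H]
  have hKC : ∀ i, (B (∑ j, (a j : ℤ) • C j) (C i) : ℂ) = isec K.L (D i).L := fun i => by
    rw [k1, map_sum, LinearMap.sum_apply]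
    simp [hC]
  have hKK : (B (∑ j, (a j : ℤ) • C j) (∑ j, (a j : ℤ) • C j) : ℂ) = isec K.L K.L := by
    rw [k1, map_sum]
    simp only [map_smul, smul_eq_mul, Int.cast_sum, Int.cast_mul, Int.cast_natCast, hKC,
      isec_comm K.L]
  obtain ⟨m, e, f1, f2, f3, -, f5⟩ := exists_min B hB T.uni a C _ rfl
    (fun i j hij => by
      have := k2 i j hij
      rw [← hC] at this
      exact_mod_cast this)
    (fun i => by
      have := k3 i
      rw [← hC, ← hKC] at this
      exact_mod_cast this)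
  have hN := hNoe η hpg r F ⟨fun i => (hF i).1, fun t ht => hnd t fun s => by
    rw [hβ, hI _ _ _ _ (hcl t) (hcl s), H.pair_of_exact ht (hcl s).1.1 (hcl s).1.2]⟩ K hK
  rw [← hKK] at hN
  have hN' : (r : ℤ) + B (∑ j, (a j : ℤ) • C j) (∑ j, (a j : ℤ) • C j) ≤ 22 := by
    exact_mod_cast hN
  obtain ⟨n', hn'⟩ := f1.sig hB hq
  refine ⟨perp B e, n', ?_, f2, hn', fun x hx => f3 (mem_perp.2 fun j => hx _ ?_)⟩
  · have := hn'.1
    omega
  · rw [hI _ _ _ _ hηw (hcR j), ch1, pair_comm,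
      H.pair_smul _ _ _ (H.curv_smooth _) hηw.1.1, pair_comm, k4, mul_zero]

end Vale.Agent.P287Q.Sf
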