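import Vale.Agent.P287Q.Sf.Defs
import Vale.Agent.P267.H283.Canon

/-!
# P287, surfaces: the cup product pairing is the pairing of forms
-/

set_option linter.unusedSectionVars false

namespace Vale.Agent.P287Q.Sf

open Set Function Topology Filter P291Z P267.FL P267.BlockC P267.RR
open P267.H533 (AX TI Part WF ψC)
open scoped ContDiff Manifold

namespace Pair

/-- The cochain vanishes on lists in balls of radius `η`. -/
def Small {X : Type} [MetricSpace X] (η : ℝ) (a : Coch X) : Prop :=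
  ∀ (x : X) (l : List X), (∀ y ∈ l, dist x y < η) → a.1 l = 0

theorem Small.mono {X : Type} [MetricSpace X] {η η' : ℝ} {a : Coch X} (h : Small η a)
    (hη : η' ≤ η) : Small η' a := fun x l hl => h x l fun y hy => (hl y hy).trans_le hη

theorem leb {X : Type} [MetricSpace X] [CompactSpace X] {a : Coch X} (h : supp a = ∅) :
    ∃ η > 0, Small η a := by
  have h1 : ∀ x : X, ∃ U ∈ 𝓝 x, ∀ l : List X, (∀ y ∈ l, y ∈ U) → a.1 l = 0 := by
    intro x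
    by_contra hc
    have hx : x ∈ supp a := fun U hU => by
      by_contra h2
      exact hc ⟨U, hU, fun l hl => by
        by_contra h3
        exact h2 ⟨l, hl, h3⟩⟩
    rw [h] at hx
    exact hx
  choose U hU hU0 using h1
  obtain ⟨η, h0, hη⟩ := lebesgue_number_lemma_of_metric (s := univ) isCompact_univ
    (c := fun x => interior (U x)) (fun _ => isOpen_interior)
    (fun x _ => mem_iUnion.2 ⟨x, mem_interior_iff_mem_nhds.2 (hU x)⟩)
  refine ⟨η, h0, fun x l hl => ?_⟩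
  obtain ⟨z, hz⟩ := hη x (mem_univ x)
  refine hU0 z l fun y hy => interior_subset (hz ?_)
  rw [Metric.mem_ball, dist_comm]
  exact hl y hy

section vals

variable {X : Type}

theorem δ_val4 (b : Coch X) (x₀ x₁ x₂ x₃ : X) : (δ b).1 [x₀, x₁, x₂, x₃] =
    b.1 [x₁, x₂, x₃] - b.1 [x₀, x₂, x₃] + b.1 [x₀, x₁, x₃] - b.1 [x₀, x₁, x₂] := by
  change cob b.1 _ = _
  simp only [cob, List.length_cons, List.length_nil, Finset.sum_range_succ, Finset.range_zero,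
    Finset.sum_empty, List.eraseIdx]
  ring

theorem δ_val5 (b : Coch X) (x₀ x₁ x₂ x₃ x₄ : X) : (δ b).1 [x₀, x₁, x₂, x₃, x₄] =
    b.1 [x₁, x₂, x₃, x₄] - b.1 [x₀, x₂, x₃, x₄] + b.1 [x₀, x₁, x₃, x₄] - b.1 [x₀, x₁, x₂, x₄] +
      b.1 [x₀, x₁, x₂, x₃] := by
  change cob b.1 _ = _
  simp only [cob, List.length_cons, List.length_nil, Finset.sum_range_succ, Finset.range_zero,
    Finset.sum_empty, List.eraseIdx]
  ring

theorem mul_val5 {a b : Coch X} (ha : IsDeg 2 a) (x₀ x₁ x₂ x₃ x₄ : X) :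
    (a * b).1 [x₀, x₁, x₂, x₃, x₄] = a.1 [x₀, x₁, x₂] * b.1 [x₂, x₃, x₄] := by
  change cup a.1 b.1 _ = _
  have h1 : a.1 [x₀] = 0 := ha _ (by simp)
  have h2 : a.1 [x₀, x₁] = 0 := ha _ (by simp)
  have h4 : a.1 [x₀, x₁, x₂, x₃] = 0 := ha _ (by simp)
  have h5 : a.1 [x₀, x₁, x₂, x₃, x₄] = 0 := ha _ (by simp)
  simp only [cup, List.length_cons, List.length_nil, Finset.sum_range_succ, Finset.range_zero,
    Finset.sum_empty, List.take, List.drop, h1, h2, h4, h5]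
  ring

end vals

variable {X : Type} [MetricSpace X] [ChartedSpace C2 X] [IsManifold 𝓘(ℂ, C2) ω X]
  {ι : Type} [Fintype ι] {P : Part (AX X) ι}

/-- The complex valued five-slot integral. -/
noncomputable def JC (f a b c d : AX X) : ℂ := (((TI X).J f a b c d : ℝ) : ℂ)

theorem JC_sum0 (f : AX X) (a b c d : AX X) : ∑ i, JC (f * P.ψ i) a b c d = JC f a b c d := by
  simp only [JC]
  rw [← Complex.ofReal_sum, ← (TI X).J_sum0, ← Finset.mul_sum, P.sum_one, mul_one]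

theorem JC_sum0' (a b c d : AX X) : ∑ i, JC (P.ψ i) a b c d = 0 := by
  simp only [JC]
  rw [← Complex.ofReal_sum, ← (TI X).J_sum0, P.sum_one, (TI X).J_stokes, Complex.ofReal_zero]

theorem JC_sum1 (f b c d : AX X) : ∑ i, JC f (P.ψ i) b c d = 0 := by
  simp only [JC]
  rw [← Complex.ofReal_sum, ← (TI X).J_sum1, P.sum_one, (TI X).J_one1, Complex.ofReal_zero]

theorem JC_sum2 (f a c d : AX X) : ∑ i, JC f a (P.ψ i) c d = 0 := by
  simp only [JC]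
  rw [← Complex.ofReal_sum, ← (TI X).J_sum2, P.sum_one, (TI X).J_one2, Complex.ofReal_zero]

theorem JC_sum3 (f a b d : AX X) : ∑ i, JC f a b (P.ψ i) d = 0 := by
  simp only [JC]
  rw [← Complex.ofReal_sum, ← (TI X).J_sum3, P.sum_one, (TI X).J_one3, Complex.ofReal_zero]

theorem JC_sum4 (f a b c : AX X) : ∑ i, JC f a b c (P.ψ i) = 0 := by
  simp only [JC]
  rw [← Complex.ofReal_sum, ← (TI X).J_sum4, P.sum_one, (TI X).J_one4, Complex.ofReal_zero]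

theorem JC_near {η : ℝ} (hP : P.Fine η) (f : AX X) (a1 a2 a3 a4 : ι)
    (h : JC f (P.ψ a1) (P.ψ a2) (P.ψ a3) (P.ψ a4) ≠ 0) :
    ∃ x, x ∈ tsupport (f : X → ℝ) ∧ dist x (P.v a1) < η ∧ dist x (P.v a2) < η ∧
      dist x (P.v a3) < η ∧ dist x (P.v a4) < η :=
  P267.H533.exists_near (TI X) hP f a1 a2 a3 a4 fun h0 => h (by rw [JC, h0, Complex.ofReal_zero])

theorem lamC_eq (a : Coch X) : lamC P a = ∑ i, ∑ j, ∑ k, ∑ l, ∑ m,
    a.1 [P.v i, P.v j, P.v k, P.v l, P.v m] * JC (P.ψ i) (P.ψ j) (P.ψ k) (P.ψ l) (P.ψ m) := rfl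

theorem lamC_sub (a b : Coch X) : lamC P (a - b) = lamC P a - lamC P b := by
  simp only [lamC_eq, ← Finset.sum_sub_distrib, ← sub_mul]
  rfl

theorem lamC_smul (t : ℂ) (a : Coch X) : lamC P (t • a) = t * lamC P a := by
  simp only [lamC_eq, Finset.mul_sum, ← mul_assoc]
  rfl

theorem lamC_small {η : ℝ} (hP : P.Fine η) {a : Coch X} (ha : Small η a) : lamC P a = 0 := by
  rw [lamC_eq]
  refine Finset.sum_eq_zero fun a0 _ => Finset.sum_eq_zero fun a1 _ =>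
    Finset.sum_eq_zero fun a2 _ => Finset.sum_eq_zero fun a3 _ => Finset.sum_eq_zero fun a4 _ => ?_
  by_cases hJ : JC (P.ψ a0) (P.ψ a1) (P.ψ a2) (P.ψ a3) (P.ψ a4) = 0
  · rw [hJ, mul_zero]
  · obtain ⟨x, h0, h1, h2, h3, h4⟩ := JC_near hP _ _ _ _ _ hJ
    have h0 := hP _ _ h0
    rw [ha x, zero_mul]
    intro y hy
    simp only [List.mem_cons, List.not_mem_nil, or_false] at hy
    rcases hy with rfl | rfl | rfl | rfl | rfl <;> assumption

theorem sum4_last (Φ : ι → ι → ι → ι → ℂ) :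
    ∑ a0, ∑ a1, ∑ a2, ∑ a3, Φ a0 a1 a2 a3 = ∑ a1, ∑ a2, ∑ a3, ∑ a0, Φ a0 a1 a2 a3 := by
  rw [Finset.sum_comm]
  refine Finset.sum_congr rfl fun a1 _ => ?_
  rw [Finset.sum_comm]
  refine Finset.sum_congr rfl fun a2 _ => ?_
  rw [Finset.sum_comm]

theorem lamC_δ (b : Coch X) : lamC P (δ b) = 0 := by
  rw [lamC_eq]
  simp only [δ_val5, add_mul, sub_mul, Finset.sum_add_distrib, Finset.sum_sub_distrib]
  have h0 : ∑ a0, ∑ a1, ∑ a2, ∑ a3, ∑ a4, b.1 [P.v a1, P.v a2, P.v a3, P.v a4] *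
      JC (P.ψ a0) (P.ψ a1) (P.ψ a2) (P.ψ a3) (P.ψ a4) = 0 := by
    rw [Finset.sum_comm]
    refine Finset.sum_eq_zero fun a1 _ => ?_
    rw [sum4_last]
    simp only [← Finset.mul_sum, JC_sum0', mul_zero, Finset.sum_const_zero]
  have h1 : ∑ a0, ∑ a1, ∑ a2, ∑ a3, ∑ a4, b.1 [P.v a0, P.v a2, P.v a3, P.v a4] *
      JC (P.ψ a0) (P.ψ a1) (P.ψ a2) (P.ψ a3) (P.ψ a4) = 0 := by
    refine Finset.sum_eq_zero fun a0 _ => ?_
    rw [sum4_last]
    simp only [← Finset.mul_sum, JC_sum1, mul_zero, Finset.sum_const_zero]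
  have h2 : ∑ a0, ∑ a1, ∑ a2, ∑ a3, ∑ a4, b.1 [P.v a0, P.v a1, P.v a3, P.v a4] *
      JC (P.ψ a0) (P.ψ a1) (P.ψ a2) (P.ψ a3) (P.ψ a4) = 0 := by
    refine Finset.sum_eq_zero fun a0 _ => Finset.sum_eq_zero fun a1 _ => ?_
    rw [Finset.sum_comm]
    refine Finset.sum_eq_zero fun a3 _ => ?_
    rw [Finset.sum_comm]
    simp only [← Finset.mul_sum, JC_sum2, mul_zero, Finset.sum_const_zero]
  have h3 : ∑ a0, ∑ a1, ∑ a2, ∑ a3, ∑ a4, b.1 [P.v a0, P.v a1, P.v a2, P.v a4] *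
      JC (P.ψ a0) (P.ψ a1) (P.ψ a2) (P.ψ a3) (P.ψ a4) = 0 := by
    refine Finset.sum_eq_zero fun a0 _ => Finset.sum_eq_zero fun a1 _ =>
      Finset.sum_eq_zero fun a2 _ => ?_
    rw [Finset.sum_comm]
    simp only [← Finset.mul_sum, JC_sum3, mul_zero, Finset.sum_const_zero]
  have h4 : ∑ a0, ∑ a1, ∑ a2, ∑ a3, ∑ a4, b.1 [P.v a0, P.v a1, P.v a2, P.v a3] *
      JC (P.ψ a0) (P.ψ a1) (P.ψ a2) (P.ψ a3) (P.ψ a4) = 0 := by
    simp only [← Finset.mul_sum, JC_sum4, mul_zero, Finset.sum_const_zero]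
  rw [h0, h1, h2, h3, h4]
  ring

/-- The pairing of two Whitney forms as a finite sum. -/
theorem pair_WF (r r' : ι → ι → ι → ℂ) : pair (WF (ψC P) r) (WF (ψC P) r') =
    ∑ a, ∑ b, ∑ c, r a b c * ∑ a', ∑ b', ∑ c', r' a' b' c' *
      JC (P.ψ a * P.ψ a') (P.ψ b) (P.ψ c) (P.ψ b') (P.ψ c') := by
  have hW : ∀ b c b' c', P267.H533.detW ![ψC P b, ψC P c, ψC P b', ψC P c'] =
      P267.H533.WA ![P.ψ b, P.ψ c, P.ψ b', P.ψ c'] := by
    intro b c b' c'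
    rw [P267.H533.WA_eq]
    congr 1
    funext k
    fin_cases k <;> rfl
  let T : ι × ι × ι × ι × ι × ι → X → ℂ := fun q x =>
    (r q.1 q.2.1 q.2.2.1 * r' q.2.2.2.1 q.2.2.2.2.1 q.2.2.2.2.2) *
      ((((P.ψ q.1 * P.ψ q.2.2.2.1 : AX X) : X → ℝ) x : ℂ) *
        P267.H533.WA ![P.ψ q.2.1, P.ψ q.2.2.1, P.ψ q.2.2.2.2.1, P.ψ q.2.2.2.2.2] x)
  have h1 : (WF (ψC P) r).wedge (WF (ψC P) r') = fun x => ∑ q, T q x := by
    funext x
    rw [P267.H533.WF_wedge]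
    simp only [Fintype.sum_prod_type, T]
    refine Finset.sum_congr rfl fun a _ => Finset.sum_congr rfl fun b _ =>
      Finset.sum_congr rfl fun c _ => Finset.sum_congr rfl fun a' _ =>
      Finset.sum_congr rfl fun b' _ => Finset.sum_congr rfl fun c' _ => ?_
    have h2 : (((P.ψ a * P.ψ a' : AX X) : X → ℝ) x : ℂ) = ψC P a x * ψC P a' x := by
      change (((P.ψ a : X → ℝ) x * (P.ψ a' : X → ℝ) x : ℝ) : ℂ) = _
      rw [Complex.ofReal_mul]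
      rfl
    rw [h2, hW]
    ring
  have h3 : ∀ q, intX (T q) = (r q.1 q.2.1 q.2.2.1 * r' q.2.2.2.1 q.2.2.2.2.1 q.2.2.2.2.2) *
      JC (P.ψ q.1 * P.ψ q.2.2.2.1) (P.ψ q.2.1) (P.ψ q.2.2.1) (P.ψ q.2.2.2.2.1)
        (P.ψ q.2.2.2.2.2) := by
    intro q
    simp only [T]
    rw [P267.H533.intX_const_mul (P267.H533.locInt_WA _ _) (P267.H533.cpt_fWA _ _),
      ← P267.H533.TI_I]
    rfl
  rw [pair, h1, P267.H533.intX_sum _ (b := T) (fun q _ => (P267.H533.locInt_WA _ _).const_mul _)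
    fun q _ => (P267.H533.cpt_fWA _ _).mul_left (f := fun _ => _)]
  simp only [h3, Fintype.sum_prod_type, Finset.mul_sum, mul_assoc]

theorem inner_sum {η : ℝ} (hP : P.Fine η) {g : Coch X} (hg : Small η (δ g)) (a0 a1 a2 : ι) :
    ∑ b0, ∑ b1, ∑ b2, g.1 [P.v b0, P.v b1, P.v b2] *
        JC (P.ψ a0 * P.ψ b0) (P.ψ a1) (P.ψ a2) (P.ψ b1) (P.ψ b2) =
      ∑ b1, ∑ b2, g.1 [P.v a2, P.v b1, P.v b2] *
        JC (P.ψ a0) (P.ψ a1) (P.ψ a2) (P.ψ b1) (P.ψ b2) := by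
  have hterm : ∀ b0 b1 b2 : ι, g.1 [P.v b0, P.v b1, P.v b2] *
        JC (P.ψ a0 * P.ψ b0) (P.ψ a1) (P.ψ a2) (P.ψ b1) (P.ψ b2) =
      (g.1 [P.v a2, P.v b1, P.v b2] - g.1 [P.v a2, P.v b0, P.v b2] +
        g.1 [P.v a2, P.v b0, P.v b1]) *
        JC (P.ψ a0 * P.ψ b0) (P.ψ a1) (P.ψ a2) (P.ψ b1) (P.ψ b2) := by
    intro b0 b1 b2
    by_cases hJ : JC (P.ψ a0 * P.ψ b0) (P.ψ a1) (P.ψ a2) (P.ψ b1) (P.ψ b2) = 0
    · rw [hJ, mul_zero, mul_zero]
    · obtain ⟨x, h0, h1, h2, h3, h4⟩ := JC_near hP _ _ _ _ _ hJ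
      have hb0 : x ∈ tsupport (P.ψ b0 : X → ℝ) := by
        have : ((P.ψ a0 * P.ψ b0 : AX X) : X → ℝ) = (P.ψ a0 : X → ℝ) * (P.ψ b0 : X → ℝ) := rfl
        rw [this] at h0
        exact tsupport_mul_subset_right h0
      have hb0 := hP _ _ hb0
      have h5 := hg x [P.v a2, P.v b0, P.v b1, P.v b2] (by
        intro y hy
        simp only [List.mem_cons, List.not_mem_nil, or_false] at hy
        rcases hy with rfl | rfl | rfl | rfl <;> assumption)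
      rw [δ_val4] at h5
      congr 1
      linear_combination h5
  simp only [hterm]
  simp only [add_mul, sub_mul, Finset.sum_add_distrib, Finset.sum_sub_distrib]
  have e1 : ∑ b0, ∑ b1, ∑ b2, g.1 [P.v a2, P.v b1, P.v b2] *
      JC (P.ψ a0 * P.ψ b0) (P.ψ a1) (P.ψ a2) (P.ψ b1) (P.ψ b2) =
      ∑ b1, ∑ b2, g.1 [P.v a2, P.v b1, P.v b2] *
        JC (P.ψ a0) (P.ψ a1) (P.ψ a2) (P.ψ b1) (P.ψ b2) := by
    rw [Finset.sum_comm]
    refine Finset.sum_congr rfl fun b1 _ => ?_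
    rw [Finset.sum_comm]
    refine Finset.sum_congr rfl fun b2 _ => ?_
    rw [← Finset.mul_sum, JC_sum0]
  have e2 : ∑ b0, ∑ b1, ∑ b2, g.1 [P.v a2, P.v b0, P.v b2] *
      JC (P.ψ a0 * P.ψ b0) (P.ψ a1) (P.ψ a2) (P.ψ b1) (P.ψ b2) = 0 := by
    refine Finset.sum_eq_zero fun b0 _ => ?_
    rw [Finset.sum_comm]
    refine Finset.sum_eq_zero fun b2 _ => ?_
    rw [← Finset.mul_sum, JC_sum3, mul_zero]
  have e3 : ∑ b0, ∑ b1, ∑ b2, g.1 [P.v a2, P.v b0, P.v b1] *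
      JC (P.ψ a0 * P.ψ b0) (P.ψ a1) (P.ψ a2) (P.ψ b1) (P.ψ b2) = 0 := by
    refine Finset.sum_eq_zero fun b0 _ => Finset.sum_eq_zero fun b1 _ => ?_
    rw [← Finset.mul_sum, JC_sum4, mul_zero]
  rw [e1, e2, e3]
  ring

/-- The pairing of the Whitney forms is the value of `lamC` on the cup product. -/
theorem pair_WC {η : ℝ} (hP : P.Fine η) {f g : Coch X} (hf : IsDeg 2 f) (hg : Small η (δ g)) :
    pair (WC P f) (WC P g) = lamC P (f * g) := by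
  rw [WC, WC, pair_WF, lamC_eq]
  refine Finset.sum_congr rfl fun a0 _ => Finset.sum_congr rfl fun a1 _ =>
    Finset.sum_congr rfl fun a2 _ => ?_
  rw [inner_sum hP hg]
  simp only [Finset.mul_sum, mul_val5 hf, mul_assoc]

theorem pair_congr (H : FormFacts X) {F F' G G' : TwoF X} (hF : ExactTwo (F' - F))
    (hG : ExactTwo (G' - G)) (h1 : F.Smooth) (h2 : F.Closed) (h3 : G.Smooth)
    (h5 : G'.Closed) : pair F' G' = pair F G := by
  obtain ⟨A, hA, hA'⟩ := hF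
  obtain ⟨B, hB, hB'⟩ := hG
  have e1 : F' = A.d + F := by rw [hA']; abel
  have e2 : G' = B.d + G := by rw [hB']; abel
  have h6 : G'.Smooth := by rw [e2]; exact H.smooth_add _ _ (H.smooth_d B hB) h3
  rw [e1, H.pair_add _ _ _ (H.smooth_d A hA) h1 h6, H.pair_d A _ hA h6 h5, zero_add, e2,
    P267.BlockC.pair_comm, H.pair_add _ _ _ (H.smooth_d B hB) h3 h1, H.pair_d B _ hB h1 h2,
    zero_add, P267.BlockC.pair_comm]

theorem fn_small [CompactSpace X] {a : Coch X} (h : supp a = ∅) :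
    Fn fun _ (P : Part (AX X) _) => ∃ η, P.Fine η ∧ Small η a := by
  obtain ⟨η, h0, h1⟩ := leb h
  exact ⟨η, h0, fun _ P hP => ⟨η, hP, h1⟩⟩

theorem fn_sc (h1 : StW0 X) (a : Zs X) : Fn fun _ (P : Part (AX X) _) => SC (WC P a.1) := by
  obtain ⟨η, h0, h⟩ := h1 a
  exact ⟨η, h0, fun n P hP => (h n P hP).1⟩

end Pair

variable {X : Type} [MetricSpace X] [CompactSpace X] [ChartedSpace C2 X]
  [IsManifold 𝓘(ℂ, C2) ω X]

/-- Integration of a cocycle of degree four is `lamC` for all fine partitions. -/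
theorem intg_lamC (h2 : StPt X) {I : H X →ₗ[ℂ] ℂ} (hI : Intg I) (a : Zs X) (ha : IsDeg 4 a.1) :
    Fn fun _ (P : Part (AX X) _) => lamC P a.1 = I (H.mk a) := by
  obtain ⟨x, ρ, hρ, hd, hs, hl, hfn⟩ := h2
  have h3 : I (hcls ρ) = 1 := hI.pt x ρ hρ hs hl
  have h4 : hcls (a.1 - I (H.mk a) • ρ) = 0 := by
    refine hI.inj _ (hcls_isDeg (ha.sub (hd.smul _))) ?_
    rw [hcls_sub a.2 (cocycle_smul _ hρ), hcls_smul _ hρ, hcls_val, map_sub, map_smul, h3,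
      smul_eq_mul, mul_one, sub_self]
  obtain ⟨b, hb⟩ := (hcls_eq_zero (cocycle_sub a.2 (cocycle_smul _ hρ))).1 h4
  refine ((Pair.fn_small hb).and hfn).mono ?_
  rintro n P ⟨⟨η, hP, hs⟩, h1⟩
  have h5 := Pair.lamC_small hP hs
  rw [Pair.lamC_sub, Pair.lamC_sub, Pair.lamC_δ, Pair.lamC_smul, h1, mul_one, sub_zero] at h5
  exact sub_eq_zero.1 h5

theorem pair_of (h0 : StFine X) (h1 : StW0 X) (h2 : StPt X) : StPair X := by
  rintro I hI F G c c' ⟨hF, a, ha, rfl, hFa⟩ ⟨hG, a', ha', rfl, hGa⟩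
  have hd : IsDeg 4 (a * a').1 := (ha.mul ha').cast (by norm_num)
  obtain ⟨n, P, ⟨⟨⟨e1, e2⟩, e3, e4⟩, η, hP, hs⟩, e5⟩ := Fn.exists h0
    ((((hFa.and hGa).and ((Pair.fn_sc h1 a).and (Pair.fn_sc h1 a'))).and
      (Pair.fn_small a'.2)).and (intg_lamC h2 hI (a * a') hd))
  rw [← map_mul, ← e5, Pair.pair_congr (formFacts (curvThm X)) e1 e2 e3.1 e3.2 e4.1 hG.2,
    Pair.pair_WC hP ha hs]
  rfl

end Vale.Agent.P287Q.Sf
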