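import Vale.Agent.P287Q.Sf.Defs
import Vale.Agent.P287Q.Int.Tau

/-!
# P287, surfaces: the point class has integral one
-/

set_option linter.unusedSectionVars false

namespace Vale.Agent.P287Q.Sf

open Set Function Topology Filter P291Z P267.FL P267.BlockC P267.RR
open P267.H533 (AX TI Part cr posInd trunc stepCochain)
open P287Q.Mf (cch)
open P287Q.Zc (tauC tauC_cyc tauC_supp tauC_cohom)
open scoped ContDiff Manifold

namespace Pt

open Classical in
/-- The restriction of a cochain to the lists in `U`. -/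
noncomputable def trU {X : Type} (U : Set X) (a : Coch X) : Coch X :=
  ⟨fun l => if ∀ y ∈ l, y ∈ U then a.1 l else 0, by
    obtain ⟨h0, N, hN⟩ := a.2
    exact ⟨by simp [h0], N, fun l hl => by simp [hN l hl]⟩⟩

open Classical in
theorem trU_val {X : Type} (U : Set X) (a : Coch X) (l : List X) :
    (trU U a).1 l = if ∀ y ∈ l, y ∈ U then a.1 l else 0 := rfl

theorem trU_in {X : Type} [TopologicalSpace X] {U : Set X} {x : X} (hU : U ∈ 𝓝 x) (a : Coch X) :
    a - trU U a ∈ Van x :=
  notMem_supp.2 ⟨U, hU, fun l hl => by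
    rw [Coch.sub_val, Pi.sub_apply, trU_val, if_pos hl, sub_self]⟩

theorem supp_trU {X : Type} [TopologicalSpace X] (U : Set X) (a : Coch X) :
    supp (trU U a) ⊆ closure U ∩ supp a := fun x hx => by
  refine ⟨by_contra fun h => (notMem_supp.2 ⟨_, isClosed_closure.isOpen_compl.mem_nhds h,
    fun l hl => ?_⟩ : x ∉ supp (trU U a)) hx, by_contra fun h =>
    Van.of_imp (a := a) (b := trU U a) h (fun l hl => by rw [trU_val, hl, ite_self]) hx⟩
  cases l with
  | nil => exact (trU U a).2.1
  | cons y l =>
    rw [trU_val, if_neg fun h' => hl y List.mem_cons_self (subset_closure (h' y List.mem_cons_self))]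

theorem deg_tauC : IsDeg ((2 : ℕ) : ℤ) tauC :=
  ((((isDeg_fn _).δ.pull _).mul ((isDeg_fn _).δ.pull _)).neg).cast (by norm_num)

theorem stp_val (x : ℝ) : stp.1 [x] = 1 - ((posInd id x : ℝ) : ℂ) := by
  change (if x ≤ 0 then (1 : ℂ) else 0) = 1 - (((if 0 < x then 1 else 0 : ℝ)) : ℂ)
  by_cases h : x ≤ 0
  · simp [h, not_lt.2 h]
  · simp [h, not_le.1 h]

theorem tauC_val (x y z : ℂ) : tauC.1 [x, y, z] =
    -(((posInd id y.re - posInd id x.re) * (posInd id (-z.im) - posInd id (-y.im)) : ℝ) : ℂ) := by
  have d1 : IsDeg ((1 : ℕ) : ℤ) (pull Complex.re (δ stp)) :=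
    ((isDeg_fn _).δ.pull _).cast (by norm_num)
  rw [tauC, Coch.neg_val, Pi.neg_apply, mul_val_of_isDeg d1 _ _ (by simp)]
  change -((δ stp).1 [x.re, y.re] * (δ stp).1 [-y.im, -z.im]) = _
  rw [δ_val_pair, δ_val_pair, stp_val, stp_val, stp_val, stp_val]
  push_cast
  ring

/-- The model cocycle. -/
noncomputable def t2 : Coch C2 := pull (fun z => z 0) tauC * pull (fun z => z 1) tauC

theorem t2_eq : t2 = (List.ofFn fun i : Fin 2 => pull (fun z : C2 => z i) tauC).prod := by
  simp [t2, List.ofFn_succ]

theorem t2_deg : IsDeg 4 t2 := ((deg_tauC.pull _).mul (deg_tauC.pull _)).cast (by norm_num)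

theorem t2_cyc : supp (δ t2) = ∅ :=
  cocycle_mul (cocycle_pull (continuous_apply 0) tauC_cyc)
    (cocycle_pull (continuous_apply 1) tauC_cyc)

theorem t2_supp : supp t2 ⊆ {0} := fun z hz => by
  have h0 := tauC_supp (supp_pull (continuous_apply 0) _ (supp_mul _ _ hz).1)
  have h1 := tauC_supp (supp_pull (continuous_apply 1) _ (supp_mul _ _ hz).2)
  funext i
  fin_cases i
  exacts [h0, h1]

theorem t2_co : P269.Orb.LocCo t2 1 := by
  have hc : ∀ i : Fin 2, Continuous fun z : C2 => z i := continuous_apply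
  rw [P269.Orb.locCo_iff_cohom t2_supp, one_smul, t2_eq]
  exact (Fl.cohom_prod (fun i => tauC_cohom.pull (hc i)) (fun i => cocycle_pull (hc i) tauC_cyc)
    (fun i => cocycle_pull (hc i) (cocycle_δ _))
    (fun i => (supp_pull (hc i) _).trans (preimage_mono tauC_supp))
    fun i => (supp_pull (hc i) _).trans (preimage_mono supp_δ_wind)).mono
    fun z hz => funext fun i => mem_iInter.1 hz i

/-- The signs of the coordinates. -/
def sg : Fin 4 → ℝ := ![1, -1, 1, -1]

theorem t2_val (x : Fin 5 → C2) : t2.1 [x 0, x 1, x 2, x 3, x 4] =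
    ((stepCochain (fun i => posInd fun z => sg i * cr i z) x : ℝ) : ℂ) := by
  rw [t2, mul_val_of_isDeg (deg_tauC.pull _) _ _ (by simp)]
  change tauC.1 [x 0 0, x 1 0, x 2 0] * tauC.1 [x 2 1, x 3 1, x 4 1] = _
  have h : (x : Fin 5 → C2) = ![x 0, x 1, x 2, x 3, x 4] := by
    funext i
    fin_cases i <;> rfl
  rw [tauC_val, tauC_val, neg_mul_neg, ← Complex.ofReal_mul]
  conv_rhs => rw [h, P267.H533.stepCochain_apply]
  simp only [sg, Matrix.cons_val_zero, Matrix.cons_val_one, Matrix.cons_val,
    P267.H533.cr_0, P267.H533.cr_1, P267.H533.cr_2, P267.H533.cr_3, one_mul, neg_mul, mul_assoc]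
  rfl

end Pt

open Pt

variable {X : Type} [MetricSpace X] [CompactSpace X] [ConnectedSpace X] [ChartedSpace C2 X]
  [IsManifold 𝓘(ℂ, C2) ω X]

theorem pt : StPt X := by
  obtain ⟨p⟩ : Nonempty X := inferInstance
  have hp := mem_chart_source C2 p
  have he := chart_mem_atlas C2 p
  have hcc : cch 2 p = fun z => (chartAt C2 p).symm (z + chartAt C2 p p) := rfl
  generalize chartAt C2 p = e at hp he hcc
  obtain ⟨N, hN, hNc, hNs⟩ := exists_mem_nhds_isClosed_subset (e.open_source.mem_nhds hp)
  have hU : closure (interior N) ⊆ e.source := (closure_minimal interior_subset hNc).trans hNs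
  have hpU : p ∈ interior N := mem_interior_iff_mem_nhds.2 hN
  have hUo : IsOpen (interior N) := isOpen_interior
  generalize interior N = U at hU hpU hUo
  have hc : ∀ x ∈ e.source, ContinuousAt (fun y => e y - e p) x := fun x hx =>
    (e.continuousAt hx).sub continuousAt_const
  have hs : supp (trU U (pull (fun y => e y - e p) t2)) ⊆ {p} := fun x hx => by
    obtain ⟨h1, h2⟩ := supp_trU _ _ hx
    have h3 : e x - e p ∈ supp t2 := by_contra fun h => Van.pull (hc x (hU h1)) h h2
    exact e.injOn (hU h1) hp (sub_eq_zero.1 (t2_supp h3))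
  have hin := trU_in (hUo.mem_nhds hpU) (pull (fun y => e y - e p) t2)
  refine ⟨p, trU U (pull (fun y => e y - e p) t2), P269.Orb.cocycle_of_pt ?_ hs hin,
    fun l hl => by rw [trU_val, t2_deg.pull _ l hl, ite_self], hs, ?_, ?_⟩
  · rw [δ_pull]
    exact Van.pull (hc p hp) (supp_eq_empty.1 t2_cyc _)
  · have h0 : cch 2 p 0 = p := by rw [hcc]; simp [e.left_inv hp]
    have h1 : ContinuousAt (fun z : C2 => z + e p) 0 := by fun_prop
    have h2 : ContinuousAt (cch 2 p) 0 := by
      rw [hcc]
      exact ContinuousAt.comp (by simpa using e.continuousAt_symm (e.map_source hp)) h1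
    have h3 : P269.Orb.LocCo (pull (cch 2 p) (pull (fun y => e y - e p) t2)) 1 := by
      rw [pull_pull]
      refine P269.Orb.LocCo.pull_congr (g := id) (by rw [pull_id]; exact t2_co) ?_
      filter_upwards [h1 (e.open_target.mem_nhds (by simpa using e.map_source hp))] with z hz
      rw [hcc, comp_apply, e.right_inv hz, add_sub_cancel_right, id]
    refine h3.congr ?_
    rw [← map_sub, ← neg_sub]
    exact Van.pull h2 (h0.symm ▸ (Van p).neg_mem hin)
  · obtain ⟨χ, t, d, h1, h2, -, h4, h5, h6, h7, h8⟩ := P267.H533.exists_chart_data he hp hUo hpU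
    have hsg : ∀ i, sg i = 1 ∨ sg i = -1 := fun i => by fin_cases i <;> simp [sg]
    obtain ⟨η, h0, hη⟩ := P267.H533.exists_lam_chart (TI X) U isClosed_closure.isCompact hUo
      (fun i x => sg i * cr i (e x - e p))
      (fun i => continuousOn_const.mul ((cr i).continuous.comp_continuousOn
        fun x hx => (hc x (hU hx)).continuousWithinAt)) p
      (fun x hx h => e.injOn (hU hx) hp (sub_eq_zero.1 (funext fun j => by
        have a0 := h 0
        have a1 := h 1
        have a2 := h 2
        have a3 := h 3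
        simp only [sg, Matrix.cons_val_zero, Matrix.cons_val_one, Matrix.cons_val, one_mul,
          neg_mul, neg_eq_zero, P267.H533.cr_0, P267.H533.cr_1, P267.H533.cr_2,
          P267.H533.cr_3] at a0 a1 a2 a3
        fin_cases j
        exacts [Complex.ext a0 a1, Complex.ext a2 a3])))
      χ h2 h4 ![t 0, 1 - t 1, t 2, 1 - t 3] d h1
      (fun x hx h => h5 x hx fun i => by
        have := h i
        rcases hsg i with e1 | e1 <;> rw [e1, map_sub] at this
        · rwa [one_mul] at this
        · rwa [neg_one_mul, abs_neg] at this)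
      (fun i x hx h => by
        rw [map_sub] at h
        fin_cases i
        · exact h6 0 x hx (by simpa [sg] using h)
        · refine (h7 1 x hx (by simp [sg] at h ⊢; linarith)).mono fun y hy => ?_
          change 1 - (t 1 : X → ℝ) y = 1
          rw [hy, sub_zero]
        · exact h6 2 x hx (by simpa [sg] using h)
        · refine (h7 3 x hx (by simp [sg] at h ⊢; linarith)).mono fun y hy => ?_
          change 1 - (t 3 : X → ℝ) y = 1
          rw [hy, sub_zero])
      (fun i x hx h => by
        rw [map_sub] at h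
        fin_cases i
        · exact h7 0 x hx (by simpa [sg] using h)
        · refine (h6 1 x hx (by simp [sg] at h ⊢; linarith)).mono fun y hy => ?_
          change 1 - (t 1 : X → ℝ) y = 0
          rw [hy, sub_self]
        · exact h7 2 x hx (by simpa [sg] using h)
        · refine (h6 3 x hx (by simp [sg] at h ⊢; linarith)).mono fun y hy => ?_
          change 1 - (t 3 : X → ℝ) y = 0
          rw [hy, sub_self])
    refine ⟨η, h0, fun n P hP => ?_⟩
    have h9 := hη η h0 le_rfl _ P hP
    have h10 : (TI X).J χ (t 0) (1 - t 1) (t 2) (1 - t 3) = 1 := by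
      rw [(TI X).J_sub2, (TI X).J_sub4, (TI X).J_sub4, (TI X).J_one2, (TI X).J_one2,
        (TI X).J_one4, h8]
      ring
    have h11 := congrArg (fun r : ℝ => (r : ℂ)) (h9.trans h10)
    simp only [P267.H533.lam, Complex.ofReal_sum, Complex.ofReal_mul, Complex.ofReal_one] at h11
    refine Eq.trans ?_ h11
    unfold lamC
    refine Finset.sum_congr rfl fun a0 _ => Finset.sum_congr rfl fun a1 _ =>
      Finset.sum_congr rfl fun a2 _ => Finset.sum_congr rfl fun a3 _ =>
      Finset.sum_congr rfl fun a4 _ => congrArg (· * _) ?_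
    rw [trU_val, trunc]
    by_cases hl : ∀ y ∈ [P.v a0, P.v a1, P.v a2, P.v a3, P.v a4], y ∈ U
    · rw [if_pos hl, if_pos fun k => hl _ (by fin_cases k <;> simp)]
      exact t2_val fun k => e (![P.v a0, P.v a1, P.v a2, P.v a3, P.v a4] k) - e p
    · rw [if_neg hl, if_neg fun h => hl (by simpa [Fin.forall_fin_succ] using h),
        Complex.ofReal_zero]

end Vale.Agent.P287Q.Sf
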