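import Vale.Agent.P287Q.Sf.Defs
import Vale.Agent.P267.H815.Nef
import Vale.Agent.P267.H221.RRMain

/-!
# P287, surfaces: the adjunction inequality for prime divisors
-/

set_option linter.unusedSectionVars false

namespace Vale.Agent.P287Q.Sf

open Set Function Topology Filter P291Z P267.FL P267.BlockC P267.RR
open P267.H682 (up dw dw_up up_dw reg0_clm mem_H0_OX isHol_OX h0_OX lb_eq_OX)
open scoped ContDiff Manifold

variable {X : Type} [MetricSpace X] [CompactSpace X] [ConnectedSpace X] [ChartedSpace C2 X]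
  [IsManifold 𝓘(ℂ, C2) ω X] {C : P267.EffDiv X} {ι : Type} [Fintype ι] [DecidableEq ι]

/-- Multiplication of the holomorphic two-forms by the section of a divisor. -/
noncomputable def adjMul (A : P267.H451.DivLB C ι) : H0 (OX X) 0 1 →ₗ[ℂ] H0 A.L A.a 1 where
  toFun u := ⟨fun x => dw (u.1 x) • A.s x, by
    obtain ⟨h1, h2⟩ := mem_H0_OX.1 u.2
    have h3 := reg0_clm dw h1
    refine (mem_H0 _ _ _).2 ⟨⟨reg0_iff_at.2 fun x => ?_, fun x => ?_⟩, ?_⟩
    · simpa using (h3.at x).smul' (A.s_reg.at x)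
    · rw [LB.act_smul, A.s_sec x]
    · funext x i
      have h4 := LB.db0_smul' (L := A.L) (a := A.a) ((h3.at x).of_le (by simp))
        ((A.s_reg.at x).of_le (by simp)) (A.s_sec x) i
      rw [add_zero, dbar0_clm dw ((h1.at x).of_le (by simp)), h2, A.s_hol] at h4
      simpa using h4⟩
  map_add' u v := Subtype.ext (funext fun x => by
    simp only [Submodule.coe_add, Pi.add_apply, map_add, add_smul])
  map_smul' c u := Subtype.ext (funext fun x => by
    simp only [SetLike.val_smul, Pi.smul_apply, map_smul, smul_assoc, RingHom.id_apply])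

theorem adjMul_injective (A : P267.H451.DivLB C ι) : Injective (adjMul A) := by
  refine (injective_iff_map_eq_zero _).2 fun u hu => Subtype.ext (funext fun y => ?_)
  refine P267.H365.eq_of_freq0 ((mem_H0_OX.1 u.2).1.at y) at0_zero ?_
  refine (mem_closure_iff_frequently.1 (P267.H815.dense_ne A y)).mono fun z hz => ?_
  have h1 : dw (u.1 z) • A.s z = 0 := congrFun (congrArg Subtype.val hu) z
  rw [← up_dw (u.1 z), (smul_eq_zero.1 h1).resolve_right hz, map_zero]
  rfl

theorem adj_chi (A : P267.H451.DivLB C ι) (hC : P267.H823.Prime C) :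
    chi (OX X) 0 0 ≤ chi A.L.dual (-A.a) 0 + 1 := by
  obtain ⟨hF, hS, -, -⟩ := rrBlock X
  have f1 : FiniteDimensional ℂ (H1 (OX X) 0 0) := (hF (Fin 1) (OX X) 0 isHol_OX 0).2.1
  have f2 : FiniteDimensional ℂ (H0 A.L A.a 1) := (hF ι A.L A.a A.hol 1).1
  have h3 : h1 A.L.dual (-A.a) 0 ≤ h1 (OX X) 0 0 :=
    LinearMap.finrank_le_finrank_of_injective (P267.H815.hmap_injective A fun φ hφ h => by
      obtain ⟨c, hc⟩ := P267.H815.h0_const C hC.conn.isPreconnected hC.fin.countable hC.dense hφ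
        (P267.H815.i1_of_mem h)
      refine ⟨c, P267.H815.mem_of_i0 ?_ hc⟩
      have hcr : Reg0 ∞ 0 (fun _ : X => c) := by
        have h1 : ∀ e : Ch X, loc0 0 e (fun _ : X => c) = fun _ => c := fun e => by
          funext z
          simp [loc0]
        intro e _
        rw [h1]
        exact contDiffOn_const
      exact reg0_iff_at.2 fun x => (hφ.at x).sub (hcr.at x))
  have h4 : h0 (OX X) 0 1 ≤ h0 A.L A.a 1 :=
    LinearMap.finrank_le_finrank_of_injective (adjMul_injective A)
  have h5 := (hS (Fin 1) (OX X) 0 isHol_OX 0).2.2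
  rw [lb_eq_OX (OX X).dual, neg_zero, sub_zero] at h5
  have h6 := (hS ι A.L A.a A.hol 1).1
  rw [sub_self] at h6
  have h7 : h0 (OX X) 0 0 = 1 := h0_OX
  simp only [chi]
  omega

/-- **The adjunction inequality.** -/
theorem adj (C : P267.EffDiv X) (k : ℕ) (A : P267.H451.DivLB C (Fin k)) (K : ALB X)
    (hC : P267.H823.Prime C) (hK : IsCanon K.L) : -2 ≤ (isec A.L A.L + isec K.L A.L).re := by
  have h1 := (rrBlock X).2.2.1 (Fin k) K.ι A.L.dual (-A.a) K.L A.hol.dual hK
  rw [P267.H815.isec_dual_dual, P267.H815.isec_dual_left, P267.H815.isec_comm A.L K.L] at h1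
  have h2 : isec A.L A.L + isec K.L A.L =
      ((2 * (chi A.L.dual (-A.a) 0 - chi (OX X) 0 0) : ℤ) : ℂ) := by
    push_cast
    rw [h1]
    ring
  have h3 := adj_chi A hC
  rw [h2, Complex.intCast_re]
  exact_mod_cast (by omega : -2 ≤ 2 * (chi A.L.dual (-A.a) 0 - chi (OX X) 0 0))

end Vale.Agent.P287Q.Sf
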