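import Vale.Agent.P287Q.Sf.Defs
import Vale.Agent.P267.H283.Facts

/-!
# P287, surfaces: the basic properties of `Rp`
-/

set_option linter.unusedSectionVars false

namespace Vale.Agent.P287Q.Sf

open Set Function Topology Filter P291Z P267.FL P267.BlockC P267.RR
open P267.H533 (AX TI Part WF ψC)
open P287Q.Zc (Lk)
open P287Q.Mf (frm IsHg cch)
open scoped ContDiff Manifold ComplexConjugate

section forms

variable {X : Type} [TopologicalSpace X] [ChartedSpace C2 X] [IsManifold 𝓘(ℂ, C2) ω X]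

theorem SC.zero : SC (0 : TwoF X) := ⟨smooth_zero, closed_zero⟩

theorem SC.add {F G : TwoF X} (hF : SC F) (hG : SC G) : SC (F + G) :=
  ⟨smooth_add hF.1 hG.1, closed_add hF.1 hG.1 hF.2 hG.2⟩

theorem SC.smul (t : ℂ) {F : TwoF X} (hF : SC F) : SC (t • F) :=
  ⟨smooth_smul t hF.1, closed_smul t hF.1 hF.2⟩

theorem SC.neg {F : TwoF X} (hF : SC F) : SC (-F) := by
  have := hF.smul (-1)
  rwa [neg_one_smul] at this

theorem SC.sub {F G : TwoF X} (hF : SC F) (hG : SC G) : SC (F - G) := by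
  rw [sub_eq_add_neg]
  exact hF.add hG.neg

theorem SC.sum {ι : Type*} (s : Finset ι) {F : ι → TwoF X} (h : ∀ i ∈ s, SC (F i)) :
    SC (∑ i ∈ s, F i) :=
  Finset.sum_induction F SC (fun _ _ => SC.add) SC.zero h

theorem SC.of_exact {F : TwoF X} (h : ExactTwo F) : SC F := by
  obtain ⟨A, hA, rfl⟩ := h
  exact ⟨P267.H857.smooth_d hA, P267.H857.closed_d hA⟩

theorem Api_ex_add {F G : TwoF X} (hF : ExactTwo F) (hG : ExactTwo G) : ExactTwo (F + G) := by
  obtain ⟨A, hA, rfl⟩ := hF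
  obtain ⟨B, hB, rfl⟩ := hG
  exact ⟨A + B, osmooth_add hA hB, d_add hA hB⟩

theorem Api_ex_smul (t : ℂ) {F : TwoF X} (hF : ExactTwo F) : ExactTwo (t • F) := by
  obtain ⟨A, hA, rfl⟩ := hF
  exact ⟨t • A, osmooth_smul t hA, d_smul t hA⟩

theorem Api_ex_neg {F : TwoF X} (hF : ExactTwo F) : ExactTwo (-F) := by
  have := Api_ex_smul (-1) hF
  rwa [neg_one_smul] at this

theorem Api_ex_sub {F G : TwoF X} (hF : ExactTwo F) (hG : ExactTwo G) : ExactTwo (F - G) := by
  rw [sub_eq_add_neg]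
  exact Api_ex_add hF (Api_ex_neg hG)

theorem Api_ex_zero : ExactTwo (0 : TwoF X) := by
  have := Api_ex_smul 0 (⟨0, osmooth_zero, rfl⟩ : ExactTwo (0 : OneF X).d)
  rwa [zero_smul] at this

variable {ι : Type} [Fintype ι]

theorem WC_add (P : Part (AX X) ι) (a b : Coch X) : WC P (a + b) = WC P a + WC P b := by
  apply TwoF.ext
  · funext x
    simp only [WC, WF, Coch.add_val, Pi.add_apply, TwoF.f20_add, add_mul, Finset.sum_add_distrib]
  · funext x
    ext i j
    simp only [WC, WF, Coch.add_val, Pi.add_apply, TwoF.f11_add, add_mul, Finset.sum_add_distrib,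
      Matrix.of_apply, Matrix.add_apply]
  · funext x
    simp only [WC, WF, Coch.add_val, Pi.add_apply, TwoF.f02_add, add_mul, Finset.sum_add_distrib]

theorem WC_smul (P : Part (AX X) ι) (t : ℂ) (a : Coch X) : WC P (t • a) = t • WC P a := by
  apply TwoF.ext
  · funext x
    simp only [WC, WF, Coch.smul_val, Pi.smul_apply, TwoF.f20_smul, smul_eq_mul, Finset.mul_sum,
      mul_assoc]
  · funext x
    ext i j
    simp only [WC, WF, Coch.smul_val, Pi.smul_apply, TwoF.f11_smul, smul_eq_mul, Finset.mul_sum,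
      mul_assoc, Matrix.of_apply, Matrix.smul_apply]
  · funext x
    simp only [WC, WF, Coch.smul_val, Pi.smul_apply, TwoF.f02_smul, smul_eq_mul, Finset.mul_sum,
      mul_assoc]

theorem WC_sub (P : Part (AX X) ι) (a b : Coch X) : WC P (a - b) = WC P a - WC P b := by
  rw [sub_eq_add_neg, WC_add, ← neg_one_smul ℂ b, WC_smul, neg_one_smul, sub_eq_add_neg]

theorem Api_dbar (P : Part (AX X) ι) (a : ι) (x : X) (j : Fin 2) :
    conj (dbar0 0 (ψC P a) x j) = del0 (ψC P a) x j := by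
  obtain ⟨h0, h1⟩ := P267.H533.rowA_conj (P.ψ a) x
  simp only [P267.H533.rowA, P267.H533.DX_0, P267.H533.DX_1, P267.H533.DX_2,
    P267.H533.DX_3] at h0 h1
  have h0' : dbar0 0 (ψC P a) x 0 = conj (del0 (ψC P a) x 0) := h0
  have h1' : dbar0 0 (ψC P a) x 1 = conj (del0 (ψC P a) x 1) := h1
  fin_cases j
  · exact (congrArg conj h0').trans (Complex.conj_conj _)
  · exact (congrArg conj h1').trans (Complex.conj_conj _)

theorem Api_del (P : Part (AX X) ι) (a : ι) (x : X) (j : Fin 2) :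
    conj (del0 (ψC P a) x j) = dbar0 0 (ψC P a) x j := by
  rw [← Api_dbar, Complex.conj_conj]

/-- The Whitney form of a real cochain is real. -/
theorem WC_real (P : Part (AX X) ι) {a : Coch X} (ha : ∀ l, conj (a.1 l) = a.1 l) :
    (WC P a).Real := by
  have hψ : ∀ i x, conj (ψC P i x) = ψC P i x := fun i x => Complex.conj_ofReal _
  intro x
  refine ⟨?_, fun i j => ?_⟩
  · simp only [WC, WF, P267.H533.wdF, map_sum, map_mul, map_sub, ha, hψ, Api_dbar]
  · simp only [WC, WF, P267.H533.wdF, map_sum, map_mul, map_sub, ha, hψ, Api_dbar, Api_del,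
      Matrix.of_apply, ← Finset.sum_neg_distrib]
    refine Finset.sum_congr rfl fun _ _ => Finset.sum_congr rfl fun _ _ =>
      Finset.sum_congr rfl fun _ _ => ?_
    ring

end forms

variable {X : Type} [MetricSpace X] [ChartedSpace C2 X] [IsManifold 𝓘(ℂ, C2) ω X]

/-- The Whitney form of a fine partition represents the class. -/
theorem Api_rp (h1 : StW0 X) (a : Zs X) (ha : IsDeg 2 a.1) :
    Fn fun _ (P : Part (AX X) (Fin _)) => Rp (WC P a.1) (H.mk a) := by
  obtain ⟨η, hη, h⟩ := h1 a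
  exact ⟨η, hη, fun n P hP => ⟨(h n P hP).1, a, ha, rfl, η, hη, (h n P hP).2⟩⟩

theorem api_of (h0 : StFine X) (h1 : StW0 X) (h2 : StW1 X) : Api X where
  ex := by
    rintro _ ⟨a, ha, rfl⟩
    obtain ⟨n, P, h⟩ := (Api_rp h1 a ha).exists h0
    exact ⟨_, h⟩
  real := by
    rintro c ⟨⟨a, hz, hc, rfl⟩, hd⟩
    have hd' : H.IsDeg 2 (hcls a) := hd
    obtain ⟨n, P, h⟩ := (Api_rp h1 ⟨comp 2 a, cocycle_comp hc 2⟩ (isDeg_comp 2 a)).exists h0
    refine ⟨WC P (P291Z.comp 2 a), WC_real P fun l => ?_, ?_⟩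
    · obtain ⟨k, hk⟩ := Zc.mem_ZZ.1 (hz.comp 2 l)
      rw [hk, map_intCast]
    · rwa [← hcls_of_mem (cocycle_comp hc 2), ← H.comp_hcls 2 hc, hd'.comp_eq] at h
  add := by
    rintro F G _ _ ⟨hF, a, ha, rfl, hFa⟩ ⟨hG, b, hb, rfl, hGb⟩
    refine ⟨hF.add hG, a + b, ha.add hb, map_add _ _ _, (hFa.and hGb).mono fun n P h => ?_⟩
    have e : F + G - WC P (a + b).1 = (F - WC P a.1) + (G - WC P b.1) := by
      rw [Subalgebra.coe_add, WC_add]; abel
    rw [e]
    exact Api_ex_add h.1 h.2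
  smul := by
    rintro t F _ ⟨hF, a, ha, rfl, hFa⟩
    refine ⟨hF.smul t, t • a, ha.smul t, H.mk_smul t a, hFa.mono fun n P h => ?_⟩
    have e : t • F - WC P (t • a).1 = t • (F - WC P a.1) := by
      rw [Subalgebra.coe_smul, WC_smul, smul_sub]
    rw [e]
    exact Api_ex_smul t h
  exact := by
    rintro F G _ ⟨-, a, -, rfl, hFa⟩ ⟨-, b, -, hb, hGb⟩
    obtain ⟨n, P, ⟨e1, e2⟩, e3⟩ := ((hFa.and hGb).and (h2 a b hb.symm)).exists h0
    have e : F - G = (F - WC P a.1) - (G - WC P b.1) + (WC P a.1 - WC P b.1) := by abel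
    rw [e]
    exact Api_ex_add (Api_ex_sub e1 e2) e3
  of_exact := by
    rintro F G _ ⟨hF, a, ha, rfl, hFa⟩ h
    refine ⟨?_, a, ha, rfl, hFa.mono fun n P h' => ?_⟩
    · have := hF.add (SC.of_exact h)
      rwa [add_sub_cancel] at this
    · have e : G - WC P a.1 = (G - F) + (F - WC P a.1) := by abel
      rw [e]
      exact Api_ex_add h h'

end Vale.Agent.P287Q.Sf
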