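import Vale.Agent.P287Q.Sf.Defs
import Vale.Agent.P267.H815.Add
import Vale.Agent.P290.H220.Glob

/-!
# P287, surfaces: the canonical divisor of a holomorphic two-form
-/

set_option linter.unusedSectionVars false

namespace Vale.Agent.P287Q.Sf

open Set Function Topology Filter P267.FL P267.BlockC P267.RR
open P267.H815 (HolN Assoc UnitN)
open P267.H451 (DivLB)
open P267 (EffDiv)
open scoped ContDiff Manifold

namespace Can

variable {X : Type} [TopologicalSpace X] [ChartedSpace C2 X] [IsManifold 𝓘(ℂ, C2) ω X]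

theorem holAt {η : TwoF X} (h : Hol2 η) (x : X) : HolAt 1 η.f20 x := by
  refine holAt_of_dbar0 (Eventually.of_forall fun y =>
    ⟨(h.2.1.s20.at y).of_le (by simp), funext fun j => ?_⟩)
  have h1 := h.2.2.1 y j
  have h2 : ∀ i, (fun z => loc11 (chartAt C2 y) η.f11 z i j) = fun _ => (0 : ℂ) := by
    intro i
    funext z
    rw [h.1.1]
    simp [loc11]
  rw [TwoF.d21, h2, h2] at h1
  simpa [dz] using h1

/-- The local equation. -/
noncomputable def eqn (f : X → ℂ) (x y : X) : ℂ := loc0 1 (chartAt C2 x) f (chartAt C2 x y)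

theorem eqn_self (f : X → ℂ) (x : X) : eqn f x x = f x := loc0_chartAt 1 f x

theorem eqn_eq (f : X → ℂ) {x y : X} (hy : y ∈ (chartAt C2 x).source) :
    eqn f x y = (jac (chartAt C2 x) y).det * f y := by
  rw [eqn, loc0_source hy, zpow_one, smul_eq_mul]

theorem eqn_change (f : X → ℂ) {x y z : X} (hx : z ∈ (chartAt C2 x).source)
    (hy : z ∈ (chartAt C2 y).source) :
    eqn f x z = (jacM (chartAt C2 x) (chartAt C2 y) z).det * eqn f y z := by
  rw [eqn, loc0_change (chart_mem_atlas C2 x) (chart_mem_atlas C2 y) hx hy, zpow_one, smul_eq_mul]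
  rfl

theorem holN_det {x y z : X} (hx : z ∈ (chartAt C2 x).source) (hy : z ∈ (chartAt C2 y).source) :
    HolN (fun w => (jacM (chartAt C2 x) (chartAt C2 y) w).det) z := by
  have h1 := P267.H815.holN_of_analytic x hx
    (det_analyticAt (chart_mem_atlas C2 x) (chart_mem_atlas C2 y) hx hy)
  refine h1.congr ?_
  filter_upwards [(chartAt C2 x).open_source.mem_nhds hx] with w hw
  rw [(chartAt C2 x).left_inv hw]

/-- Identity theorem. -/
theorem frequently_ne [ConnectedSpace X] {f : X → ℂ} (hf : ∀ x, HolAt 1 f x) (h0 : f ≠ 0) (x : X) :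
    ∃ᶠ y in 𝓝 x, f y ≠ 0 := by
  set Z : Set X := {x | ∀ᶠ y in 𝓝 x, f y = 0} with hZ
  have hO : IsOpen Z := isOpen_setOfPred_eventually_nhds
  have hC : IsClosed Z := by
    refine isClosed_iff_frequently.2 fun p hp => ?_
    set e := chartAt C2 p with he
    have hps : p ∈ e.source := mem_chart_source C2 p
    have h1 : ∀ᶠ z in 𝓝 (e p), AnalyticAt ℂ (loc0 1 e f) z ∧ z ∈ e.target :=
      (AnalyticAt.eventually_analyticAt (hf p)).and (e.open_target.mem_nhds (e.map_source hps))
    obtain ⟨r, hr, hb⟩ := Metric.eventually_nhds_iff_ball.1 h1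
    have h2 : ∀ᶠ y in 𝓝 p, e y ∈ Metric.ball (e p) r ∧ y ∈ e.source :=
      ((e.continuousAt hps).eventually (Metric.ball_mem_nhds _ hr)).and
        (e.open_source.mem_nhds hps)
    obtain ⟨q, hq, hq1, hq2⟩ := (hp.and_eventually h2).exists
    have h3 : loc0 1 e f =ᶠ[𝓝 (e q)] 0 := by
      filter_upwards [(tendsto_symm_nhds hq2).eventually hq] with z hz
      simp [loc0, hz]
    have h4 : EqOn (loc0 1 e f) 0 (Metric.ball (e p) r) :=
      AnalyticOnNhd.eqOn_zero_of_preconnected_of_eventuallyEq_zero (fun z hz => (hb z hz).1)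
        (convex_ball _ _).isPreconnected hq1 h3
    filter_upwards [h2] with y hy
    have h5 := h4 hy.1
    rw [loc0_source hy.2, zpow_one, smul_eq_mul] at h5
    exact (mul_eq_zero.1 h5).resolve_left (jac_det_ne_zero (chart_mem_atlas C2 p) hy.2)
  intro hx
  have hx' : x ∈ Z := hx.mono fun y hy => not_not.1 hy
  have hU : Z = univ := IsClopen.eq_univ ⟨hC, hO⟩ ⟨x, hx'⟩
  refine h0 (funext fun y => ?_)
  have hy : y ∈ Z := hU ▸ mem_univ y
  exact hy.self_of_nhds

theorem exists_div [ConnectedSpace X] {f : X → ℂ} (hf : ∀ x, HolAt 1 f x) (h0 : f ≠ 0) :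
    ∃ D : EffDiv X, D.f = eqn f := by
  refine P267.H815.exists_effDiv (eqn f)
    (fun x => P267.H815.holN_of_analytic x (mem_chart_source C2 x) (hf x)) (fun x => ?_) fun x => ?_
  · refine ((frequently_ne hf h0 x).and_eventually
      ((chartAt C2 x).open_source.mem_nhds (mem_chart_source C2 x))).mono fun y hy => ?_
    rw [eqn_eq f hy.2]
    exact mul_ne_zero (jac_det_ne_zero (chart_mem_atlas C2 x) hy.2) hy.1
  · filter_upwards [(chartAt C2 x).open_source.mem_nhds (mem_chart_source C2 x)] with y hy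
    have hy' := mem_chart_source C2 y
    refine ⟨fun w => (jacM (chartAt C2 x) (chartAt C2 y) w).det, ⟨holN_det hy hy',
      jacM_det_ne_zero (chart_mem_atlas C2 x) (chart_mem_atlas C2 y) hy hy'⟩, ?_⟩
    filter_upwards [(chartAt C2 x).open_source.mem_nhds hy,
      (chartAt C2 y).open_source.mem_nhds hy'] with z h1 h2
    exact eqn_change f h1 h2

variable {ι : Type} [Fintype ι] [DecidableEq ι] {ι' : Type} [Fintype ι'] [DecidableEq ι']

theorem v_cont {D : EffDiv X} (B : DivLB D ι) {x y : X} (hy : y ∈ D.U x) :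
    ContinuousAt (B.v x) y := by
  set e := chartAt C2 y with he
  have hs : y ∈ e.source := mem_chart_source C2 y
  have h1 := (B.v_reg x y hy e (chart_mem_atlas C2 y) hs).continuousAt
  have h2 : ContinuousAt (fun w => B.v x (e.symm (e w))) y :=
    ContinuousAt.comp (g := fun z => B.v x (e.symm z)) (f := e) h1 (e.continuousAt hs)
  refine h2.congr ?_
  filter_upwards [e.open_source.mem_nhds hs] with w hw
  rw [e.left_inv hw]

theorem isCanon {f : X → ℂ} {D : EffDiv X} (hD : D.f = eqn f) (B : DivLB D ι) : IsCanon B.L := by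
  have key : ∀ x y, y ∈ D.U x → y ∈ (chartAt C2 x).source →
      B.v y y = (jac (chartAt C2 x) y).det • B.v x y := by
    intro x y hy hs
    have hy' := mem_chart_source C2 y
    have c1 : ContinuousAt
        (fun z => (jacM (chartAt C2 x) (chartAt C2 y) z).det • B.v x z) y :=
      (holN_det hs hy').continuousAt.smul (v_cont B hy)
    have c2 : ContinuousAt (B.v y) y := v_cont B (D.mem y)
    refine tendsto_nhds_unique_of_frequently_eq c2 c1 ?_
    refine ((D.ne y y (D.mem y)).and_eventually (((D.isOpen x).eventually_mem hy).and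
      (((D.isOpen y).eventually_mem (D.mem y)).and
        (((chartAt C2 x).open_source.eventually_mem hs).and
          ((chartAt C2 y).open_source.eventually_mem hy'))))).mono ?_
    rintro z ⟨h0, h1, h2, h3, h4⟩
    have e1 := B.s_eq x z h1
    have e2 := B.s_eq y z h2
    rw [e2, hD, eqn_change f h3 h4, mul_comm, mul_smul] at e1
    rw [hD] at h0
    exact smul_right_injective _ h0 e1
  refine ⟨fun y => B.v y y, reg0_iff_at.2 fun x => ?_, fun y => B.v_sec y y (D.mem y),
    fun y => B.v_ne y y (D.mem y)⟩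
  have hs := mem_chart_source C2 x
  refine (B.v_reg x x (D.mem x) _ (chart_mem_atlas C2 x) hs).congr_of_eventuallyEq ?_
  filter_upwards [(tendsto_symm_nhds hs).eventually (((D.isOpen x).eventually_mem (D.mem x)).and
    ((chartAt C2 x).open_source.eventually_mem hs))] with z hz
  rw [loc0, key x _ hz.1 hz.2, smul_smul, zpow_neg_one,
    inv_mul_cancel₀ (jac_det_ne_zero (chart_mem_atlas C2 x) hz.2), one_smul]

variable [CompactSpace X] [T2Space X]

open P267.H815 P267.H757 P267.H332 in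
theorem isec_sum {D : EffDiv X} (B : DivLB D ι) {n : ℕ} {C : Fin n → EffDiv X} {m : Fin n → ℕ}
    {k : Fin n → ℕ} (A : ∀ c, DivLB (C c) (Fin (k c)))
    (hA : ∀ x, Assoc (D.f x) (fun z => ∏ c, (C c).f x z ^ m c) x) (LK : LB X ι') :
    isec B.L LK = ∑ c, (m c : ℂ) * isec (A c).L LK := by
  obtain ⟨ψ, hψ, hN⟩ := ratio_components (divLB_rep B) (fun c => divLB_rep (A c)) hA
  have hnf : ∀ c, IsNormFn C2 fun x => ‖(A c).s x‖ ^ 2 := fun c => (divLB_rep (A c)).isNormFn
  have hη := LK.curv_smooth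
  have hηc := LK.curv_closed
  have e1 : (fun x => ‖B.s x‖ ^ 2) =
      fun x => (∏ c, (‖(A c).s x‖ ^ 2) ^ m c) * Real.exp (ψ x) := funext hN
  have hexp : IsNormFn C2 fun x => Real.exp (ψ x) := by
    have := isNormFn_exp hψ.neg
    simpa using this
  have e2 : pn LK.curv (fun x => ‖B.s x‖ ^ 2) =
      ∑ c, (m c : ℂ) * pn LK.curv fun x => ‖(A c).s x‖ ^ 2 := by
    rw [e1, pn_mul hη hηc (isNormFn_prod _ fun c _ => (hnf c).pow (m c)) hexp, pn_exp hη hηc hψ,
      add_zero, pn_prod hη hηc _ fun c _ => (hnf c).pow (m c)]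
    exact Finset.sum_congr rfl fun c _ => pn_pow hη hηc (hnf c) (m c)
  rw [isec_eq B.hol B.s_reg B.s_sec B.s_hol (dense_ne B) LK, e2, Finset.mul_sum]
  refine Finset.sum_congr rfl fun c _ => ?_
  rw [isec_eq (A c).hol (A c).s_reg (A c).s_sec (A c).s_hol (dense_ne (A c)) LK]
  ring

open P267.H815 P267.H757 P267.H332 in
theorem cF_eq {D : EffDiv X} (B : DivLB D ι) :
    cF (fun x => ‖B.s x‖ ^ 2) = B.L.curv + (conn B.a).d := by
  rw [(P267.H821.lbnf B.hol B.s_reg B.s_sec B.s_hol (dense_ne B)).2, chern_eq_add]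

open P267.H815 P267.H757 P267.H332 P290.H220 in
theorem isec_nonneg {D D' : EffDiv X} (B : DivLB D ι) (B' : DivLB D' ι')
    (hf : (D.supp ∩ D'.supp).Finite) : 0 ≤ (isec B.L B'.L).re := by
  have hN := (divLB_rep B).isNormFn
  have hN' := (divLB_rep B').isNormFn
  have e1 : isec B.L B'.L = nIP (fun x => ‖B.s x‖ ^ 2) fun x => ‖B'.s x‖ ^ 2 := by
    rw [isec_eq B.hol B.s_reg B.s_sec B.s_hol (dense_ne B) B'.L, pn, nIP,
      P267.H815.wedge_comm (cF _) (cF _), cF_eq B', intX_add_exact B'.L.curv_smooth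
        (conn_smooth B'.hol.smooth) (cF_smooth hN) (cF_closed hN), P267.H815.wedge_comm]
  have z : ∀ {E : EffDiv X} {κ : Type} [Fintype κ] [DecidableEq κ] (A : DivLB E κ) (x : X),
      ‖A.s x‖ ^ 2 = 0 → x ∈ E.supp := by
    intro E κ _ _ A x h
    have h1 : A.s x = 0 := by simpa using h
    rw [A.s_eq x x (E.mem x)] at h1
    exact (smul_eq_zero.1 h1).resolve_right (A.v_ne x x (E.mem x))
  have o : ∀ {N : X → ℝ}, IsNormFn C2 N → ∀ p, OrdGe N p 0 := by
    intro N h p
    obtain ⟨U, g, φ, hU, hr⟩ := h p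
    refine ⟨U, g, φ, hU, hr, ?_⟩
    have h1 : ContinuousAt g p := (holN_of_on hr.isOpen hr.hol hU).continuousAt
    have h2 : Tendsto (fun z => g ((chartAt C2 p).symm z)) (𝓝 (chartAt C2 p p)) (𝓝 (g p)) :=
      h1.tendsto.comp (tendsto_symm_nhds (mem_chart_source C2 p))
    simpa using h2.isBigO_one ℝ
  have := sum_le_nIP hN hN' hf.toFinset (fun x h h' => hf.mem_toFinset.2 ⟨z B x h, z B' x h'⟩)
    (fun _ => 0) (fun _ => 0) (fun p _ => o hN p) fun p _ => o hN' p
  rw [e1]
  simpa using this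

open P267.H815 P267.H757 P267.H332 in
theorem pair_curv {η : TwoF X} (h : Hol2 η) {D : EffDiv X} (B : DivLB D ι) :
    pair η B.L.curv = 0 := by
  rw [pair, P267.H815.wedge_comm, ← intX_add_exact B.L.curv_smooth (conn_smooth B.hol.smooth)
    h.2.1 h.2.2, ← cF_eq B]
  have : (cF fun x => ‖B.s x‖ ^ 2).wedge η = fun _ => 0 := by
    funext x
    simp [TwoF.wedge, cF, h.1.1, h.1.2]
  rw [this]
  exact P267.H533.intX_zero

end Can

theorem can {X : Type} [MetricSpace X] [CompactSpace X] [ConnectedSpace X] [ChartedSpace C2 X]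
    [IsManifold 𝓘(ℂ, C2) ω X]
    (hadj : ∀ (C : P267.EffDiv X) (k : ℕ) (A : P267.H451.DivLB C (Fin k)) (K : ALB X),
      P267.H823.Prime C → IsCanon K.L → -2 ≤ (isec A.L A.L + isec K.L A.L).re) : StCan X := by
  intro η hη h0
  have hf : η.f20 ≠ 0 := fun h => h0 (P267.H815.twoF_ext' (fun x => congrFun h x)
    (fun x => congrFun hη.1.1 x) fun x => congrFun hη.1.2 x)
  obtain ⟨D, hD⟩ := Can.exists_div (Can.holAt hη) hf
  obtain ⟨k0, ⟨B⟩⟩ := P267.H451.exists_divLB D
  obtain ⟨n, C, m, -, hp, hA, hfin, -⟩ := P267.H823.exists_components D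
  choose k hk using fun c => P267.H451.exists_divLB (C c)
  have A : ∀ c, DivLB (C c) (Fin (k c)) := fun c => (hk c).some
  have hK : IsCanon B.L := Can.isCanon hD B
  exact ⟨n, m, fun c => ⟨Fin (k c), (A c).L⟩, ⟨Fin k0, B.L⟩, hK,
    fun L => Can.isec_sum B A hA L.L, fun i j hij => Can.isec_nonneg (A i) (A j) (hfin i j hij).2,
    fun i => hadj (C i) (k i) (A i) ⟨Fin k0, B.L⟩ (hp i) hK, fun i => Can.pair_curv hη (A i)⟩

end Vale.Agent.P287Q.Sf
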