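import Vale.Agent.P287Q.Sf.Defs
import Vale.Agent.P267.H469.Gaud
import Vale.Agent.P267.H158.Herm

/-!
# P287, surfaces: the Hodge index theorem
-/

set_option linter.unusedSectionVars false

namespace Vale.Agent.P287Q.Sf

open P267.FL P267.BlockC P267.RR P267.H469 P267.H661
open scoped ContDiff Manifold ComplexConjugate

namespace HI

section abs

variable {Ω0 Ω1 Ω2 Ω3 : Type*} [AddCommGroup Ω0] [Module ℂ Ω0] [AddCommGroup Ω1]
  [Module ℂ Ω1] [AddCommGroup Ω2] [Module ℂ Ω2] [AddCommGroup Ω3] [Module ℂ Ω3]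
  {C : Calc Ω0 Ω1 Ω2 Ω3} (A : Scal C)

/-- The functional commutes with conjugation up to the normalisation. -/
theorem G_conj (g : Ω0) : A.G (C.c0 g) = conj (A.G g / A.G C.one) * A.G C.one := by
  obtain ⟨u, hu⟩ := A.G_surj (g - (A.G g / A.G C.one) • C.one) (by
    rw [map_sub, map_smul, smul_eq_mul, div_mul_cancel₀ _ A.G_one, sub_self])
  have h : A.G (dd C (C.c0 u)) = 0 := A.G_ddc (C.c0 u)
  rw [dd_c0, dd, hu, map_sub, LinearMap.map_smulₛₗ, C.c0one, map_sub, map_smul, smul_eq_mul,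
    sub_eq_zero] at h
  exact h

/-- A closed real form of type `(1, 1)` of positive square has nonzero degree. -/
theorem G_ne_zero {ε : Ω2} (hε : C.is11 ε) (hεr : C.c2 ε = ε) (hεc : C.d2 ε = 0)
    (hεε : 0 < (C.I22 ε ε).re) : A.G (C.tr ε) ≠ 0 := by
  intro h0
  obtain ⟨u, hu⟩ := A.G_surj _ h0
  have h1 := C.neg11 _ (hε.sub (C.is11_ddc u)) (by rw [map_sub, hu, sub_self])
  rw [C.I22_herm _ hεc, hεr] at h1
  linarith

theorem conj_G {F : Ω2} (hF : C.c2 F = F) :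
    conj (A.G (C.tr F) / A.G C.one) = -(A.G (C.tr F) / A.G C.one) := by
  have h := G_conj A (C.tr F)
  have h2 := C.tr_conj F
  rw [hF] at h2
  rw [(neg_eq_iff_eq_neg.2 h2).symm, map_neg] at h
  rw [← neg_div, h, mul_div_cancel_right₀ _ A.G_one]

include A in
/-- **Hodge index** for closed real forms of type `(1, 1)`. -/
theorem hodge_pos {ε F : Ω2} (hε : C.is11 ε) (hεr : C.c2 ε = ε) (hεc : C.d2 ε = 0)
    (hεε : 0 < (C.I22 ε ε).re) (hF : C.is11 F) (hFr : C.c2 F = F) (hFc : C.d2 F = 0)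
    (hFε : C.I22 ε F = 0) : (C.I22 F F).re ≤ 0 := by
  have hεG := G_ne_zero A hε hεr hεc hεε
  obtain ⟨t, ht⟩ : ∃ t, t = A.G (C.tr F) / A.G (C.tr ε) := ⟨_, rfl⟩
  have htr : conj t = t := by
    rw [ht, ← div_div_div_cancel_right₀ A.G_one, map_div₀, conj_G A hFr, conj_G A hεr,
      neg_div_neg_eq]
  obtain ⟨r, hr⟩ := Complex.conj_eq_iff_real.1 htr
  obtain ⟨u, hu⟩ := A.G_surj (C.tr (F - t • ε)) (by
    rw [map_sub, map_smul, map_sub, map_smul, smul_eq_mul, ht, div_mul_cancel₀ _ hεG, sub_self])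
  have h1 := C.neg11 _ ((hF.sub (hε.smul t)).sub (C.is11_ddc u)) (by rw [map_sub, hu, sub_self])
  rw [C.I22_herm _ (by rw [map_sub, map_smul, hFc, hεc, smul_zero, sub_zero]), map_sub C.c2,
    LinearMap.map_smulₛₗ, hFr, hεr, htr, hr] at h1
  simp only [map_sub, map_smul, LinearMap.sub_apply, LinearMap.smul_apply, smul_eq_mul,
    C.I22_symm F ε, hFε, mul_zero, sub_zero, zero_sub, Complex.sub_re, Complex.re_ofReal_mul,
    Complex.neg_re] at h1
  nlinarith [mul_self_nonneg r]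

theorem sub_exact {F G : Ω2} (hF : C.d2 F = 0) (hG : C.d2 G = 0) (a b : Ω1) :
    C.I22 (F - C.d1 a) (G - C.d1 b) = C.I22 F G := by
  have h : C.d2 (G - C.d1 b) = 0 := by rw [map_sub, hG, C.d2d1, sub_zero]
  rw [map_sub C.I22, LinearMap.sub_apply, C.I22_exact a h, sub_zero, C.I22_symm, map_sub C.I22,
    LinearMap.sub_apply, C.I22_exact b hF, sub_zero, C.I22_symm]

/-- The representative of type `(1, 1)`. -/
theorem rep11 {F : Ω2} (hr : C.c2 F = F) {a : Ω1} (ha : C.is01 a) (e : C.p02 (C.d1 a) = C.p02 F) :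
    C.is11 (F - C.d1 (a + C.c1 a)) ∧ C.c2 (F - C.d1 (a + C.c1 a)) = F - C.d1 (a + C.c1 a) := by
  have ha' : C.p10 (C.c1 a) = C.c1 a := by rw [← C.c1_p01, ha]
  have e1 : C.p02 (F - C.d1 (a + C.c1 a)) = 0 := by
    rw [map_sub, map_add, map_add, e, ← ha', C.integ, add_zero, sub_self]
  have e2 : C.c2 (F - C.d1 (a + C.c1 a)) = F - C.d1 (a + C.c1 a) := by
    rw [map_sub, hr, ← C.d1c, map_add, C.c1c1, add_comm]
  refine ⟨Calc.is11_iff.2 ⟨?_, e1⟩, e2⟩
  rw [← e2, ← C.c2_p02, e1, map_zero]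

include A in
/-- **Hodge index** for closed real forms with exact part of type `(0, 2)`. -/
theorem hodge_pos' {ε F : Ω2} {a b : Ω1} (ha : C.is01 a) (ea : C.p02 (C.d1 a) = C.p02 ε)
    (hεr : C.c2 ε = ε) (hεc : C.d2 ε = 0) (hεε : 0 < (C.I22 ε ε).re) (hb : C.is01 b)
    (eb : C.p02 (C.d1 b) = C.p02 F) (hFr : C.c2 F = F) (hFc : C.d2 F = 0) (hFε : C.I22 ε F = 0) :
    (C.I22 F F).re ≤ 0 := by
  rw [← sub_exact hFc hFc (b + C.c1 b) (b + C.c1 b)]
  exact hodge_pos A (rep11 hεr ha ea).1 (rep11 hεr ha ea).2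
    (by rw [map_sub, hεc, C.d2d1, sub_zero]) (by rwa [sub_exact hεc hεc]) (rep11 hFr hb eb).1
    (rep11 hFr hb eb).2 (by rw [map_sub, hFc, C.d2d1, sub_zero]) (by rwa [sub_exact hεc hFc])

end abs

variable {X : Type} [TopologicalSpace X] [ChartedSpace C2 X] [IsManifold 𝓘(ℂ, C2) ω X]

/-- A smooth two-form as an element of the calculus. -/
def om (F : TwoF X) (h : F.Smooth) : Om2 X := (⟨F.f20, h.s20⟩, ⟨F.f11, h.s11⟩, ⟨F.f02, h.s02⟩)

theorem om_closed {F : TwoF X} (h : SC F) : D2 (om F h.1) = 0 :=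
  Prod.ext (Subtype.ext (funext fun x => funext fun j => h.2.1 x j))
    (Subtype.ext ((d12_eq F).symm.trans (funext fun x => funext fun j => h.2.2 x j)))

theorem om_real {F : TwoF X} (h : F.Smooth) (hr : F.Real) : C2L (om F h) = om F h := by
  have h1 : cj0 F.f02 = F.f20 := funext fun x => (hr x).1.symm
  have h2 : cj11 F.f11 = F.f11 := by funext x; ext i j; exact ((hr x).2 j i).symm
  have h3 : cj0 F.f20 = F.f02 := by rw [← h1, cj0_cj0]
  exact Prod.ext (Subtype.ext h1) (Prod.ext (Subtype.ext h2) (Subtype.ext h3))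

variable [T2Space X] [CompactSpace X] [ConnectedSpace X]

/-- **Hodge index** for forms. -/
theorem index {E F : TwoF X} (hE : SC E) (hEr : E.Real) {a : X → Fin 2 → ℂ} (ha : Reg1 ∞ 0 a)
    (ea : dbar1 0 a = E.f02) (hF : SC F) (hFr : F.Real) {b : X → Fin 2 → ℂ} (hb : Reg1 ∞ 0 b)
    (eb : dbar1 0 b = F.f02) (h0 : 0 < (pair E E).re) (h1 : pair E F = 0) : (pair F F).re ≤ 0 := by
  obtain ⟨g, hg⟩ := P267.H158.exists_isHerm X
  exact hodge_pos' (gaudScal hg) (ε := om E hE.1) (F := om F hF.1) (a := (0, ⟨a, ha⟩))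
    (b := (0, ⟨b, hb⟩)) rfl (Prod.ext rfl (Prod.ext rfl (Subtype.ext ea))) (om_real _ hEr)
    (om_closed hE) h0 rfl (Prod.ext rfl (Prod.ext rfl (Subtype.ext eb))) (om_real _ hFr)
    (om_closed hF) h1

end HI

variable {X : Type} [TopologicalSpace X] [ChartedSpace C2 X] [IsManifold 𝓘(ℂ, C2) ω X]
  [T2Space X] [CompactSpace X] [ConnectedSpace X]

theorem hi11 : StHI11 X := fun _ _ hE hEr e hF hFr f =>
  have h0 : dbar1 0 (0 : X → Fin 2 → ℂ) = 0 :=
    congrArg Subtype.val (map_zero (dbar1L (X := X)))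
  HI.index hE hEr (S01 X).zero_mem (h0.trans e.2.symm) hF hFr (S01 X).zero_mem (h0.trans f.2.symm)

theorem hi_of (h1 : StPg X) : StHI X := fun η hη E F hE hEr e hF hFr f =>
  let ⟨_, ha, ea⟩ := (h1 η hη).2 E hE.1 e
  let ⟨_, hb, eb⟩ := (h1 η hη).2 F hF.1 f
  HI.index hE hEr ha ea hF hFr hb eb

end Vale.Agent.P287Q.Sf
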