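import Vale.Agent.P287Q.Sf.Defs
import Vale.Agent.P267.H682.HodgeRR
import Vale.Agent.P267.H469.Gaud
import Vale.Agent.P267.H158.Herm
import Vale.Agent.P267.H221.RRMain

/-!
# P287, surfaces: `h^{1,0} ≤ h^{0,1}` and the Noether inequality
-/

set_option linter.unusedSectionVars false

namespace Vale.Agent.P287Q.Sf

open Set Function Topology Filter P267.FL P267.BlockC P267.RR
open P267.H469 (S0 S10 S01 Om1 Om2 P01 P11 calcH Calc cj1 C1L dbar10L)
open P267.H682 (up dw mem_HOm0 reg0_clm reg1_clm sec1_OX db0_OX db1_OX isHol_OX h0_OX)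
open scoped ContDiff Manifold ComplexConjugate

variable {X : Type} [MetricSpace X] [CompactSpace X] [ConnectedSpace X] [ChartedSpace C2 X]
  [IsManifold 𝓘(ℂ, C2) ω X]

/-- The one-form of a holomorphic one-form. -/
noncomputable def noeF (c : HOm0 X) : Om1 X := (⟨c.1, (mem_HOm0.1 c.2).1⟩, 0)

theorem noe_closed (c : HOm0 X) : P267.H469.D1 (C1L (noeF c)) = 0 := by
  obtain ⟨h, hh⟩ := P267.H158.exists_isHerm X
  have h1 : (calcH hh).d1 (noeF c) = 0 := by
    refine (calcH hh).hol1_closed rfl ?_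
    change P11 (P267.H469.D1 (noeF c)) = 0
    rw [P267.H469.P11_apply]
    refine Prod.ext rfl (Prod.ext ?_ rfl)
    change P267.H469.del1L (0 : S01 X) + dbar10L ⟨c.1, (mem_HOm0.1 c.2).1⟩ = 0
    rw [map_zero, zero_add]
    exact Subtype.ext (mem_HOm0.1 c.2).2
  have h2 : P267.H469.D1 (noeF c) = 0 := h1
  rw [P267.H469.D1_C, h2, map_zero]

theorem noe_reg (c : HOm0 X) : Reg1 ∞ 0 (cj1 c.1) := (C1L (noeF c)).2.2

theorem noe_mem (c : HOm0 X) : (fun x i => up (cj1 c.1 x i)) ∈ Z1 (OX X) 0 0 := by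
  have h1 : dbar1 0 (cj1 c.1) = 0 := congrArg (fun F : Om2 X => (F.2.2 : X → ℂ)) (noe_closed c)
  rw [mem_Z1]
  refine ⟨⟨reg1_clm up (noe_reg c), sec1_OX _⟩, ?_⟩
  rw [db1_OX]
  funext x
  rw [dbar1_clm up (((noe_reg c).at x).of_le (by simp)), h1]
  simp

/-- The class of the conjugate of a holomorphic one-form. -/
noncomputable def noeMap : HOm0 X →+ H1 (OX X) 0 0 where
  toFun c := Submodule.Quotient.mk ⟨_, noe_mem c⟩
  map_zero' := by
    rw [← Submodule.Quotient.mk_zero]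
    refine congrArg _ (Subtype.ext ?_)
    funext x i
    simp [cj1]
  map_add' c c' := by
    rw [← Submodule.Quotient.mk_add]
    refine congrArg _ (Subtype.ext ?_)
    funext x i
    simp [cj1]

theorem noeMap_smul (r : ℂ) (c : HOm0 X) : noeMap (conj r • c) = r • noeMap c := by
  change Submodule.Quotient.mk _ = r • Submodule.Quotient.mk _
  rw [← Submodule.Quotient.mk_smul]
  refine congrArg _ (Subtype.ext ?_)
  funext x i
  change up (conj (conj r * c.1 x i)) = r • up (conj (c.1 x i))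
  rw [map_mul, Complex.conj_conj, ← map_smul, smul_eq_mul]

theorem noeMap_inj : Injective (noeMap (X := X)) := by
  refine (injective_iff_map_eq_zero _).2 fun c hc => ?_
  obtain ⟨h, hh⟩ := P267.H158.exists_isHerm X
  have h1 : (Submodule.Quotient.mk ⟨_, noe_mem c⟩ : H1 (OX X) 0 0) = 0 := hc
  rw [Submodule.Quotient.mk_eq_zero] at h1
  obtain ⟨s, ⟨hs, -⟩, h2⟩ := (mem_B1 _ _ _).1 h1
  rw [db0_OX] at h2
  let u : S0 X := ⟨fun x => dw (s x), reg0_clm dw hs⟩
  have h3 : P01 (P267.H469.D0 u) = C1L (noeF c) := by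
    rw [P267.H469.P01_apply]
    refine Prod.ext (Subtype.ext ?_) (Subtype.ext ?_)
    · funext x i
      change (0 : ℂ) = conj 0
      rw [map_zero]
    · funext x i
      change dbar0 0 (fun x => dw (s x)) x i = cj1 c.1 x i
      rw [dbar0_clm dw ((hs.at x).of_le (by simp)), h2]
      rfl
  obtain ⟨t, ht⟩ := (calcH hh).ddc_const u (by
    change P267.H469.D1 (P01 (P267.H469.D0 u)) = 0
    rw [h3, noe_closed])
  have h4 : P267.H469.D0 u = 0 := by
    change (calcH hh).d0 u = 0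
    rw [ht, map_smul, (calcH hh).d0one, smul_zero]
  rw [h4, map_zero] at h3
  refine Subtype.ext ?_
  funext x i
  have h5 : (0 : ℂ) = conj (c.1 x i) :=
    congrArg (fun A : Om1 X => (A.2 : X → Fin 2 → ℂ) x i) h3
  have h6 := congrArg conj h5
  rw [Complex.conj_conj, map_zero] at h6
  exact h6.symm

/-- `h^{1,0} ≤ h^{0,1}`. -/
theorem h10_le : StH10 X := by
  have hF := ((rrBlock X).1 (Fin 1) (OX X) 0 isHol_OX 0).2.1
  have h1 : Module.rank ℂ (HOm0 X) ≤ Module.rank ℂ (H1 (OX X) 0 0) :=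
    rank_le_of_injective_injective (fun r : ℂ => conj r) noeMap
      (fun r hr => by simpa using hr) noeMap_inj noeMap_smul
  exact Cardinal.toNat_le_toNat h1 (Module.rank_lt_aleph0 ℂ _)

/-- The Noether inequality. -/
theorem noe_of (hg : StPg X) (h3 : StFro X) : StNoe X := by
  intro η hη r F hF K hK
  have e1 := (rrBlock X).2.2.2 K.ι K.L hK
  have e2 : h12 X = h10 X := P267.H983.serreOm (analytic X)
  have e3 : h10 X ≤ h1 (OX X) 0 0 := h10_le
  have e4 := h3 η hη r F hF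
  have e5 : isec K.L K.L = ((10 * (2 - h1 (OX X) 0 0) + (2 * h10 X - h11 X) : ℤ) : ℂ) := by
    rw [e1, chi, chiOm, h0_OX, (hg η hη).1, e2]
    push_cast
    ring
  rw [e5, Complex.intCast_re]
  have e6 : (r : ℤ) + (10 * (2 - h1 (OX X) 0 0) + (2 * h10 X - h11 X) : ℤ) ≤ 22 := by omega
  exact_mod_cast e6

end Vale.Agent.P287Q.Sf
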