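import Vale.Agent.P287Q.Sf.Defs
import Vale.Agent.P267.H283.Facts2
import Vale.Agent.P267.H221.RRMain
import Vale.Agent.P267.H682.RRTriv

/-!
# P287, surfaces: positivity on forms of type `(2, 0)` and `h^{0,2} = 1`
-/

namespace Vale.Agent.P287Q.Sf

open Set Function Topology Filter P291Z P267.FL P267.BlockC P267.RR
open P267.H682 (up dw up_dw dw_up mem_H0_OX lb_eq_OX isHol_OX sec_OX db1_OX reg0_clm reg1_clm
  reg2_clm)
open scoped ContDiff Manifold ComplexConjugate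

section basic

variable {X : Type} [TopologicalSpace X] [ChartedSpace C2 X]

theorem pg_reg2_conj {u : X → ℂ} (hu : Reg0 ∞ 1 u) : Reg2 ∞ 0 fun x => conj (u x) := by
  intro e he
  have h : (loc2 0 e fun x => conj (u x)) = fun z => Complex.conjCLE (loc0 1 e u z) := by
    funext z
    simp [loc2, loc0]
  rw [h]
  exact Complex.conjCLE.contDiff.comp_contDiffOn (hu e he)

theorem pg_loc11_zero (e : Ch X) (z : C2) (i j : Fin 2) :
    loc11 e (0 : X → Matrix (Fin 2) (Fin 2) ℂ) z i j = 0 := by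
  simp [loc11]

theorem pg_reg11_zero : Reg11 ∞ (0 : X → Matrix (Fin 2) (Fin 2) ℂ) := by
  intro e _ i j
  simp only [pg_loc11_zero]
  exact contDiffOn_const

theorem pg_dz_zero (j : Fin 2) (z : C2) : dz j (fun _ => (0 : ℂ)) z = 0 := by
  simp [dz]

theorem pg_dzb_zero (j : Fin 2) (z : C2) : dzb j (fun _ => (0 : ℂ)) z = 0 := by
  simp [dzb]

/-- a form of type `(2, 0)` is closed if and only if its coefficient is holomorphic -/
theorem pg_closed_iff {F : TwoF X} (hF : Ty20 F) : F.Closed ↔ dbar0 1 F.f20 = 0 := by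
  have h1 : ∀ x j, F.d21 x j = dbar0 1 F.f20 x j := by
    intro x j
    simp only [TwoF.d21, hF.1, pg_loc11_zero, pg_dz_zero]
    simp
  have h2 : ∀ x j, F.d12 x j = 0 := by
    intro x j
    have h3 : loc2 0 (chartAt C2 x) (0 : X → ℂ) = fun _ => 0 := by
      funext z
      simp [loc2]
    simp only [TwoF.d12, hF.1, hF.2, pg_loc11_zero, h3, pg_dz_zero, pg_dzb_zero]
    simp
  constructor
  · intro h
    funext x j
    rw [← h1]
    exact h.1 x j
  · intro h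
    exact ⟨fun x j => by rw [h1, h]; rfl, h2⟩

omit [TopologicalSpace X] [ChartedSpace C2 X] in
theorem pg_wedge {η : TwoF X} (h : Ty20 η) (F : TwoF X) :
    η.wedge F = fun x => η.f20 x * F.f02 x := by
  funext x
  simp [TwoF.wedge, h.1, h.2]

theorem pg_pair_congr {η : TwoF X} (h : Ty20 η) {F G : TwoF X} (hFG : F.f02 = G.f02) :
    pair η F = pair η G := by
  rw [pair, pair, pg_wedge h, pg_wedge h, hFG]

theorem pg_bar_smooth {η : TwoF X} (h : Ty20 η) (hs : η.Smooth) : η.bar.Smooth := by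
  refine ⟨?_, ?_, pg_reg2_conj hs.s20⟩
  · have h1 : η.bar.f20 = 0 := by
      funext x
      simp [TwoF.bar, h.2]
    rw [h1]
    exact reg0_zero 1
  · have h1 : η.bar.f11 = 0 := by
      funext x
      ext i j
      simp [TwoF.bar, h.1]
    rw [h1]
    exact pg_reg11_zero

omit [TopologicalSpace X] [ChartedSpace C2 X] in
theorem pg_f20_ne {η : TwoF X} (h : Ty20 η) (h0 : η ≠ 0) : ∃ x, η.f20 x ≠ 0 := by
  by_contra hc
  push Not at hc
  exact h0 (TwoF.ext (funext hc) h.1 h.2)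

end basic

variable {X : Type} [MetricSpace X] [CompactSpace X] [ConnectedSpace X] [ChartedSpace C2 X]
  [IsManifold 𝓘(ℂ, C2) ω X]

omit [ConnectedSpace X] in
theorem pos : StPos X := by
  intro η h hs h0
  obtain ⟨x₀, hx₀⟩ := pg_f20_ne h h0
  have h1 : η.wedge η.bar = fun x => ((Complex.normSq (η.f20 x) : ℝ) : ℂ) := by
    rw [pg_wedge h]
    funext x
    exact Complex.mul_conj _
  have h2 : Reg2 ∞ 1 (η.wedge η.bar) := P267.H469.wedge_mem hs (pg_bar_smooth h hs)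
  rw [pair]
  rw [h1] at h2 ⊢
  exact P267.H533.intX_re_pos (fun e he => (h2 e he).continuousOn)
    (HasCompactSupport.of_compactSpace _) (fun x => Complex.normSq_nonneg _)
    (Complex.normSq_pos.2 hx₀)

omit [CompactSpace X] [ConnectedSpace X] in
theorem pg_h0 {η : TwoF X} (h : PG η) : h0 (OX X) 0 1 = 1 := by
  obtain ⟨⟨hT, hs, hc⟩, h0', hg⟩ := h
  obtain ⟨x₀, hx₀⟩ := pg_f20_ne hT h0'
  have hmem : (fun x => up (η.f20 x)) ∈ H0 (OX X) 0 1 := by
    rw [mem_H0_OX]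
    refine ⟨reg0_clm up hs.s20, ?_⟩
    funext x i
    rw [dbar0_clm up ((hs.s20.at x).of_le (by simp)), (pg_closed_iff hT).1 hc]
    simp
  rw [h0]
  refine (finrank_eq_one_iff_of_nonzero' ⟨_, hmem⟩ ?_).2 ?_
  · intro h
    exact hx₀ (congrArg
      (fun s : H0 (OX X) 0 1 => dw ((s : X → EuclideanSpace ℂ (Fin 1)) x₀)) h)
  · rintro ⟨s, hs'⟩
    obtain ⟨h1, h2⟩ := mem_H0_OX.1 hs'
    have hT' : Ty20 (⟨fun x => dw (s x), 0, 0⟩ : TwoF X) := ⟨rfl, rfl⟩
    obtain ⟨t, ht⟩ := hg ⟨fun x => dw (s x), 0, 0⟩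
      ⟨hT', ⟨reg0_clm dw h1, pg_reg11_zero, reg2_zero 0⟩, (pg_closed_iff hT').2 (by
        funext y i
        change dbar0 1 (fun x => dw (s x)) y i = 0
        rw [dbar0_clm dw ((h1.at y).of_le (by simp)), h2]
        simp)⟩
    refine ⟨t, Subtype.ext ?_⟩
    funext x
    have h3 : dw (s x) = t • η.f20 x := congrFun (congrArg TwoF.f20 ht) x
    change t • up (η.f20 x) = s x
    rw [← up_dw (s x), h3, map_smul]

omit [ConnectedSpace X] in
/-- Stokes: a holomorphic two-form is orthogonal to the `∂̄`-exact forms -/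
theorem pg_stokes {η : TwoF X} (h : SC η) {w : X → Fin 2 → ℂ} (hw : Reg1 ∞ 0 w) :
    (⟨0, w⟩ : OneF X).d.Smooth ∧ pair η (⟨0, w⟩ : OneF X).d = 0 := by
  have hA : (⟨0, w⟩ : OneF X).Smooth := ⟨osmooth_zero.s10, hw⟩
  refine ⟨P267.H857.smooth_d hA, ?_⟩
  rw [P267.BlockC.pair_comm]
  exact pair_d' hA h.1 h.2 isCompact_univ fun x hx => absurd (mem_univ x) hx

omit [CompactSpace X] [ConnectedSpace X] in
theorem pg_mk_eq_zero {b : X → ℂ} (hb : (fun x => up (b x)) ∈ A2 (OX X) 0)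
    (h : (Submodule.Quotient.mk ⟨_, hb⟩ : H2 (OX X) 0 0) = 0) :
    ∃ w : X → Fin 2 → ℂ, Reg1 ∞ 0 w ∧ dbar1 0 w = b := by
  rw [Submodule.Quotient.mk_eq_zero] at h
  obtain ⟨w, ⟨hw1, -⟩, hw⟩ := (mem_B2 _ _ _).1 h
  refine ⟨fun x i => dw (w x i), reg1_clm dw hw1, ?_⟩
  funext x
  rw [dbar1_clm dw ((hw1.at x).of_le (by simp))]
  have h5 := congrFun hw x
  rw [db1_OX] at h5
  rw [h5]
  rfl

theorem pg : StPg X := by
  intro η h
  have hS := (rrBlock X).2.1
  have h1 : h2 (OX X) 0 0 = 1 := by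
    rw [(hS (Fin 1) (OX X) 0 isHol_OX 0).2.2, lb_eq_OX (OX X).dual, neg_zero, sub_zero]
    exact pg_h0 h
  refine ⟨h1, fun F hF hp => ?_⟩
  obtain ⟨⟨hT, hc⟩, h0', -⟩ := h
  have hb := pg_bar_smooth hT hc.1
  have hpos : pair η η.bar ≠ 0 := fun h0 => by
    have h3 := pos η hT hc.1 h0'
    rw [h0] at h3
    exact lt_irrefl _ h3
  have hm : (fun x => up (η.bar.f02 x)) ∈ A2 (OX X) 0 := ⟨reg2_clm up hb.s02, sec_OX _⟩
  have hm' : (fun x => up (F.f02 x)) ∈ A2 (OX X) 0 := ⟨reg2_clm up hF.s02, sec_OX _⟩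
  have hne : (Submodule.Quotient.mk ⟨_, hm⟩ : H2 (OX X) 0 0) ≠ 0 := fun h0 => by
    obtain ⟨w, hw, hw'⟩ := pg_mk_eq_zero hm h0
    exact hpos ((pg_pair_congr hT hw'.symm).trans (pg_stokes hc hw).2)
  obtain ⟨t, ht⟩ := (finrank_eq_one_iff_of_nonzero' _ hne).1 h1 (Submodule.Quotient.mk ⟨_, hm'⟩)
  have hG : (F + (-t) • η.bar).Smooth := smooth_add hF (smooth_smul _ hb)
  have hm'' : (fun x => up ((F + (-t) • η.bar).f02 x)) ∈ A2 (OX X) 0 :=
    ⟨reg2_clm up hG.s02, sec_OX _⟩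
  obtain ⟨w, hw, hw'⟩ := pg_mk_eq_zero hm'' (by
    have h3 : (⟨_, hm''⟩ : A2 (OX X) 0) = ⟨_, hm'⟩ - t • ⟨_, hm⟩ := by
      refine Subtype.ext (funext fun x => ?_)
      change up (F.f02 x + (-t) • η.bar.f02 x) = up (F.f02 x) - t • up (η.bar.f02 x)
      rw [map_add, map_smul, neg_smul, sub_eq_add_neg]
    rw [h3, Submodule.Quotient.mk_sub, Submodule.Quotient.mk_smul, ht, sub_self])
  have h4 : pair η (F + (-t) • η.bar) = 0 :=
    (pg_pair_congr hT hw'.symm).trans (pg_stokes hc hw).2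
  rw [P267.BlockC.pair_comm, pair_add hF (smooth_smul _ hb) hc.1
    (HasCompactSupport.of_compactSpace _) (HasCompactSupport.of_compactSpace _),
    pair_smul _ hb hc.1 (HasCompactSupport.of_compactSpace _), P267.BlockC.pair_comm F,
    P267.BlockC.pair_comm η.bar, hp, zero_add, mul_eq_zero] at h4
  have h5 : -t = 0 := h4.resolve_right hpos
  refine ⟨w, hw, ?_⟩
  rw [hw', h5, zero_smul, add_zero]

end Vale.Agent.P287Q.Sf
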