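import Vale.Agent.P287Q.Sf.Main
import Vale.Agent.P287Q.Sf.W
import Vale.Agent.P287Q.Sf.Api
import Vale.Agent.P287Q.Sf.Cls
import Vale.Agent.P287Q.Sf.Pt
import Vale.Agent.P287Q.Sf.Pair
import Vale.Agent.P287Q.Sf.SApi
import Vale.Agent.P287Q.Sf.Smo
import Vale.Agent.P287Q.Sf.Prs
import Vale.Agent.P287Q.Sf.D1
import Vale.Agent.P287Q.Sf.D2
import Vale.Agent.P287Q.Sf.Hg
import Vale.Agent.P287Q.Sf.Pg
import Vale.Agent.P287Q.Sf.Can
import Vale.Agent.P287Q.Sf.Adj
import Vale.Agent.P287Q.Sf.Fro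
import Vale.Agent.P287Q.Sf.Noe
import Vale.Agent.P287Q.Sf.HI
import Vale.Agent.P287Q.Mf.Surf

/-!
# P287, surfaces: the unconditional statements
-/

namespace Vale.Agent.P287Q.Sf

open P267.FL P267.BlockC
open scoped ContDiff Manifold

variable {X : Type} [MetricSpace X] [CompactSpace X] [ConnectedSpace X] [ChartedSpace C2 X]
  [IsManifold 𝓘(ℂ, C2) ω X]

theorem hapi : HApi X := Hg_api fine w0 (api_of fine w0 w1) sapi smo_st prs_st d1 d2

theorem stPair : StPair X := pair_of fine w0 pt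

/-- **The lattice of a surface with `p_g = 1`.** -/
theorem stMain : StMain X :=
  main_of (formFacts (curvThm X)) (api_of fine w0 w1) (cls X) (c1Int X) stPair hapi pos (can adj)
    (noe_of pg (fro_of pg)) (hi_of pg)

theorem stSf : Mf.StSf := fun _ _ _ _ _ _ => stMain

end Vale.Agent.P287Q.Sf
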