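import Vale.Agent.P287Q.Sf.Defs
import Vale.Agent.P267.H399.LBCurv
import Vale.Agent.P267.H469.Inst

/-!
# P287, surfaces: the tautological bundle of a holomorphic map to projective space
-/

set_option linter.unusedSectionVars false

namespace Vale.Agent.P287Q.Sf

open Set Function Topology Filter P267.FL P267.BlockC P267.RR Matrix
open scoped ContDiff Manifold ComplexConjugate ComplexOrder

variable {ι : Type} [Fintype ι] [DecidableEq ι]

/-- The orthogonal projector onto the line spanned by `u`. -/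
noncomputable def prL (u : ι → ℂ) : Matrix ι ι ℂ := (star u ⬝ᵥ u)⁻¹ • vecMulVec u (star u)

theorem prL_ne {u : ι → ℂ} (hu : u ≠ 0) : star u ⬝ᵥ u ≠ 0 :=
  fun h => hu (dotProduct_star_self_eq_zero.1 h)

theorem prL_mulVec (u v : ι → ℂ) : prL u *ᵥ v = ((star u ⬝ᵥ u)⁻¹ * (star u ⬝ᵥ v)) • u := by
  rw [prL, smul_mulVec, vecMulVec_mulVec, op_smul_eq_smul, smul_smul]

theorem prL_self {u : ι → ℂ} (hu : u ≠ 0) : prL u *ᵥ u = u := by
  rw [prL_mulVec, inv_mul_cancel₀ (prL_ne hu), one_smul]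

theorem mul_prL (M : Matrix ι ι ℂ) (u : ι → ℂ) :
    M * prL u = (star u ⬝ᵥ u)⁻¹ • vecMulVec (M *ᵥ u) (star u) := by
  rw [prL, Matrix.mul_smul, mul_vecMulVec]

theorem prL_herm (u : ι → ℂ) : (prL u)ᴴ = prL u := by
  rw [prL, conjTranspose_smul, conjTranspose_vecMulVec, star_star, star_inv₀, ← star_dotProduct_star,
    star_star]

theorem prL_smul {t : ℂ} (ht : t ≠ 0) (u : ι → ℂ) : prL (t • u) = prL u := by
  have : star t ≠ 0 := star_ne_zero.2 ht
  simp only [prL, star_smul, smul_dotProduct, dotProduct_smul, smul_vecMulVec, vecMulVec_smul,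
    smul_smul, smul_eq_mul]
  congr 1
  field_simp

theorem prL_trace {u : ι → ℂ} (hu : u ≠ 0) : (prL u).trace = 1 := by
  rw [prL, trace_smul, trace_vecMulVec, dotProduct_comm u, smul_eq_mul, inv_mul_cancel₀ (prL_ne hu)]

theorem prL_contDiffAt {u : C2 → ι → ℂ} {p : C2} (hu : AnalyticAt ℂ u p) (h0 : u p ≠ 0) (i j : ι) :
    ContDiffAt ℝ ∞ (fun z => prL (u z) i j) p := by
  have h1 : ∀ k, ContDiffAt ℝ ∞ (fun z => u z k) p := fun k =>
    contDiffAt_pi.1 (hu.contDiffAt.restrict_scalars ℝ) k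
  have h2 : ∀ k, ContDiffAt ℝ ∞ (fun z => conj (u z k)) p := fun k =>
    Complex.conjCLE.contDiff.contDiffAt.comp p (h1 k)
  exact ((ContDiffAt.sum fun k _ => (h2 k).mul (h1 k)).inv (prL_ne h0)).mul ((h1 i).mul (h2 j))

theorem mT_mulVec (T : FD) {Q : C2 → Matrix ι ι ℂ} {u : C2 → ι → ℂ} {p : C2} (hQ : MD Q p)
    (hu : ∀ k, DifferentiableAt ℝ (fun z => u z k) p) (h : ∀ᶠ z in 𝓝 p, Q z *ᵥ u z = u z) :
    mT T Q p *ᵥ u p = (fun k => dT T (fun z => u z k) p) - Q p *ᵥ fun k => dT T (fun z => u z k) p := by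
  funext i
  have h1 : (fun z => u z i) =ᶠ[𝓝 p] fun z => ∑ j, Q z i j * u z j :=
    h.mono fun z hz => (congrFun hz i).symm
  have h2 := dT_congr T h1
  rw [dT_sum T _ fun j _ => (hQ i j).fun_mul (hu j)] at h2
  simp only [dT_mul T (hQ i _) (hu _), Finset.sum_add_distrib] at h2
  exact eq_sub_of_add_eq h2.symm

variable {X : Type} [TopologicalSpace X] [ChartedSpace C2 X] [IsManifold 𝓘(ℂ, C2) ω X]

/-- `u` is a holomorphic frame of `L` near `x`. -/
structure Frm (L : LB X ι) (x : X) (u : C2 → ι → ℂ) : Prop where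
  an : AnalyticAt ℂ u (chartAt C2 x x)
  ne : u (chartAt C2 x x) ≠ 0
  eq : ∀ᶠ z in 𝓝 (chartAt C2 x x), L.Pc (chartAt C2 x) z = prL (u z)

/-- The derivatives of the projector, as vectors. -/
noncomputable def dP (L : LB X ι) (x : X) (k : Fin 2) : EuclideanSpace ℂ (ι × ι) :=
  WithLp.toLp 2 fun q => mT (Tz k) (L.Pc (chartAt C2 x)) (chartAt C2 x x) q.1 q.2

namespace Frm

variable {L : LB X ι} {x : X} {u : C2 → ι → ℂ} (h : Frm L x u)
include h

theorem diff (k : ι) : DifferentiableAt ℂ (fun z => u z k) (chartAt C2 x x) :=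
  differentiableAt_pi.1 h.an.differentiableAt k

theorem mulVec (T : FD) : mT T (L.Pc (chartAt C2 x)) (chartAt C2 x x) *ᵥ u (chartAt C2 x x) =
    (fun k => dT T (fun z => u z k) (chartAt C2 x x)) - prL (u (chartAt C2 x x)) *ᵥ
      fun k => dT T (fun z => u z k) (chartAt C2 x x) := by
  rw [← h.eq.self_of_nhds]
  refine mT_mulVec T (L.Pc_md (chart_mem_atlas C2 x) (mem_chart_target C2 x))
    (fun k => (h.diff k).restrictScalars ℝ) ?_
  filter_upwards [h.eq, h.an.continuousAt.eventually_ne h.ne] with z h1 h2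
  rw [h1, prL_self h2]

theorem bar_mul (l : Fin 2) : mT (Tb l) (L.Pc (chartAt C2 x)) (chartAt C2 x x) *
    L.Pc (chartAt C2 x) (chartAt C2 x x) = 0 := by
  have : (fun k => dT (Tb l) (fun z => u z k) (chartAt C2 x x)) = 0 :=
    funext fun k => (dT_Tb _ _ _).trans (dzb_of_hol (h.diff k) l)
  rw [h.eq.self_of_nhds, mul_prL, h.mulVec, this]
  simp

theorem curv : L.F20 x = 0 ∧ L.F02 x = 0 ∧ ∀ k l, L.F11 x k l = -gram ℂ (dP L x) l k := by
  have hQ := L.Pc_md (chart_mem_atlas C2 x) (mem_chart_target C2 x)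
  have h1 : ∀ l, L.Pc (chartAt C2 x) (chartAt C2 x x) *
      mT (Tb l) (L.Pc (chartAt C2 x)) (chartAt C2 x x) =
      mT (Tb l) (L.Pc (chartAt C2 x)) (chartAt C2 x x) := fun l => by
    have := mT_proj (Tb l) hQ L.Pc_idem
    rwa [h.bar_mul, zero_add] at this
  have h2 : ∀ l, L.Pc (chartAt C2 x) (chartAt C2 x x) *
      mT (Tz l) (L.Pc (chartAt C2 x)) (chartAt C2 x x) = 0 := fun l => by
    have := congrArg conjTranspose (h.bar_mul l)
    rwa [conjTranspose_mul, mT_herm_z hQ L.Pc_herm, (L.Pc_herm).self_of_nhds,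
      conjTranspose_zero] at this
  have h3 : ∀ k l, mT (Tb k) (L.Pc (chartAt C2 x)) (chartAt C2 x x) *
      mT (Tb l) (L.Pc (chartAt C2 x)) (chartAt C2 x x) = 0 := fun k l => by
    rw [← h1 l, ← Matrix.mul_assoc, h.bar_mul, Matrix.zero_mul]
  have h4 : L.F02 x = 0 := by rw [L.F02_crv, crv, h3, h3]; simp
  refine ⟨by rw [L.F20_eq_neg_conj, h4]; simp, h4, fun k l => ?_⟩
  rw [L.F11_crv, crv, Matrix.mul_sub, ← Matrix.mul_assoc, ← Matrix.mul_assoc, h1, h2,
    ← mT_herm_b hQ L.Pc_herm]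
  rw [Matrix.zero_mul, zero_sub, trace_neg]
  simp only [gram_apply, dP, PiLp.inner_apply, Fintype.sum_prod_type, trace, diag,
    Matrix.mul_apply, conjTranspose_apply]
  rw [Finset.sum_comm]
  simp [mul_comm]

theorem indep (hi : ∀ (c : C2) (t : ℂ), fderiv ℂ u (chartAt C2 x x) c = t • u (chartAt C2 x x) →
    c = 0) : LinearIndependent ℂ (dP L x) := by
  refine Fintype.linearIndependent_iff.2 fun c hc => congrFun (hi c ((star (u (chartAt C2 x x)) ⬝ᵥ
    u (chartAt C2 x x))⁻¹ * (star (u (chartAt C2 x x)) ⬝ᵥ fderiv ℂ u (chartAt C2 x x) c)) ?_)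
  have h1 : ∑ k, c k • mT (Tz k) (L.Pc (chartAt C2 x)) (chartAt C2 x x) = 0 := by
    ext i j
    simpa [dP, Matrix.sum_apply] using congrArg (fun v => v (i, j)) hc
  have h2 : ∀ k, (fun i => dT (Tz k) (fun z => u z i) (chartAt C2 x x)) =
      fderiv ℂ u (chartAt C2 x x) (Pi.single k 1) := fun k => funext fun i => by
    rw [dT_Tz, dz_of_hol (h.diff i), fderiv_pi h.diff]
    rfl
  have h3 : fderiv ℂ u (chartAt C2 x x) c =
      ∑ k, c k • fderiv ℂ u (chartAt C2 x x) (Pi.single k 1) := by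
    conv_lhs => rw [pi_eq_sum_univ' c, map_sum]
    simp only [map_smul]
  have h4 := congrArg (· *ᵥ u (chartAt C2 x x)) h1
  simp only [sum_mulVec, smul_mulVec, h.mulVec, h2, zero_mulVec, smul_sub,
    Finset.sum_sub_distrib, ← mulVec_smul, ← mulVec_sum, ← h3] at h4
  rw [← prL_mulVec]
  exact sub_eq_zero.1 h4

end Frm

/-- **A holomorphic line subbundle which is immersive at one point has positive square.** -/
theorem amp [T2Space X] [CompactSpace X] (L : LB X ι) (hL : ∀ x, ∃ u, Frm L x u) {x₀ : X}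
    (h0 : LinearIndependent ℂ (dP L x₀)) : Ty11 L.curv ∧ 0 < (isec L L).re := by
  choose u hu using hL
  refine ⟨⟨funext fun x => (hu x).curv.1, funext fun x => (hu x).curv.2.1⟩, ?_⟩
  have h1 : ∀ x, (((gram ℂ (dP L x)).det.re : ℝ) : ℂ) = (gram ℂ (dP L x)).det := fun x =>
    Complex.ext rfl (posSemidef_gram ℂ (dP L x)).det_nonneg.2
  have h2 : L.curv.wedge L.curv = fun x => -2 * (((gram ℂ (dP L x)).det.re : ℝ) : ℂ) := by
    funext x
    rw [h1, det_fin_two]
    simp only [TwoF.wedge, LB.curv, (hu x).curv.1, (hu x).curv.2.1, (hu x).curv.2.2]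
    ring
  have h3 : Reg2 ∞ 1 fun x => (((gram ℂ (dP L x)).det.re : ℝ) : ℂ) := by
    have := (P267.H469.S22 X).smul_mem (-1 / 2 : ℂ)
      (P267.H469.wedge_mem L.curv_smooth L.curv_smooth)
    rw [h2] at this
    have e : (fun x => (((gram ℂ (dP L x)).det.re : ℝ) : ℂ)) =
        (-1 / 2 : ℂ) • fun x => -2 * (((gram ℂ (dP L x)).det.re : ℝ) : ℂ) := by
      funext x
      simp only [Pi.smul_apply, smul_eq_mul]
      ring
    rwa [e]
  have hc : ∀ b : X → ℂ, HasCompactSupport b := fun _ => isClosed_closure.isCompact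
  have h4 := P267.H533.intX_re_pos (fun e he => (h3 e he).continuousOn) (hc _)
    (fun x => (posSemidef_gram ℂ (dP L x)).det_nonneg.1) (x₀ := x₀)
    (posDef_gram_of_linearIndependent h0).det_pos.1
  rw [isec, h2, P267.H533.intX_const_mul h3.locInt (hc _), ← mul_assoc]
  have e : -(1 / (4 * (Real.pi : ℂ) ^ 2)) * -2 = ((1 / (2 * Real.pi ^ 2) : ℝ) : ℂ) := by
    push_cast
    field_simp
    norm_num
  rw [e, Complex.re_ofReal_mul]
  positivity

end Vale.Agent.P287Q.Sf
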