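import Vale.Agent.P287Q.Sf.Amp
import Vale.Agent.P287Q.Mf.Api

/-!
# P287, surfaces: a projective surface carries a line bundle of positive square
-/

set_option linter.unusedSectionVars false

namespace Vale.Agent.P287Q.Sf

open Set Function Topology Filter P267.FL P267.BlockC P267.RR Matrix P269 P269.Holo P269.Tq
open P287Q.Mf (Pres)
open scoped ContDiff Manifold

variable {A W ι : Type} [NormedRing A] [NormedAlgebra ℂ A] [NormedAddCommGroup W] [NormedSpace ℂ W]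
  [FiniteDimensional ℂ A] [FiniteDimensional ℂ W] [Fintype ι] [DecidableEq ι] {S : Set W}

theorem sec_chart {X : Type} [TopologicalSpace X] [ChartedSpace C2 X] {π : S → X} (h : Pres 2 π)
    (y : S) : ∃ σ : C2 → W, AnalyticAt ℂ σ (chartAt C2 (π y) (π y)) ∧
      σ (chartAt C2 (π y) (π y)) = y ∧ ∀ᶠ z in 𝓝 (chartAt C2 (π y) (π y)),
        ∃ k : σ z ∈ S, π ⟨_, k⟩ = (chartAt C2 (π y)).symm z := by
  obtain ⟨σ, h1, h2, h3⟩ := h.sec y
  refine ⟨σ, h1, h2, ?_⟩
  filter_upwards [(Mf.tendsto_symm (π y)).eventually h3,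
    (chartAt C2 (π y)).eventually_right_inverse (mem_chart_target C2 (π y))] with z a b
  rwa [b] at a

variable {act : A → W → W} [IsAct act S] [IsAct act univ] {χ : A → ℂ} {φ : W → ι → ℂ}

theorem prL_out (e : Hb.Gen act S χ φ) (y : S) : prL (φ (Quo.mk act y).out) = prL (φ y) := by
  obtain ⟨a, ha, h⟩ := QMA.mk_eq (mk_out (Quo.mk act y)).symm
  rw [h, e.eqv a ha _ y.2, prL_smul (e.hm.isUnit ha).ne_zero]

variable [ChartedSpace C2 (Quo act S)]

theorem orb_kill (h : Pres 2 (Quo.mk act : S → Quo act S)) (y : S) {σ : C2 → W}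
    (h1 : AnalyticAt ℂ σ (chartAt C2 (Quo.mk act y) (Quo.mk act y)))
    (h2 : σ (chartAt C2 (Quo.mk act y) (Quo.mk act y)) = y)
    (h3 : ∀ᶠ z in 𝓝 (chartAt C2 (Quo.mk act y) (Quo.mk act y)),
      ∃ k : σ z ∈ S, Quo.mk act ⟨_, k⟩ = (chartAt C2 (Quo.mk act y)).symm z) {c : C2} {ξ : A}
    (hc : fderiv ℂ σ (chartAt C2 (Quo.mk act y) (Quo.mk act y)) c =
      fderiv ℂ (fun a => act a y.1) 1 ξ) : c = 0 := by
  have := FiniteDimensional.complete ℂ A
  obtain ⟨p, p1, p2⟩ := h.prj y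
  have p3 : ∀ᶠ w in 𝓝 y.1, ∀ k : w ∈ S, p w = chartAt C2 (Quo.mk act y) (Quo.mk act ⟨w, k⟩) := by
    rw [nhds_subtype, eventually_comap] at p2
    exact p2.mono fun w hw k => hw ⟨w, k⟩ rfl
  have a1 : AnalyticAt ℂ (fun a => act a y.1) 1 :=
    (IsAct.an (S := S) 1 isUnit_one _ y.2).comp₂ analyticAt_id analyticAt_const
  have a2 : act 1 y.1 = y := IsAct.one (S := S) _ y.2
  have e1 : fderiv ℂ (fun z => p (σ z)) (chartAt C2 (Quo.mk act y) (Quo.mk act y)) =
      fderiv ℂ (fun z => z) (chartAt C2 (Quo.mk act y) (Quo.mk act y)) := by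
    refine EventuallyEq.fderiv_eq ?_
    filter_upwards [h3, h1.continuousAt.eventually (h2.symm ▸ p3),
      (chartAt C2 (Quo.mk act y)).eventually_right_inverse (mem_chart_target C2 _)]
      with z ⟨k, a⟩ b d
    rw [b k, a, d]
  have e2 : fderiv ℂ (fun a => p (act a y.1)) 1 =
      fderiv ℂ (fun _ : A => chartAt C2 (Quo.mk act y) (Quo.mk act y)) 1 := by
    refine EventuallyEq.fderiv_eq ?_
    filter_upwards [a1.continuousAt.eventually (a2.symm ▸ p3),
      Units.isOpen.mem_nhds (isUnit_one (M := A))] with a b d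
    rw [b (IsAct.mem a d _ y.2), mk_act d y.2]
  rw [fderiv_comp_an (h2.symm ▸ p1) h1, fderiv_fun_id, h2] at e1
  rw [fderiv_comp_an (a2.symm ▸ p1) a1, fderiv_fun_const, a2] at e2
  have e3 : fderiv ℂ p y.1 (fderiv ℂ σ _ c) = c := congr($e1 c)
  rw [← e3, hc]
  exact congr($e2 ξ)

/-- **The pull-back of the tautological bundle under a projective embedding.** -/
theorem exists_amp [IsManifold 𝓘(ℂ, C2) ω (Quo act S)] [T2Space (Quo act S)]
    [CompactSpace (Quo act S)] (h : Pres 2 (Quo.mk act : S → Quo act S)) (e : Hb.Emb act S χ φ)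
    (y₀ : S) : ∃ L : ALB (Quo act S), Ty11 L.L.curv ∧ 0 < (isec L.L L.L).re := by
  choose σ h1 h2 h3 using sec_chart h
  have a1 : ∀ y : S, AnalyticAt ℂ φ (σ y (chartAt C2 (Quo.mk act y) (Quo.mk act y))) := fun y =>
    (h2 y).symm ▸ e.an _ y.2
  have a2 : ∀ y : S, φ (σ y (chartAt C2 (Quo.mk act y) (Quo.mk act y))) ≠ 0 := fun y =>
    (h2 y).symm ▸ e.ne _ y.2
  have a3 : ∀ y : S, ∀ᶠ z in 𝓝 (chartAt C2 (Quo.mk act y) (Quo.mk act y)),
      prL (φ ((chartAt C2 (Quo.mk act y)).symm z).out) = prL (φ (σ y z)) := fun y =>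
    (h3 y).mono fun z ⟨k, a⟩ => by rw [← a, prL_out e.toGen]
  let L : LB (Quo act S) ι :=
    { P := fun x => prL (φ x.out)
      smooth := fun i j => reg0_iff.2 fun x => by
        obtain ⟨y, rfl⟩ := mk_surj x
        rw [LB.loc0_zero]
        exact (prL_contDiffAt ((a1 y).comp (h1 y)) (a2 y) i j).congr_of_eventuallyEq
          ((a3 y).mono fun z hz => congrFun (congrFun hz i) j)
      herm := fun x => prL_herm _
      idem := fun x => by rw [mul_prL, prL_self (e.ne _ x.out.2), prL]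
      tr := fun x => prL_trace (e.ne _ x.out.2) }
  have f : ∀ y : S, Frm L (Quo.mk act y) fun z => φ (σ y z) := fun y =>
    ⟨(a1 y).comp (h1 y), a2 y, a3 y⟩
  refine ⟨⟨ι, L⟩, amp L (fun x => ?_) ((f y₀).indep fun c t hc => ?_)⟩
  · obtain ⟨y, rfl⟩ := mk_surj x
    exact ⟨_, f y⟩
  · rw [fderiv_comp_an (a1 y₀) (h1 y₀), h2] at hc
    obtain ⟨ξ, k⟩ := e.imm _ y₀.2 _
      (h2 y₀ ▸ fderiv_mem_tn (h1 y₀) ((h3 y₀).mono fun _ a => a.1) c) t hc
    exact orb_kill h y₀ (h1 y₀) (h2 y₀) (h3 y₀) k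

end Vale.Agent.P287Q.Sf
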