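import Vale.Agent.P287Q.Sf.Defs
import Vale.Agent.P267.H221.RRMain
import Vale.Agent.P267.H983.DictOm
import Vale.Agent.P267.H469.CalcInst

/-! # P287, surfaces: the second Betti number is at most `h^{1,1} + 2` -/

set_option linter.unusedSectionVars false

namespace Vale.Agent.P287Q.Sf

open Set Function Topology Filter P291Z P267.FL P267.BlockC P267.RR
open P267.H469 (S0 S10 S01 S11 S20 S02 S12 Om1 Om2 D1 D2 dbar11L dbar10L del1L del02L I22L)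
open P267.H983 (Co1)
open Module
open scoped ContDiff Manifold

namespace Fro

theorem fin_congr {A0 A1 A2 B0 B1 B2 : Type*} [AddCommGroup A0] [Module ℂ A0] [AddCommGroup A1]
    [Module ℂ A1] [AddCommGroup A2] [Module ℂ A2] [AddCommGroup B0] [Module ℂ B0]
    [AddCommGroup B1] [Module ℂ B1] [AddCommGroup B2] [Module ℂ B2]
    (d0 : A0 →ₗ[ℂ] A1) (d1 : A1 →ₗ[ℂ] A2) (e0 : B0 →ₗ[ℂ] B1) (e1 : B1 →ₗ[ℂ] B2)
    (f0 : A0 ≃ₗ[ℂ] B0) (f1 : A1 ≃ₗ[ℂ] B1) (f2 : A2 ≃ₗ[ℂ] B2)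
    (h0 : ∀ a, f1 (d0 a) = e0 (f0 a)) (h1 : ∀ a, f2 (d1 a) = e1 (f1 a))
    [FiniteDimensional ℂ (Co1 e0 e1)] : FiniteDimensional ℂ (Co1 d0 d1) := by
  let f : LinearMap.ker d1 →ₗ[ℂ] LinearMap.ker e1 :=
    ((f1 : A1 →ₗ[ℂ] B1).domRestrict _).codRestrict _ fun a => by
      change e1 (f1 a) = 0
      rw [← h1, LinearMap.mem_ker.1 a.2, map_zero]
  refine Module.Finite.of_injective
    (Submodule.mapQ ((LinearMap.range d0).comap (LinearMap.ker d1).subtype)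
      ((LinearMap.range e0).comap (LinearMap.ker e1).subtype) f ?_) ?_
  · rintro a ⟨b, hb⟩
    refine ⟨f0 b, ?_⟩
    rw [← h0, hb]
    rfl
  · rw [injective_iff_map_eq_zero]
    intro y hy
    obtain ⟨a, rfl⟩ := Submodule.Quotient.mk_surjective _ y
    rw [Submodule.mapQ_apply, Submodule.Quotient.mk_eq_zero] at hy
    obtain ⟨b, hb⟩ := hy
    refine (Submodule.Quotient.mk_eq_zero _).2 ⟨f0.symm b, f1.injective ?_⟩
    rw [h0, f0.apply_symm_apply, hb]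
    rfl

theorem finrank_le_two {V H Q : Type*} [AddCommGroup V] [Module ℂ V] [AddCommGroup H] [Module ℂ H]
    [AddCommGroup Q] [Module ℂ Q] [FiniteDimensional ℂ V] [FiniteDimensional ℂ H]
    (l : V →ₗ[ℂ] ℂ) (ψ : LinearMap.ker l →ₗ[ℂ] H) (q : V →ₗ[ℂ] Q) (hq : Injective q) (e : Q)
    (h : ∀ v, ψ v = 0 → ∃ s : ℂ, s • e = q v) : finrank ℂ V ≤ finrank ℂ H + 2 := by
  have e1 := l.finrank_range_add_finrank_ker
  have e2 := Submodule.finrank_le (LinearMap.range l)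
  have e3 := ψ.finrank_range_add_finrank_ker
  have e4 := Submodule.finrank_le (LinearMap.range ψ)
  have e5 : finrank ℂ (LinearMap.ker ψ) ≤ finrank ℂ (Submodule.span ℂ ({e} : Set Q)) := by
    refine LinearMap.finrank_le_finrank_of_injective
      (f := ((q.comp (LinearMap.ker l).subtype).comp (LinearMap.ker ψ).subtype).codRestrict _
        fun v => Submodule.mem_span_singleton.2 (h v.1 v.2)) ?_
    intro v w hvw
    exact Subtype.ext (Subtype.ext (hq (congrArg Subtype.val hvw)))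
  have e6 : finrank ℂ (Submodule.span ℂ ({e} : Set Q)) ≤ 1 := by
    simpa using finrank_span_le_card (R := ℂ) ({e} : Set Q)
  rw [Module.finrank_self] at e2
  omega

theorem abs {V O1 O2 O3 C M R N : Type*} [AddCommGroup V] [Module ℂ V] [AddCommGroup O1]
    [Module ℂ O1] [AddCommGroup O2] [Module ℂ O2] [AddCommGroup O3] [Module ℂ O3]
    [AddCommGroup C] [Module ℂ C] [AddCommGroup M] [Module ℂ M] [AddCommGroup R] [Module ℂ R]
    [AddCommGroup N] [Module ℂ N] [FiniteDimensional ℂ V]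
    (D1 : O1 →ₗ[ℂ] O2) (D2 : O2 →ₗ[ℂ] O3) (p11 : O2 →ₗ[ℂ] M) (p02 : O2 →ₗ[ℂ] R)
    (d10 : C →ₗ[ℂ] M) (d11 : M →ₗ[ℂ] N) (ι : C →ₗ[ℂ] O1) (l₀ : O2 →ₗ[ℂ] ℂ) (η : O2)
    (Φ : V →ₗ[ℂ] O2) [FiniteDimensional ℂ (Co1 d10 d11)]
    (hDD : ∀ A, D2 (D1 A) = 0) (h11 : ∀ c, p11 (D1 (ι c)) = d10 c)
    (h02 : ∀ c, p02 (D1 (ι c)) = 0) (hm : ∀ F, D2 F = 0 → p02 F = 0 → d11 (p11 F) = 0)
    (hl : ∀ F, l₀ F = 0 → ∃ A, p02 (D1 A) = p02 F)
    (hpg : ∀ E, D2 E = 0 → p11 E = 0 → p02 E = 0 → ∃ s : ℂ, E = s • η)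
    (hc : ∀ t, D2 (Φ t) = 0) (hi : ∀ t A, D1 A = Φ t → t = 0) :
    finrank ℂ V ≤ finrank ℂ (Co1 d10 d11) + 2 := by
  let l : V →ₗ[ℂ] ℂ := l₀.comp Φ
  let b := Module.finBasis ℂ (LinearMap.ker l)
  choose A hA using fun i => hl (Φ (b i)) (b i).2
  let σ : LinearMap.ker l →ₗ[ℂ] O1 := b.constr ℂ A
  let G : LinearMap.ker l →ₗ[ℂ] O2 := Φ.comp (LinearMap.ker l).subtype - D1.comp σ
  have hG : ∀ t, G t = Φ t - D1 (σ t) := fun t => rfl
  have hG2 : ∀ t, p02 (G t) = 0 := by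
    have : p02.comp G = 0 := by
      refine b.ext fun i => ?_
      rw [LinearMap.comp_apply, hG, map_sub, Basis.constr_basis, hA, sub_self]
      rfl
    exact fun t => LinearMap.congr_fun this t
  have hGc : ∀ t, D2 (G t) = 0 := fun t => by
    rw [hG, map_sub, hc, hDD, sub_zero]
  let m : LinearMap.ker l →ₗ[ℂ] LinearMap.ker d11 :=
    (p11.comp G).codRestrict _ fun t => hm _ (hGc t) (hG2 t)
  refine finrank_le_two l
    (((LinearMap.range d10).comap (LinearMap.ker d11).subtype).mkQ.comp m)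
    ((LinearMap.range D1).mkQ.comp Φ) ?_ (Submodule.Quotient.mk η) ?_
  · rw [injective_iff_map_eq_zero]
    intro t ht
    obtain ⟨B, hB⟩ := (Submodule.Quotient.mk_eq_zero _).1 ht
    exact hi t B hB
  · intro t ht
    obtain ⟨c, hc'⟩ := (Submodule.Quotient.mk_eq_zero _).1 ht
    have hc2 : d10 c = p11 (G t) := hc'
    obtain ⟨s, hs⟩ := hpg (G t - D1 (ι c)) (by rw [map_sub, hGc, hDD, sub_zero])
      (by rw [map_sub, h11, hc2, sub_self]) (by rw [map_sub, hG2, h02, sub_self])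
    refine ⟨s, ?_⟩
    rw [← Submodule.Quotient.mk_smul, ← hs]
    refine (Submodule.Quotient.eq _).2 ⟨-(σ t + ι c), ?_⟩
    rw [map_neg, map_add]
    change _ = G t - D1 (ι c) - Φ t
    rw [hG]
    abel

variable {X : Type} [TopologicalSpace X] [T2Space X] [CompactSpace X] [ChartedSpace C2 X]
  [IsManifold 𝓘(ℂ, C2) ω X]

/-- a smooth two-form -/
def toOm2 (F : TwoF X) (h : F.Smooth) : Om2 X := (⟨F.f20, h.s20⟩, ⟨F.f11, h.s11⟩, ⟨F.f02, h.s02⟩)

/-- the underlying two-form -/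
def ofOm2 : Om2 X →ₗ[ℂ] TwoF X where
  toFun F := ⟨F.1, F.2.1, F.2.2⟩
  map_add' _ _ := rfl
  map_smul' _ _ := rfl

theorem ofOm2_inj {A B : Om2 X} (h : ofOm2 A = ofOm2 B) : A = B :=
  Prod.ext (Subtype.ext (congrArg TwoF.f20 h)) (Prod.ext (Subtype.ext (congrArg TwoF.f11 h))
    (Subtype.ext (congrArg TwoF.f02 h)))

theorem ofOm2_toOm2 (A : TwoF X) (h : A.Smooth) : ofOm2 (toOm2 A h) = A := rfl

theorem ofOm2_smooth (A : Om2 X) : (ofOm2 A).Smooth := ⟨A.1.2, A.2.1.2, A.2.2.2⟩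

theorem D2_eq_zero {F : Om2 X} : D2 F = 0 ↔ (ofOm2 F).Closed := by
  have h12 : (ofOm2 F).d12 = ((D2 F).2 : X → Fin 2 → ℂ) := P267.H469.d12_eq (ofOm2 F)
  have h21 : (ofOm2 F).d21 = ((D2 F).1 : X → Fin 2 → ℂ) := rfl
  unfold TwoF.Closed
  rw [h12, h21]
  constructor
  · intro h
    rw [h]
    exact ⟨fun _ _ => rfl, fun _ _ => rfl⟩
  · rintro ⟨h1, h2⟩
    exact Prod.ext (Subtype.ext (funext fun x => funext fun j => h1 x j))
      (Subtype.ext (funext fun x => funext fun j => h2 x j))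

theorem d1_inl (c : S10 X) : (D1 ((c, 0) : Om1 X)).2.1 = dbar10L c := by
  change del1L (0 : S01 X) + dbar10L c = _
  rw [map_zero, zero_add]

theorem d1_inl' (c : S10 X) : (D1 ((c, 0) : Om1 X)).2.2 = 0 :=
  map_zero (P267.H469.dbar1L (X := X))

theorem d2_mid (F : Om2 X) (h : D2 F = 0) (h' : F.2.2 = 0) : dbar11L F.2.1 = 0 := by
  have h1 : dbar11L F.2.1 + del02L F.2.2 = 0 := congrArg Prod.snd h
  rwa [h', map_zero, add_zero] at h1

theorem fin11 : FiniteDimensional ℂ (Co1 (dbar10L (X := X)) dbar11L) := by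
  obtain ⟨A, -⟩ := P267.H439.exists_finAt (X := X) (p := fun _ => True)
    (fun x => ⟨univ, isOpen_univ, mem_univ x, trivial⟩) fun _ _ _ _ => trivial
  obtain ⟨P, -⟩ := (P267.RR.analytic X).ps A 2 (P267.H983.omBun A)
  obtain ⟨C, hC⟩ := (P267.RR.analytic X).cplx A 2 (P267.H983.omBun A) P
  have := hC.fin1
  exact fin_congr _ _ _ _ (P267.H983.F0 A) (P267.H983.F1 A) (P267.H983.F2 A) P267.H983.F1_d10
    P267.H983.F2_d11

end Fro

variable {X : Type} [MetricSpace X] [CompactSpace X] [ChartedSpace C2 X]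
  [IsManifold 𝓘(ℂ, C2) ω X]

open Fro in
theorem fro_of (h1 : StPg X) : StFro X := by
  intro η hη r F hF
  have hfin := Fro.fin11 (X := X)
  let Φ : (Fin r → ℂ) →ₗ[ℂ] Om2 X := Fintype.linearCombination ℂ fun i => toOm2 (F i) (hF.1 i).1
  have hΦ : ∀ t, ofOm2 (Φ t) = ∑ i, t i • F i := fun t => by
    simp only [Φ, Fintype.linearCombination_apply, map_sum, map_smul, ofOm2_toOm2]
  have key := Fro.abs (D1 (X := X)) D2 ((LinearMap.fst ℂ _ _).comp (LinearMap.snd ℂ _ _))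
    ((LinearMap.snd ℂ _ _).comp (LinearMap.snd ℂ _ _)) dbar10L dbar11L (LinearMap.inl ℂ _ _)
    (I22L (toOm2 η hη.1.2.1)) (toOm2 η hη.1.2.1) Φ P267.H469.D2_D1 d1_inl d1_inl' d2_mid
    ?_ ?_ ?_ ?_
  · rw [Module.finrank_fin_fun] at key
    rw [P267.H983.h11_eq]
    exact key
  · intro G hG
    obtain ⟨w, hw, e⟩ := (h1 η hη).2 (ofOm2 G) (ofOm2_smooth _) hG
    exact ⟨(0, ⟨w, hw⟩), Subtype.ext e⟩
  · intro E e3 e1 e2
    obtain ⟨s, hs⟩ := hη.2.2 (ofOm2 E) ⟨⟨congrArg Subtype.val e1, congrArg Subtype.val e2⟩,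
      ofOm2_smooth E, D2_eq_zero.1 e3⟩
    exact ⟨s, ofOm2_inj (by rw [hs, map_smul, ofOm2_toOm2])⟩
  · intro t
    simp only [Φ, Fintype.linearCombination_apply, map_sum, map_smul]
    refine Finset.sum_eq_zero fun i _ => ?_
    rw [(D2_eq_zero (F := toOm2 (F i) (hF.1 i).1)).2 (hF.1 i).2, smul_zero]
  · intro t B hB
    refine hF.2 t ⟨⟨B.1, B.2⟩, ⟨B.1.2, B.2.2⟩, ?_⟩
    rw [← hΦ, ← hB]
    rfl

end Vale.Agent.P287Q.Sf
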